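import Vale.Agent.Lib.P113.Defs

/-!
Primitive recursive approximation of real valued functions through rational codes:
closure under sums, products, powers, finite sums, case distinction and inverses, and the
exponential of a rational number.  This is the arithmetic core of the effectivity part.
-/

namespace Vale.Agent.Lib.P113

open Finset

namespace RatCode

/-- Sum of codes. -/
def add (p q : RatCode) : RatCode :=
  (p.1 * (q.2.2 + 1) + q.1 * (p.2.2 + 1), p.2.1 * (q.2.2 + 1) + q.2.1 * (p.2.2 + 1),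
    (p.2.2 + 1) * (q.2.2 + 1) - 1)

/-- Product of codes. -/
def mul (p q : RatCode) : RatCode :=
  (p.1 * q.1 + p.2.1 * q.2.1, p.1 * q.2.1 + p.2.1 * q.1, (p.2.2 + 1) * (q.2.2 + 1) - 1)

/-- Negative of a code. -/
def neg (p : RatCode) : RatCode := (p.2.1, p.1, p.2.2)

/-- The code of a natural number. -/
def ofNat (n : ℕ) : RatCode := (n, 0, 0)

/-- The code of `1 / (n + 1)`. -/
def invSucc (n : ℕ) : RatCode := (1, 0, n)

/-- A natural number bounding the absolute value of a code. -/
def bd (p : RatCode) : ℕ := p.1 + p.2.1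

/-- Inverse of a code with positive value (junk otherwise). -/
def inv (p : RatCode) : RatCode := (p.2.2 + 1, 0, p.1 - p.2.1 - 1)

/-- Comparison of codes. -/
def leB (p q : RatCode) : Prop :=
  p.1 * (q.2.2 + 1) + q.2.1 * (p.2.2 + 1) ≤ q.1 * (p.2.2 + 1) + p.2.1 * (q.2.2 + 1)

instance (p q : RatCode) : Decidable (leB p q) := by unfold leB; infer_instance

theorem val_def (p : RatCode) : p.val = ((p.1 : ℝ) - (p.2.1 : ℝ)) / ((p.2.2 : ℝ) + 1) := rfl

private theorem den_pos (p : RatCode) : (0 : ℝ) < (p.2.2 : ℝ) + 1 := by positivity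

private theorem cast_den (p q : RatCode) :
    ((((p.2.2 + 1) * (q.2.2 + 1) - 1 : ℕ) : ℝ) + 1) = ((p.2.2 : ℝ) + 1) * ((q.2.2 : ℝ) + 1) := by
  have h : 1 ≤ (p.2.2 + 1) * (q.2.2 + 1) := Nat.mul_pos (Nat.succ_pos _) (Nat.succ_pos _)
  rw [Nat.cast_sub h]
  push_cast
  ring

theorem val_add (p q : RatCode) : (add p q).val = p.val + q.val := by
  have hp := den_pos p
  have hq := den_pos q
  simp only [val_def, add, cast_den]
  push_cast
  field_simp
  ring

theorem val_mul (p q : RatCode) : (mul p q).val = p.val * q.val := by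
  have hp := den_pos p
  have hq := den_pos q
  simp only [val_def, mul, cast_den]
  push_cast
  field_simp
  ring

theorem val_neg (p : RatCode) : (neg p).val = - p.val := by
  simp only [val_def, neg]
  ring

theorem val_ofNat (n : ℕ) : (ofNat n).val = n := by
  simp [val_def, ofNat]

theorem val_invSucc (n : ℕ) : (invSucc n).val = 1 / ((n : ℝ) + 1) := by
  simp [val_def, invSucc]

theorem abs_val_le_bd (p : RatCode) : |p.val| ≤ bd p := by
  have hp := den_pos p
  rw [val_def, abs_div, abs_of_pos hp, div_le_iff₀ hp]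
  have h1 : |(p.1 : ℝ) - p.2.1| ≤ (p.1 : ℝ) + p.2.1 := by
    rw [abs_le]; constructor <;> nlinarith [(Nat.cast_nonneg p.1 : (0 : ℝ) ≤ p.1),
      (Nat.cast_nonneg p.2.1 : (0 : ℝ) ≤ p.2.1)]
  have h2 : (0 : ℝ) ≤ (p.2.2 : ℝ) := Nat.cast_nonneg _
  have h3 : (0 : ℝ) ≤ ((p.1 + p.2.1 : ℕ) : ℝ) := Nat.cast_nonneg _
  simp only [bd]
  push_cast at h3 ⊢
  nlinarith

theorem leB_iff (p q : RatCode) : leB p q ↔ p.val ≤ q.val := by
  have hp := den_pos p
  have hq := den_pos q
  rw [val_def, val_def, div_le_div_iff₀ hp hq, leB]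
  have : (p.1 * (q.2.2 + 1) + q.2.1 * (p.2.2 + 1) ≤ q.1 * (p.2.2 + 1) + p.2.1 * (q.2.2 + 1)) ↔
      ((p.1 * (q.2.2 + 1) + q.2.1 * (p.2.2 + 1) : ℕ) : ℝ) ≤
        ((q.1 * (p.2.2 + 1) + p.2.1 * (q.2.2 + 1) : ℕ) : ℝ) := Nat.cast_le.symm
  rw [this]
  push_cast
  constructor <;> intro h <;> nlinarith

theorem val_inv (p : RatCode) (h : 0 < p.val) : (inv p).val = (p.val)⁻¹ := by
  have hp := den_pos p
  have hlt : p.2.1 < p.1 := by
    have : 0 < (p.1 : ℝ) - p.2.1 := by
      rw [val_def] at h
      by_contra hc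
      have hc' : (p.1 : ℝ) - p.2.1 ≤ 0 := not_lt.mp hc
      have := div_nonpos_of_nonpos_of_nonneg hc' hp.le
      linarith
    have : (p.2.1 : ℝ) < p.1 := by linarith
    exact_mod_cast this
  have hc : (((p.1 - p.2.1 - 1 : ℕ) : ℝ) + 1) = (p.1 : ℝ) - p.2.1 := by
    have h1 : 1 ≤ p.1 - p.2.1 := by omega
    rw [Nat.cast_sub h1, Nat.cast_sub hlt.le]
    push_cast
    ring
  have hne : (p.1 : ℝ) - p.2.1 ≠ 0 := by
    have : (p.2.1 : ℝ) < p.1 := by exact_mod_cast hlt
    linarith
  simp only [val_def, inv, hc]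
  push_cast
  field_simp
  ring

theorem primrec_add : Primrec₂ add := by
  have h1 : Primrec (fun x : RatCode × RatCode => x.1.1) := Primrec.fst.comp Primrec.fst
  have h2 : Primrec (fun x : RatCode × RatCode => x.1.2.1) :=
    Primrec.fst.comp (Primrec.snd.comp Primrec.fst)
  have h3 : Primrec (fun x : RatCode × RatCode => x.1.2.2) :=
    Primrec.snd.comp (Primrec.snd.comp Primrec.fst)
  have h4 : Primrec (fun x : RatCode × RatCode => x.2.1) := Primrec.fst.comp Primrec.snd
  have h5 : Primrec (fun x : RatCode × RatCode => x.2.2.1) :=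
    Primrec.fst.comp (Primrec.snd.comp Primrec.snd)
  have h6 : Primrec (fun x : RatCode × RatCode => x.2.2.2) :=
    Primrec.snd.comp (Primrec.snd.comp Primrec.snd)
  have s3 : Primrec (fun x : RatCode × RatCode => x.1.2.2 + 1) := Primrec.succ.comp h3
  have s6 : Primrec (fun x : RatCode × RatCode => x.2.2.2 + 1) := Primrec.succ.comp h6
  exact Primrec.pair
    (Primrec.nat_add.comp (Primrec.nat_mul.comp h1 s6) (Primrec.nat_mul.comp h4 s3))
    (Primrec.pair
      (Primrec.nat_add.comp (Primrec.nat_mul.comp h2 s6) (Primrec.nat_mul.comp h5 s3))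
      (Primrec.nat_sub.comp (Primrec.nat_mul.comp s3 s6) (Primrec.const 1)))

theorem primrec_mul : Primrec₂ mul := by
  have h1 : Primrec (fun x : RatCode × RatCode => x.1.1) := Primrec.fst.comp Primrec.fst
  have h2 : Primrec (fun x : RatCode × RatCode => x.1.2.1) :=
    Primrec.fst.comp (Primrec.snd.comp Primrec.fst)
  have h3 : Primrec (fun x : RatCode × RatCode => x.1.2.2) :=
    Primrec.snd.comp (Primrec.snd.comp Primrec.fst)
  have h4 : Primrec (fun x : RatCode × RatCode => x.2.1) := Primrec.fst.comp Primrec.snd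
  have h5 : Primrec (fun x : RatCode × RatCode => x.2.2.1) :=
    Primrec.fst.comp (Primrec.snd.comp Primrec.snd)
  have h6 : Primrec (fun x : RatCode × RatCode => x.2.2.2) :=
    Primrec.snd.comp (Primrec.snd.comp Primrec.snd)
  have s3 : Primrec (fun x : RatCode × RatCode => x.1.2.2 + 1) := Primrec.succ.comp h3
  have s6 : Primrec (fun x : RatCode × RatCode => x.2.2.2 + 1) := Primrec.succ.comp h6
  exact Primrec.pair
    (Primrec.nat_add.comp (Primrec.nat_mul.comp h1 h4) (Primrec.nat_mul.comp h2 h5))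
    (Primrec.pair
      (Primrec.nat_add.comp (Primrec.nat_mul.comp h1 h5) (Primrec.nat_mul.comp h2 h4))
      (Primrec.nat_sub.comp (Primrec.nat_mul.comp s3 s6) (Primrec.const 1)))

theorem primrec_neg : Primrec neg :=
  Primrec.pair (Primrec.fst.comp Primrec.snd)
    (Primrec.pair Primrec.fst (Primrec.snd.comp Primrec.snd))

theorem primrec_ofNat : Primrec ofNat :=
  Primrec.pair Primrec.id (Primrec.const (0, 0))

theorem primrec_invSucc : Primrec invSucc :=
  Primrec.pair (Primrec.const 1) (Primrec.pair (Primrec.const 0) Primrec.id)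

theorem primrec_bd : Primrec bd :=
  Primrec.nat_add.comp Primrec.fst (Primrec.fst.comp Primrec.snd)

theorem primrec_inv : Primrec inv :=
  Primrec.pair (Primrec.succ.comp (Primrec.snd.comp Primrec.snd))
    (Primrec.pair (Primrec.const 0)
      (Primrec.nat_sub.comp
        (Primrec.nat_sub.comp Primrec.fst (Primrec.fst.comp Primrec.snd)) (Primrec.const 1)))

theorem primrecRel_leB : PrimrecRel leB := by
  have h1 : Primrec (fun x : RatCode × RatCode => x.1.1) := Primrec.fst.comp Primrec.fst
  have h2 : Primrec (fun x : RatCode × RatCode => x.1.2.1) :=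
    Primrec.fst.comp (Primrec.snd.comp Primrec.fst)
  have h3 : Primrec (fun x : RatCode × RatCode => x.1.2.2) :=
    Primrec.snd.comp (Primrec.snd.comp Primrec.fst)
  have h4 : Primrec (fun x : RatCode × RatCode => x.2.1) := Primrec.fst.comp Primrec.snd
  have h5 : Primrec (fun x : RatCode × RatCode => x.2.2.1) :=
    Primrec.fst.comp (Primrec.snd.comp Primrec.snd)
  have h6 : Primrec (fun x : RatCode × RatCode => x.2.2.2) :=
    Primrec.snd.comp (Primrec.snd.comp Primrec.snd)
  have s3 : Primrec (fun x : RatCode × RatCode => x.1.2.2 + 1) := Primrec.succ.comp h3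
  have s6 : Primrec (fun x : RatCode × RatCode => x.2.2.2 + 1) := Primrec.succ.comp h6
  have := Primrec.nat_le.comp
    (Primrec.nat_add.comp (Primrec.nat_mul.comp h1 s6) (Primrec.nat_mul.comp h5 s3))
    (Primrec.nat_add.comp (Primrec.nat_mul.comp h4 s3) (Primrec.nat_mul.comp h2 s6))
  exact this

end RatCode

open RatCode

/-- `g` has a primitive recursive scheme of rational approximations. -/
def Approx {α : Type*} [Primcodable α] (g : α → ℝ) : Prop :=
  ∃ r : α → ℕ → RatCode, Primrec₂ r ∧ ∀ a k, |(r a k).val - g a| ≤ (1 / 2 : ℝ) ^ k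

section closure

variable {α β : Type*} [Primcodable α] [Primcodable β]

theorem two_pow_bound (n : ℕ) : (n : ℝ) * (1 / 2 : ℝ) ^ n ≤ 1 := by
  have h : (n : ℝ) ≤ 2 ^ n := by exact_mod_cast Nat.lt_two_pow_self.le
  have h2 : (0 : ℝ) < 2 ^ n := by positivity
  rw [one_div, inv_pow, ← div_eq_mul_inv]
  exact (div_le_one h2).mpr h

theorem Approx.congr {f g : α → ℝ} (hf : Approx f) (h : ∀ a, f a = g a) : Approx g := by
  obtain ⟨r, hr, he⟩ := hf
  exact ⟨r, hr, fun a k => by rw [← h]; exact he a k⟩

/-- Values of a primitive recursive function into codes. -/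
theorem Approx.ofCode {h : α → RatCode} (hh : Primrec h) : Approx (fun a => (h a).val) :=
  ⟨fun a _ => h a, hh.comp Primrec.fst, fun a k => by simp⟩

theorem Approx.const (q : RatCode) : Approx (fun _ : α => q.val) :=
  Approx.ofCode (Primrec.const q)

theorem Approx.zero : Approx (fun _ : α => (0 : ℝ)) :=
  (Approx.const (0, 0, 0)).congr (fun _ => by simp [RatCode.val])

theorem Approx.one : Approx (fun _ : α => (1 : ℝ)) :=
  (Approx.const (1, 0, 0)).congr (fun _ => by simp [RatCode.val])

theorem Approx.comp {g : β → ℝ} (hg : Approx g) {h : α → β} (hh : Primrec h) :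
    Approx (fun a => g (h a)) := by
  obtain ⟨r, hr, he⟩ := hg
  exact ⟨fun a k => r (h a) k, hr.comp (hh.comp Primrec.fst) Primrec.snd, fun a k => he (h a) k⟩

theorem Approx.add {f g : α → ℝ} (hf : Approx f) (hg : Approx g) :
    Approx (fun a => f a + g a) := by
  obtain ⟨r, hr, he⟩ := hf
  obtain ⟨s, hs, hs'⟩ := hg
  refine ⟨fun a k => RatCode.add (r a (k + 1)) (s a (k + 1)), ?_, fun a k => ?_⟩
  · exact primrec_add.comp (hr.comp Primrec.fst (Primrec.succ.comp Primrec.snd))
      (hs.comp Primrec.fst (Primrec.succ.comp Primrec.snd))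
  · rw [val_add]
    have h1 := he a (k + 1)
    have h2 := hs' a (k + 1)
    have h3 : (r a (k + 1)).val + (s a (k + 1)).val - (f a + g a)
        = ((r a (k + 1)).val - f a) + ((s a (k + 1)).val - g a) := by ring
    rw [h3]
    refine (abs_add_le _ _).trans ?_
    have h4 : (1 / 2 : ℝ) ^ (k + 1) + (1 / 2 : ℝ) ^ (k + 1) = (1 / 2 : ℝ) ^ k := by
      rw [pow_succ]; ring
    linarith

theorem Approx.neg {f : α → ℝ} (hf : Approx f) : Approx (fun a => - f a) := by
  obtain ⟨r, hr, he⟩ := hf
  refine ⟨fun a k => RatCode.neg (r a k), primrec_neg.comp hr, fun a k => ?_⟩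
  rw [val_neg]
  have h1 := he a k
  have h3 : -(r a k).val - -f a = -((r a k).val - f a) := by ring
  rw [h3, abs_neg]
  exact h1

theorem Approx.sub {f g : α → ℝ} (hf : Approx f) (hg : Approx g) :
    Approx (fun a => f a - g a) :=
  (hf.add hg.neg).congr (fun a => by ring)

/-- A natural number bound for an approximable function, computed from the scheme. -/
theorem Approx.exists_bound {f : α → ℝ} {r : α → ℕ → RatCode}
    (he : ∀ a k, |(r a k).val - f a| ≤ (1 / 2 : ℝ) ^ k) (a : α) :
    |f a| ≤ (bd (r a 0) + 1 : ℕ) := by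
  have h1 := he a 0
  have h2 := abs_val_le_bd (r a 0)
  have h3 : |f a| ≤ |(r a 0).val| + |(r a 0).val - f a| := by
    have := abs_sub_abs_le_abs_sub (f a) (r a 0).val
    rw [abs_sub_comm] at this
    linarith
  simp only [pow_zero] at h1
  push_cast
  linarith

theorem Approx.mul {f g : α → ℝ} (hf : Approx f) (hg : Approx g) :
    Approx (fun a => f a * g a) := by
  obtain ⟨r, hr, he⟩ := hf
  obtain ⟨s, hs, hs'⟩ := hg
  let N : α → ℕ := fun a => (bd (r a 0) + 1) + (bd (s a 0) + 1) + 1
  have hN : Primrec N := by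
    have h1 : Primrec (fun a => bd (r a 0)) :=
      primrec_bd.comp (hr.comp Primrec.id (Primrec.const 0))
    have h2 : Primrec (fun a => bd (s a 0)) :=
      primrec_bd.comp (hs.comp Primrec.id (Primrec.const 0))
    exact Primrec.succ.comp (Primrec.nat_add.comp (Primrec.succ.comp h1) (Primrec.succ.comp h2))
  refine ⟨fun a k => RatCode.mul (r a (k + N a)) (s a (k + N a)), ?_, fun a k => ?_⟩
  · have hk : Primrec (fun x : α × ℕ => x.2 + N x.1) :=
      Primrec.nat_add.comp Primrec.snd (hN.comp Primrec.fst)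
    exact primrec_mul.comp (hr.comp Primrec.fst hk) (hs.comp Primrec.fst hk)
  · rw [val_mul]
    set x := (r a (k + N a)).val
    set y := (s a (k + N a)).val
    have h1 : |x - f a| ≤ (1 / 2 : ℝ) ^ (k + N a) := he a _
    have h2 : |y - g a| ≤ (1 / 2 : ℝ) ^ (k + N a) := hs' a _
    have b1 : |f a| ≤ (bd (r a 0) + 1 : ℕ) := Approx.exists_bound he a
    have b2 : |g a| ≤ (bd (s a 0) + 1 : ℕ) := Approx.exists_bound hs' a
    have hε : (1 / 2 : ℝ) ^ (k + N a) ≤ 1 := pow_le_one₀ (by norm_num) (by norm_num)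
    have hε0 : (0 : ℝ) ≤ (1 / 2 : ℝ) ^ (k + N a) := by positivity
    have h3 : x * y - f a * g a = (x - f a) * y + f a * (y - g a) := by ring
    have hy : |y| ≤ (bd (s a 0) + 1 : ℕ) + 1 := by
      have := abs_sub_abs_le_abs_sub y (g a)
      linarith
    have h4 : |x * y - f a * g a| ≤
        (1 / 2 : ℝ) ^ (k + N a) * (((bd (s a 0) + 1 : ℕ) : ℝ) + 1) +
          ((bd (r a 0) + 1 : ℕ) : ℝ) * (1 / 2 : ℝ) ^ (k + N a) := by
      rw [h3]
      refine (abs_add_le _ _).trans ?_
      rw [abs_mul, abs_mul]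
      exact add_le_add (mul_le_mul h1 hy (abs_nonneg _) hε0) (mul_le_mul b1 h2 (abs_nonneg _)
        (Nat.cast_nonneg _))
    refine h4.trans ?_
    have h5 := two_pow_bound (N a)
    have h6 : (1 / 2 : ℝ) ^ (k + N a) = (1 / 2 : ℝ) ^ k * (1 / 2 : ℝ) ^ N a := pow_add _ _ _
    have h7 : ((N a : ℕ) : ℝ) = ((bd (r a 0) + 1 : ℕ) : ℝ) + ((bd (s a 0) + 1 : ℕ) : ℝ) + 1 := by
      simp only [N]; push_cast; ring
    rw [h7] at h5
    rw [h6]
    have h8 : (0 : ℝ) ≤ (1 / 2 : ℝ) ^ k := by positivity
    nlinarith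

/-- Natural powers of codes. -/
def codePow (p : RatCode) (n : ℕ) : RatCode :=
  Nat.rec (1, 0, 0) (fun _ q => RatCode.mul q p) n

theorem val_codePow (p : RatCode) (n : ℕ) : (codePow p n).val = p.val ^ n := by
  induction n with
  | zero => simp [codePow, RatCode.val]
  | succ n ih =>
    have : codePow p (n + 1) = RatCode.mul (codePow p n) p := rfl
    rw [this, val_mul, ih, pow_succ]

theorem primrec_codePow : Primrec₂ codePow := by
  have : Primrec (fun x : RatCode × ℕ => codePow x.1 x.2) := by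
    refine Primrec.nat_rec' (f := fun x : RatCode × ℕ => x.2) (g := fun _ => ((1, 0, 0) : RatCode))
      (h := fun x y => RatCode.mul y.2 x.1) Primrec.snd (Primrec.const _) ?_
    exact primrec_mul.comp (Primrec.snd.comp Primrec.snd) (Primrec.fst.comp Primrec.fst)
  exact this

theorem abs_pow_sub_pow_le (x y N : ℝ) (hN1 : 1 ≤ N) (hx : |x| ≤ N) (hy : |y| ≤ N) (n : ℕ) :
    |x ^ n - y ^ n| ≤ n * N ^ n * |x - y| := by
  have hN : 0 ≤ N := by linarith
  induction n with
  | zero => simp
  | succ n ih =>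
    have h1 : x ^ (n + 1) - y ^ (n + 1) = (x ^ n - y ^ n) * x + y ^ n * (x - y) := by ring
    rw [h1]
    refine (abs_add_le _ _).trans ?_
    rw [abs_mul, abs_mul, abs_pow]
    have h2 : |y| ^ n ≤ N ^ n := pow_le_pow_left₀ (abs_nonneg _) hy n
    have hd : 0 ≤ |x - y| := abs_nonneg _
    have h3 : |x ^ n - y ^ n| * |x| ≤ (n * N ^ n * |x - y|) * N :=
      mul_le_mul ih hx (abs_nonneg _) (by positivity)
    have h4 : |y| ^ n * |x - y| ≤ N ^ n * |x - y| := mul_le_mul_of_nonneg_right h2 hd
    have h5 : (N : ℝ) ^ n * |x - y| ≤ N ^ (n + 1) * |x - y| := by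
      have h6 : N ^ n ≤ N ^ (n + 1) := pow_le_pow_right₀ hN1 (Nat.le_succ n)
      exact mul_le_mul_of_nonneg_right h6 hd
    have h7 : (n : ℝ) * N ^ n * |x - y| * N = n * N ^ (n + 1) * |x - y| := by
      rw [pow_succ]; ring
    push_cast
    nlinarith

theorem Approx.pow {f : α → ℝ} (hf : Approx f) {n : α → ℕ} (hn : Primrec n) :
    Approx (fun a => f a ^ n a) := by
  obtain ⟨r, hr, he⟩ := hf
  let N : α → ℕ := fun a => bd (r a 0) + 2
  let P : α → ℕ := fun a => n a + N a * n a
  have hN : Primrec N :=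
    Primrec.succ.comp (Primrec.succ.comp (primrec_bd.comp (hr.comp Primrec.id (Primrec.const 0))))
  have hP : Primrec P := Primrec.nat_add.comp hn (Primrec.nat_mul.comp hN hn)
  refine ⟨fun a k => codePow (r a (k + P a)) (n a), ?_, fun a k => ?_⟩
  · exact primrec_codePow.comp (hr.comp Primrec.fst
      (Primrec.nat_add.comp Primrec.snd (hP.comp Primrec.fst))) (hn.comp Primrec.fst)
  · rw [val_codePow]
    set x := (r a (k + P a)).val
    have h1 : |x - f a| ≤ (1 / 2 : ℝ) ^ (k + P a) := he a _
    have b1 : |f a| ≤ (bd (r a 0) + 1 : ℕ) := Approx.exists_bound he a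
    have hε : (1 / 2 : ℝ) ^ (k + P a) ≤ 1 := pow_le_one₀ (by norm_num) (by norm_num)
    have hNr : ((N a : ℕ) : ℝ) = ((bd (r a 0) + 1 : ℕ) : ℝ) + 1 := by
      simp only [N]; push_cast; ring
    have hx : |x| ≤ N a := by
      have := abs_sub_abs_le_abs_sub x (f a)
      rw [hNr]; linarith
    have hf' : |f a| ≤ N a := by rw [hNr]; linarith
    have hN1 : (1 : ℝ) ≤ N a := by
      have : 1 ≤ N a := by simp only [N]; omega
      exact_mod_cast this
    have h2 := abs_pow_sub_pow_le x (f a) (N a) hN1 hx hf' (n a)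
    refine h2.trans ?_
    -- the size of the constant
    have h3 : (n a : ℝ) * (N a : ℝ) ^ n a ≤ 2 ^ P a := by
      have c1 : (n a : ℝ) ≤ 2 ^ n a := by exact_mod_cast Nat.lt_two_pow_self.le
      have c2 : (N a : ℝ) ≤ 2 ^ N a := by exact_mod_cast Nat.lt_two_pow_self.le
      have c3 : (N a : ℝ) ^ n a ≤ (2 ^ N a) ^ n a := pow_le_pow_left₀ (by positivity) c2 _
      have c4 : ((2 : ℝ) ^ N a) ^ n a = 2 ^ (N a * n a) := (pow_mul _ _ _).symm
      have c5 : (2 : ℝ) ^ P a = 2 ^ n a * 2 ^ (N a * n a) := pow_add _ _ _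
      rw [c5, ← c4]
      exact mul_le_mul c1 c3 (by positivity) (by positivity)
    have h4 : (1 / 2 : ℝ) ^ (k + P a) = (1 / 2 : ℝ) ^ k * ((1 / 2 : ℝ) ^ P a) := pow_add _ _ _
    have h5 : (2 : ℝ) ^ P a * (1 / 2 : ℝ) ^ P a = 1 := by
      rw [← mul_pow]; norm_num
    have h6 : (0 : ℝ) ≤ (1 / 2 : ℝ) ^ P a := by positivity
    have h7 : (0 : ℝ) ≤ (1 / 2 : ℝ) ^ k := by positivity
    calc (n a : ℝ) * (N a : ℝ) ^ n a * |x - f a|
        ≤ 2 ^ P a * ((1 / 2 : ℝ) ^ k * (1 / 2 : ℝ) ^ P a) := by
          rw [← h4]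
          exact mul_le_mul h3 h1 (abs_nonneg _) (by positivity)
      _ = (1 / 2 : ℝ) ^ k * (2 ^ P a * (1 / 2 : ℝ) ^ P a) := by ring
      _ = (1 / 2 : ℝ) ^ k := by rw [h5, mul_one]

/-- Case distinction along a primitive recursive predicate. -/
theorem Approx.ite {c : α → Prop} [DecidablePred c] (hc : PrimrecPred c) {f g : α → ℝ}
    (hf : Approx f) (hg : Approx g) : Approx (fun a => if c a then f a else g a) := by
  obtain ⟨r, hr, he⟩ := hf
  obtain ⟨s, hs, hs'⟩ := hg
  refine ⟨fun a k => if c a then r a k else s a k, ?_, fun a k => ?_⟩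
  · exact Primrec.ite (hc.comp Primrec.fst) hr hs
  · by_cases h : c a
    · simp only [h, if_true]; exact he a k
    · simp only [h, if_false]; exact hs' a k

/-- The accumulated scheme for a sum over a list. -/
def listScheme {γ : Type*} (ρ : γ → RatCode) (L : List γ) : RatCode :=
  L.foldl (fun acc m => RatCode.add acc (ρ m)) (0, 0, 0)

theorem listScheme_bound {γ : Type*} (ρ : γ → RatCode) (g : γ → ℝ) (ε : ℝ)
    (h : ∀ m, |(ρ m).val - g m| ≤ ε) (L : List γ) (q : RatCode) (t : ℝ)
    (hq : |q.val - t| ≤ ε * 0) :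
    |(L.foldl (fun acc m => RatCode.add acc (ρ m)) q).val - (t + (L.map g).sum)| ≤ ε * L.length := by
  have hε : 0 ≤ ε ∨ L = [] := by
    cases L with
    | nil => exact Or.inr rfl
    | cons a l => exact Or.inl ((abs_nonneg _).trans (h a))
  induction L generalizing q t with
  | nil =>
    simpa using hq
  | cons a l ih =>
    have hε' : 0 ≤ ε := (abs_nonneg _).trans (h a)
    simp only [List.foldl_cons, List.map_cons, List.sum_cons, List.length_cons]
    have hq0 : |q.val - t| ≤ 0 := by simpa using hq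
    have hq1 : q.val = t := by
      have := abs_nonpos_iff.mp hq0
      linarith
    -- induct with a shifted target
    have key : ∀ (l : List _) (q : RatCode) (t : ℝ) (e : ℝ), 0 ≤ e → |q.val - t| ≤ e →
        |(l.foldl (fun acc m => RatCode.add acc (ρ m)) q).val - (t + (l.map g).sum)|
          ≤ e + ε * l.length := by
      intro l
      induction l with
      | nil => intro q t e _ he; simpa using he
      | cons b l ih2 =>
        intro q t e he0 he
        simp only [List.foldl_cons, List.map_cons, List.sum_cons, List.length_cons]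
        have h1 : |(RatCode.add q (ρ b)).val - (t + g b)| ≤ e + ε := by
          rw [val_add]
          have h3 : q.val + (ρ b).val - (t + g b) = (q.val - t) + ((ρ b).val - g b) := by ring
          rw [h3]
          exact (abs_add_le _ _).trans (add_le_add he (h b))
        have h2 := ih2 (RatCode.add q (ρ b)) (t + g b) (e + ε) (add_nonneg he0 hε') h1
        have h4 : t + (g b + (l.map g).sum) = t + g b + (l.map g).sum := by ring
        rw [h4]
        push_cast
        linarith
    have h5 := key (a :: l) q t 0 le_rfl (by simpa using hq)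
    simp only [List.foldl_cons, List.map_cons, List.sum_cons, List.length_cons] at h5
    simpa using h5

/-- Sums over a primitive recursive list. -/
theorem Approx.listSum {γ : Type*} [Primcodable γ] {L : α → List γ} (hL : Primrec L)
    {g : α × γ → ℝ} (hg : Approx g) : Approx (fun a => ((L a).map (fun m => g (a, m))).sum) := by
  obtain ⟨r, hr, he⟩ := hg
  let K : α × ℕ → ℕ := fun x => x.2 + (L x.1).length
  have hK : Primrec K :=
    Primrec.nat_add.comp Primrec.snd (Primrec.list_length.comp (hL.comp Primrec.fst))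
  refine ⟨fun a k => (L a).foldl (fun acc m => RatCode.add acc (r (a, m) (k + (L a).length)))
    (0, 0, 0), ?_, fun a k => ?_⟩
  · refine Primrec.list_foldl (f := fun x : α × ℕ => L x.1) (g := fun _ => ((0, 0, 0) : RatCode))
      (h := fun x y => RatCode.add y.1 (r (x.1, y.2) (K x)))
      (hL.comp Primrec.fst) (Primrec.const _) ?_
    refine primrec_add.comp (Primrec.fst.comp Primrec.snd) ?_
    exact hr.comp (Primrec.pair (Primrec.fst.comp Primrec.fst) (Primrec.snd.comp Primrec.snd))
      (hK.comp Primrec.fst)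
  · set n := (L a).length with hn
    have h1 := listScheme_bound (fun m => r (a, m) (k + n)) (fun m => g (a, m))
      ((1 / 2 : ℝ) ^ (k + n)) (fun m => he (a, m) _) (L a) (0, 0, 0) 0 (by simp [RatCode.val])
    rw [zero_add, ← hn] at h1
    refine h1.trans ?_
    have h2 := two_pow_bound n
    have h4 : (1 / 2 : ℝ) ^ (k + n) = (1 / 2 : ℝ) ^ k * ((1 / 2 : ℝ) ^ n) := pow_add _ _ _
    rw [h4]
    have h7 : (0 : ℝ) ≤ (1 / 2 : ℝ) ^ k := by positivity
    nlinarith

/-- Inverses of functions bounded below by one. -/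
theorem Approx.inv {f : α → ℝ} (hf : Approx f) (h1 : ∀ a, 1 ≤ f a) :
    Approx (fun a => (f a)⁻¹) := by
  obtain ⟨r, hr, he⟩ := hf
  let half : RatCode := (1, 0, 1)
  have hhalf : half.val = 1 / 2 := by norm_num [RatCode.val, half]
  refine ⟨fun a k => RatCode.inv (if leB (r a (k + 2)) half then half else r a (k + 2)), ?_,
    fun a k => ?_⟩
  · refine primrec_inv.comp (Primrec.ite ?_ (Primrec.const _)
      (hr.comp Primrec.fst (Primrec.succ.comp (Primrec.succ.comp Primrec.snd))))
    exact primrecRel_leB.comp (hr.comp Primrec.fst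
      (Primrec.succ.comp (Primrec.succ.comp Primrec.snd))) (Primrec.const _)
  · set x := r a (k + 2)
    have hx : |x.val - f a| ≤ (1 / 2 : ℝ) ^ (k + 2) := he a _
    set y := if leB x half then half else x with hy
    have hyv : 1 / 2 ≤ y.val ∧ |y.val - f a| ≤ (1 / 2 : ℝ) ^ (k + 2) := by
      by_cases hc : leB x half
      · have hc' : x.val ≤ 1 / 2 := by rw [← hhalf]; exact (leB_iff _ _).mp hc
        rw [hy, if_pos hc, hhalf]
        refine ⟨le_rfl, ?_⟩
        have h2 := h1 a
        rw [abs_le] at hx ⊢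
        constructor <;> linarith [hx.1, hx.2]
      · have hc' : 1 / 2 < x.val := by
          rw [← hhalf]; exact not_le.mp (fun h => hc ((leB_iff _ _).mpr h))
        rw [hy, if_neg hc]
        exact ⟨hc'.le, hx⟩
    have hpos : 0 < y.val := by linarith [hyv.1]
    rw [val_inv y hpos]
    have hfp : 0 < f a := by linarith [h1 a]
    have h3 : (y.val)⁻¹ - (f a)⁻¹ = (f a - y.val) / (y.val * f a) := by
      field_simp
    rw [h3, abs_div, abs_of_pos (mul_pos hpos hfp), abs_sub_comm]
    have h4 : 1 / 2 ≤ y.val * f a := by nlinarith [hyv.1, h1 a]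
    rw [div_le_iff₀ (by linarith)]
    have h5 : (1 / 2 : ℝ) ^ (k + 2) = (1 / 2 : ℝ) ^ k * (1 / 4) := by
      rw [pow_add]; norm_num
    have h7 : (0 : ℝ) ≤ (1 / 2 : ℝ) ^ k := by positivity
    nlinarith [hyv.2]

end closure

/-- State of the Taylor sum of the exponential: current term and partial sum. -/
def taylorState (y : RatCode) (n : ℕ) : RatCode × RatCode :=
  Nat.rec ((1, 0, 0), (0, 0, 0))
    (fun i s => (RatCode.mul (RatCode.mul s.1 y) (invSucc i), RatCode.add s.2 s.1)) n

theorem taylorState_val (y : RatCode) (n : ℕ) :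
    (taylorState y n).1.val = y.val ^ n / n.factorial ∧
      (taylorState y n).2.val = ∑ m ∈ range n, y.val ^ m / m.factorial := by
  induction n with
  | zero => simp [taylorState, RatCode.val]
  | succ n ih =>
    have h : taylorState y (n + 1) =
      (RatCode.mul (RatCode.mul (taylorState y n).1 y) (invSucc n),
        RatCode.add (taylorState y n).2 (taylorState y n).1) := rfl
    rw [h]
    refine ⟨?_, ?_⟩
    · simp only [val_mul, val_invSucc, ih.1]
      rw [Nat.factorial_succ, pow_succ]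
      push_cast
      have h1 : (n.factorial : ℝ) ≠ 0 := by positivity
      have h2 : (n : ℝ) + 1 ≠ 0 := by positivity
      field_simp
    · simp only [val_add, ih.1, ih.2]
      rw [sum_range_succ]

theorem primrec_taylorState : Primrec₂ taylorState := by
  have : Primrec (fun x : RatCode × ℕ => taylorState x.1 x.2) := by
    refine Primrec.nat_rec' (f := fun x : RatCode × ℕ => x.2)
      (g := fun _ => (((1, 0, 0), (0, 0, 0)) : RatCode × RatCode))
      (h := fun x y => (RatCode.mul (RatCode.mul y.2.1 x.1) (invSucc y.1),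
        RatCode.add y.2.2 y.2.1)) Primrec.snd (Primrec.const _) ?_
    refine Primrec.pair ?_ ?_
    · exact primrec_mul.comp (primrec_mul.comp (Primrec.fst.comp (Primrec.snd.comp Primrec.snd))
        (Primrec.fst.comp Primrec.fst)) (primrec_invSucc.comp (Primrec.fst.comp Primrec.snd))
    · exact primrec_add.comp (Primrec.snd.comp (Primrec.snd.comp Primrec.snd))
        (Primrec.fst.comp (Primrec.snd.comp Primrec.snd))
  exact this

theorem two_pow_le_factorial (n : ℕ) : 2 ^ n ≤ (n + 1).factorial := by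
  induction n with
  | zero => simp
  | succ n ih =>
    rw [Nat.factorial_succ, pow_succ]
    nlinarith [Nat.factorial_pos (n + 1)]

/-- The scaled code `q / (bd q + 1)`. -/
def scaled (q : RatCode) : RatCode := RatCode.mul q (invSucc (bd q))

theorem abs_scaled_le (q : RatCode) : |(scaled q).val| ≤ 1 := by
  rw [scaled, val_mul, val_invSucc, abs_mul, abs_of_pos (by positivity : 0 < 1 / ((bd q : ℝ) + 1))]
  have h := abs_val_le_bd q
  rw [mul_one_div, div_le_one (by positivity)]
  linarith

theorem approx_exp_scaled : Approx (fun q : RatCode => Real.exp (scaled q).val) := by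
  refine ⟨fun q k => (taylorState (scaled q) (k + 2)).2, ?_, fun q k => ?_⟩
  · have hs : Primrec scaled :=
      primrec_mul.comp Primrec.id (primrec_invSucc.comp primrec_bd)
    exact Primrec.snd.comp (primrec_taylorState.comp (hs.comp Primrec.fst)
      (Primrec.succ.comp (Primrec.succ.comp Primrec.snd)))
  · rw [(taylorState_val _ _).2, abs_sub_comm]
    have hb := Real.exp_bound (abs_scaled_le q) (n := k + 2) (by omega)
    refine hb.trans ?_
    have h1 : |(scaled q).val| ^ (k + 2) ≤ 1 := pow_le_one₀ (abs_nonneg _) (abs_scaled_le q)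
    have hf : (2 : ℝ) ^ (k + 1) ≤ ((k + 2).factorial : ℝ) := by
      exact_mod_cast two_pow_le_factorial (k + 1)
    have hpos : (0 : ℝ) < ((k + 2).factorial : ℝ) := by positivity
    have h2 : (((k + 2).succ : ℕ) : ℝ) / (((k + 2).factorial : ℝ) * ((k + 2 : ℕ) : ℝ))
        ≤ (1 / 2 : ℝ) ^ k := by
      rw [div_le_iff₀ (by positivity)]
      have h3 : (1 / 2 : ℝ) ^ k * 2 ^ (k + 1) = 2 := by
        rw [pow_succ, ← mul_assoc, ← mul_pow]; norm_num
      have h4 : (0 : ℝ) ≤ (1 / 2 : ℝ) ^ k := by positivity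
      have h5 : (2 : ℝ) ≤ (1 / 2 : ℝ) ^ k * ((k + 2).factorial : ℝ) := by
        calc (2 : ℝ) = (1 / 2 : ℝ) ^ k * 2 ^ (k + 1) := h3.symm
          _ ≤ _ := mul_le_mul_of_nonneg_left hf h4
      push_cast
      have h6 : (0 : ℝ) ≤ (k : ℝ) := Nat.cast_nonneg _
      nlinarith
    calc |(scaled q).val| ^ (k + 2) * (((k + 2).succ : ℕ) / (((k + 2).factorial : ℝ) * ((k + 2 : ℕ) : ℝ)))
        ≤ 1 * (((k + 2).succ : ℕ) / (((k + 2).factorial : ℝ) * ((k + 2 : ℕ) : ℝ))) :=
          mul_le_mul_of_nonneg_right h1 (by positivity)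
      _ ≤ _ := by rw [one_mul]; exact h2

/-- The exponential of a rational number is approximable. -/
theorem approx_exp : Approx (fun q : RatCode => Real.exp q.val) := by
  have h := approx_exp_scaled.pow (n := fun q => bd q + 1) (Primrec.succ.comp primrec_bd)
  refine h.congr (fun q => ?_)
  rw [← Real.exp_nat_mul, scaled, val_mul, val_invSucc]
  congr 1
  have : (bd q : ℝ) + 1 ≠ 0 := by positivity
  push_cast
  field_simp

end Vale.Agent.Lib.P113
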