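import Vale.Agent.Lib.P113.Defs

/-!
One-dimensional building blocks: the smooth step, a plateau profile, the centered fractional part
and periodic plateaus, the periodic sawtooth, the time profile.
-/

namespace Vale.Agent.Lib.P113

open Set Filter Topology
open scoped ContDiff

/-- The smooth step of Mathlib: `0` on `(-∞, 0]`, `1` on `[1, ∞)`. -/
noncomputable abbrev St : ℝ → ℝ := Real.smoothTransition

theorem St_smooth : ContDiff ℝ ∞ St := Real.smoothTransition.contDiff

theorem St_zero {y : ℝ} (h : y ≤ 0) : St y = 0 := Real.smoothTransition.zero_of_nonpos h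

theorem St_one {y : ℝ} (h : 1 ≤ y) : St y = 1 := Real.smoothTransition.one_of_one_le h

/-- The plateau profile: `1` on `[0, 1/2]`, `0` outside `(-1/8, 5/8)`. -/
noncomputable def psi0 (y : ℝ) : ℝ := St (8 * y + 1) * St (5 - 8 * y)

theorem psi0_smooth : ContDiff ℝ ∞ psi0 := by
  unfold psi0
  exact (St_smooth.comp (by fun_prop)).mul (St_smooth.comp (by fun_prop))

theorem psi0_one {y : ℝ} (h0 : 0 ≤ y) (h1 : y ≤ 1 / 2) : psi0 y = 1 := by
  unfold psi0
  rw [St_one (by linarith), St_one (by linarith)]; norm_num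

theorem psi0_zero {y : ℝ} (h : y ≤ -1 / 8 ∨ 5 / 8 ≤ y) : psi0 y = 0 := by
  unfold psi0
  rcases h with h | h
  · rw [St_zero (by linarith)]; ring
  · rw [St_zero (y := 5 - 8 * y) (by linarith)]; ring

/-- Derivative iterates under affine substitution. -/
theorem iter_deriv_affine (g : ℝ → ℝ) (c d : ℝ) (n : ℕ) :
    deriv^[n] (fun y => g (c * y + d)) = fun y => c ^ n * deriv^[n] g (c * y + d) := by
  induction n with
  | zero => simp
  | succ n ih =>
    rw [Function.iterate_succ_apply', ih, Function.iterate_succ_apply']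
    funext y
    rw [deriv_const_mul_field]
    have h1 : deriv (fun y => deriv^[n] g (c * y + d)) y = c * deriv (deriv^[n] g) (c * y + d) := by
      have h2 := deriv_comp_mul_left (f := fun z => deriv^[n] g (z + d)) c y
      simp only [smul_eq_mul] at h2
      rw [h2, deriv_comp_add_const]
    rw [h1]; ring

theorem iter_deriv_const_mul (g : ℝ → ℝ) (c : ℝ) (n : ℕ) :
    deriv^[n] (fun y => c * g y) = fun y => c * deriv^[n] g y := by
  induction n with
  | zero => simp
  | succ n ih =>
    rw [Function.iterate_succ_apply', ih, Function.iterate_succ_apply']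
    funext y
    rw [deriv_const_mul_field]

/-- Iterated derivatives of a smooth function are smooth. -/
theorem smooth_iter_deriv {g : ℝ → ℝ} (hg : ContDiff ℝ ∞ g) (n : ℕ) : ContDiff ℝ ∞ (deriv^[n] g) := by
  induction n with
  | zero => simpa using hg
  | succ n ih =>
    rw [Function.iterate_succ_apply']
    exact ((contDiff_infty_iff_deriv.1 ih).2)

/-- A function that vanishes on an open set has a derivative that vanishes there. -/
theorem iter_deriv_zero_of_open {g : ℝ → ℝ} {U : Set ℝ} (hU : IsOpen U) (h : ∀ y ∈ U, g y = 0)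
    (n : ℕ) : ∀ y ∈ U, deriv^[n] g y = 0 := by
  induction n with
  | zero => simpa using h
  | succ n ih =>
    intro y hy
    rw [Function.iterate_succ_apply']
    have h1 : deriv^[n] g =ᶠ[𝓝 y] fun _ => 0 :=
      Filter.eventually_of_mem (hU.mem_nhds hy) ih
    rw [h1.deriv_eq]; simp

/-- The centered fractional part, with values in `[-1/2, 1/2)`. -/
noncomputable def cen (s : ℝ) : ℝ := Int.fract (s + 1 / 2) - 1 / 2

theorem cen_eq_sub {s : ℝ} {k : ℤ} (h1 : -1 / 2 ≤ s - k) (h2 : s - k < 1 / 2) : cen s = s - k := by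
  unfold cen
  have : Int.fract (s + 1 / 2) = s - k + 1 / 2 := by
    rw [Int.fract_eq_iff]
    refine ⟨by linarith, by linarith, k, ?_⟩
    ring
  rw [this]; ring

theorem cen_of_small {s : ℝ} (h1 : -1 / 2 ≤ s) (h2 : s < 1 / 2) : cen s = s := by
  have := cen_eq_sub (s := s) (k := 0) (by simpa using h1) (by simpa using h2)
  simpa using this

theorem cen_add_int (s : ℝ) (k : ℤ) : cen (s + k) = cen s := by
  unfold cen
  have : s + (k : ℝ) + 1 / 2 = (s + 1 / 2) + k := by ring
  rw [this, Int.fract_add_intCast]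

theorem cen_range (s : ℝ) : -1 / 2 ≤ cen s ∧ cen s < 1 / 2 := by
  unfold cen
  have h0 := Int.fract_nonneg (s + 1 / 2)
  have h1 := Int.fract_lt_one (s + 1 / 2)
  constructor <;> linarith

/-- Near every point the periodization of a function vanishing outside `[-b, b]` is a translate. -/
theorem per_eventually {η : ℝ → ℝ} {b : ℝ} (hb0 : 0 ≤ b) (hb : b < 1 / 2)
    (h : ∀ y, b < |y| → η y = 0) (s₀ : ℝ) :
    ∃ k : ℤ, cen s₀ = s₀ - k ∧ (fun s => η (cen s)) =ᶠ[𝓝 s₀] (fun s => η (s - k)) := by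
  refine ⟨⌊s₀ + 1 / 2⌋, ?_, ?_⟩
  · unfold cen Int.fract
    ring
  set k : ℤ := ⌊s₀ + 1 / 2⌋ with hk
  have h1 : (k : ℝ) ≤ s₀ + 1 / 2 := Int.floor_le _
  have h2 : s₀ + 1 / 2 < k + 1 := Int.lt_floor_add_one _
  have hδ : 0 < (1 / 2 - b) / 2 := by linarith
  filter_upwards [Metric.ball_mem_nhds s₀ hδ] with s hs
  rw [Metric.mem_ball, Real.dist_eq, abs_lt] at hs
  obtain ⟨hs1, hs2⟩ := hs
  by_cases c1 : -1 / 2 ≤ s - k
  · by_cases c2 : s - k < 1 / 2
    · rw [cen_eq_sub c1 c2]
    · have h3 : cen s = s - k - 1 := by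
        have := cen_eq_sub (s := s) (k := k + 1) (by push_cast; linarith) (by push_cast; linarith)
        rw [this]; push_cast; ring
      rw [h3, h _ (?_ : b < |s - k - 1|), h _ (?_ : b < |s - (k : ℝ)|)]
      · rw [lt_abs]; left; linarith
      · rw [lt_abs]; right; linarith
  · have h3 : cen s = s - k + 1 := by
      have := cen_eq_sub (s := s) (k := k - 1) (by push_cast; linarith) (by push_cast; linarith)
      rw [this]; push_cast; ring
    rw [h3, h _ (?_ : b < |s - k + 1|), h _ (?_ : b < |s - (k : ℝ)|)]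
    · rw [lt_abs]; right; linarith
    · rw [lt_abs]; left; linarith

theorem per_smooth {η : ℝ → ℝ} {b : ℝ} (hb0 : 0 ≤ b) (hb : b < 1 / 2) (h : ∀ y, b < |y| → η y = 0)
    (hη : ContDiff ℝ ∞ η) : ContDiff ℝ ∞ (fun s => η (cen s)) := by
  rw [contDiff_iff_contDiffAt]
  intro s₀
  obtain ⟨k, _, hk⟩ := per_eventually hb0 hb h s₀
  have h2 : ContDiffAt ℝ ∞ (fun s => η (s - k)) s₀ :=
    (hη.comp (contDiff_id.sub contDiff_const)).contDiffAt
  exact h2.congr_of_eventuallyEq hk

theorem per_deriv {η : ℝ → ℝ} {b : ℝ} (hb0 : 0 ≤ b) (hb : b < 1 / 2) (h : ∀ y, b < |y| → η y = 0) (s₀ : ℝ) :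
    deriv (fun s => η (cen s)) s₀ = deriv η (cen s₀) := by
  obtain ⟨k, hc, hk⟩ := per_eventually hb0 hb h s₀
  rw [hk.deriv_eq, hc, deriv_comp_sub_const]

theorem open_abs_gt (b : ℝ) : IsOpen {y : ℝ | b < |y|} :=
  isOpen_lt continuous_const continuous_abs

theorem per_iter_deriv {η : ℝ → ℝ} {b : ℝ} (hb0 : 0 ≤ b) (hb : b < 1 / 2) (h : ∀ y, b < |y| → η y = 0) (n : ℕ) :
    deriv^[n] (fun s => η (cen s)) = fun s => deriv^[n] η (cen s) := by
  induction n with
  | zero => rfl
  | succ n ih =>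
    rw [Function.iterate_succ_apply', ih, Function.iterate_succ_apply']
    funext s
    exact per_deriv hb0 hb (fun y hy => iter_deriv_zero_of_open (open_abs_gt b) h n y hy) s

/-- Periodic plateau with index `N` and width `w`: `1` where `cen s / w - N ∈ [0, 1/2]`, `0` where
`cen s / w - N ∉ (-1/8, 5/8)`. -/
noncomputable def psi (N w s : ℝ) : ℝ := psi0 (cen s / w - N)

/-- The condition for a plateau to be a smooth function on the circle. -/
def PsiValid (N w : ℝ) : Prop := 0 < w ∧ -(3 / 8) ≤ w * (N - 1 / 8) ∧ w * (N + 5 / 8) ≤ 3 / 8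

/-- The function on the line behind a plateau. -/
noncomputable def psiBase (N w y : ℝ) : ℝ := psi0 (y / w - N)

theorem psiBase_zero {N w : ℝ} (hv : PsiValid N w) (y : ℝ) (hy : 3 / 8 < |y|) : psiBase N w y = 0 := by
  obtain ⟨hw, h1, h2⟩ := hv
  unfold psiBase
  apply psi0_zero
  rcases lt_abs.1 hy with hy | hy
  · right
    rw [le_sub_iff_add_le, le_div_iff₀ hw]
    nlinarith
  · left
    rw [sub_le_iff_le_add, div_le_iff₀ hw]
    nlinarith

theorem psiBase_smooth {N w : ℝ} : ContDiff ℝ ∞ (psiBase N w) := by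
  unfold psiBase
  exact psi0_smooth.comp (by fun_prop)

theorem psi_smooth {N w : ℝ} (hv : PsiValid N w) : ContDiff ℝ ∞ (psi N w) :=
  per_smooth (b := 3 / 8) (by norm_num) (by norm_num) (psiBase_zero hv) psiBase_smooth

theorem psi_eq_base (N w s : ℝ) : psi N w s = psiBase N w (cen s) := rfl

/-- Iterated derivatives of a plateau. -/
theorem psi_iter_deriv {N w : ℝ} (hv : PsiValid N w) (n : ℕ) (s : ℝ) :
    deriv^[n] (psi N w) s = (w⁻¹) ^ n * deriv^[n] psi0 (cen s / w - N) := by
  have h1 : psi N w = fun s => psiBase N w (cen s) := rfl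
  rw [h1, per_iter_deriv (b := 3 / 8) (by norm_num) (by norm_num) (psiBase_zero hv)]
  have h2 : psiBase N w = fun y => psi0 (w⁻¹ * y + (-N)) := by
    funext y
    unfold psiBase
    rw [div_eq_inv_mul, sub_eq_add_neg]
  rw [h2, iter_deriv_affine]
  simp only [div_eq_inv_mul, sub_eq_add_neg]

theorem psi_one {N w s : ℝ} (hw : 0 < w) (h1 : w * N ≤ cen s) (h2 : cen s ≤ w * (N + 1 / 2)) :
    psi N w s = 1 := by
  unfold psi
  apply psi0_one
  · rw [sub_nonneg, le_div_iff₀ hw]; linarith
  · rw [sub_le_iff_le_add, div_le_iff₀ hw]; linarith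

theorem psi_zero_of_index {N N' w s : ℝ} (hw : 0 < w) (h1 : w * N ≤ cen s)
    (h2 : cen s ≤ w * (N + 1 / 2)) (h3 : N' + 1 ≤ N ∨ N + 1 ≤ N') : psi N' w s = 0 := by
  unfold psi
  apply psi0_zero
  rcases h3 with h3 | h3
  · right
    rw [le_sub_iff_add_le, le_div_iff₀ hw]
    nlinarith
  · left
    rw [sub_le_iff_le_add, div_le_iff₀ hw]
    nlinarith

/-- The cut-off equal to `1` on `[-1/4, 1/4]`. -/
noncomputable def chi (s : ℝ) : ℝ := psi (-(1 / 4)) 1 s

theorem chi_valid : PsiValid (-(1 / 4)) 1 := by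
  unfold PsiValid; norm_num

theorem chi_one {s : ℝ} (h1 : -(1 / 4) ≤ s) (h2 : s ≤ 1 / 4) : chi s = 1 := by
  have hc : cen s = s := cen_of_small (by linarith) (by linarith)
  unfold chi
  apply psi_one one_pos <;> rw [hc] <;> linarith

/-- The profile behind the periodic sawtooth. -/
noncomputable def sawBase (y : ℝ) : ℝ := y * psiBase (-(1 / 4)) 1 y

/-- The periodic sawtooth, equal to the identity on `[-1/4, 1/4]`. -/
noncomputable def saw (s : ℝ) : ℝ := sawBase (cen s)

theorem sawBase_zero (y : ℝ) (hy : 3 / 8 < |y|) : sawBase y = 0 := by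
  unfold sawBase
  rw [psiBase_zero chi_valid y hy, mul_zero]

theorem sawBase_smooth : ContDiff ℝ ∞ sawBase := by
  unfold sawBase
  exact contDiff_id.mul psiBase_smooth

theorem saw_smooth : ContDiff ℝ ∞ saw :=
  per_smooth (b := 3 / 8) (by norm_num) (by norm_num) sawBase_zero sawBase_smooth

theorem saw_eq {s : ℝ} (h1 : -(1 / 4) ≤ s) (h2 : s ≤ 1 / 4) : saw s = s := by
  have hc : cen s = s := cen_of_small (by linarith) (by linarith)
  have h3 : psiBase (-(1 / 4)) 1 s = 1 := by
    unfold psiBase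
    apply psi0_one <;> norm_num <;> linarith
  unfold saw sawBase
  rw [hc, h3, mul_one]

/-- The derivative iterates of the sawtooth profile. -/
theorem sawBase_iter_deriv (n : ℕ) : deriv^[n] sawBase = fun y =>
    y * deriv^[n] (psiBase (-(1 / 4)) 1) y + n * deriv^[n - 1] (psiBase (-(1 / 4)) 1) y := by
  have hs := psiBase_smooth (N := -(1 / 4)) (w := 1)
  induction n with
  | zero =>
    funext y
    simp [sawBase]
  | succ n ih =>
    rw [Function.iterate_succ_apply', ih]
    funext y
    have hd : ∀ k, Differentiable ℝ (deriv^[k] (psiBase (-(1 / 4)) 1)) := fun k =>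
      (smooth_iter_deriv hs k).differentiable (by simp)
    have e1 : HasDerivAt (fun y => y * deriv^[n] (psiBase (-(1 / 4)) 1) y)
        (1 * deriv^[n] (psiBase (-(1 / 4)) 1) y
          + y * deriv (deriv^[n] (psiBase (-(1 / 4)) 1)) y) y :=
      (hasDerivAt_id y).mul (hd n y).hasDerivAt
    have e2 : HasDerivAt (fun y => (n : ℝ) * deriv^[n - 1] (psiBase (-(1 / 4)) 1) y)
        ((n : ℝ) * deriv (deriv^[n - 1] (psiBase (-(1 / 4)) 1)) y) y :=
      (hd (n - 1) y).hasDerivAt.const_mul _
    have e3 : HasDerivAt (fun y => y * deriv^[n] (psiBase (-(1 / 4)) 1) y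
        + (n : ℝ) * deriv^[n - 1] (psiBase (-(1 / 4)) 1) y)
        (1 * deriv^[n] (psiBase (-(1 / 4)) 1) y + y * deriv (deriv^[n] (psiBase (-(1 / 4)) 1)) y
          + (n : ℝ) * deriv (deriv^[n - 1] (psiBase (-(1 / 4)) 1)) y) y := e1.add e2
    rw [e3.deriv]
    cases n with
    | zero => simp; ring
    | succ m =>
      simp only [Nat.add_sub_cancel, Function.iterate_succ_apply']
      push_cast
      ring

/-- Iterated derivatives of the sawtooth. -/
theorem saw_iter_deriv (n : ℕ) (s : ℝ) :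
    deriv^[n] saw s = deriv^[n] sawBase (cen s) := by
  have h1 : saw = fun s => sawBase (cen s) := rfl
  rw [h1, per_iter_deriv (b := 3 / 8) (by norm_num) (by norm_num) sawBase_zero]

/-- The time step: `0` up to `1/4`, `1` from `1/2` on. -/
noncomputable def theta (τ : ℝ) : ℝ := St (4 * τ - 1)

theorem theta_smooth : ContDiff ℝ ∞ theta := by
  unfold theta
  exact St_smooth.comp (by fun_prop)

theorem theta_zero {τ : ℝ} (h : τ ≤ 1 / 4) : theta τ = 0 := St_zero (by linarith)

theorem theta_one {τ : ℝ} (h : 1 / 2 ≤ τ) : theta τ = 1 := St_one (by linarith)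

theorem theta_range (τ : ℝ) : 0 ≤ theta τ ∧ theta τ ≤ 1 :=
  ⟨Real.smoothTransition.nonneg _, Real.smoothTransition.le_one _⟩

/-- The time profile, the derivative of the time step. -/
noncomputable def prof (τ : ℝ) : ℝ := deriv theta τ

theorem prof_smooth : ContDiff ℝ ∞ prof := (contDiff_infty_iff_deriv.1 theta_smooth).2

theorem prof_zero {τ : ℝ} (h : τ < 1 / 8 ∨ 7 / 8 < τ) : prof τ = 0 := by
  unfold prof
  rcases h with h | h
  · have h1 : theta =ᶠ[𝓝 τ] fun _ => 0 :=
      Filter.eventually_of_mem (Iio_mem_nhds (show τ < 1 / 8 from h))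
        (fun y hy => theta_zero (by simp only [mem_Iio] at hy; linarith))
    rw [h1.deriv_eq]; simp
  · have h1 : theta =ᶠ[𝓝 τ] fun _ => 1 :=
      Filter.eventually_of_mem (Ioi_mem_nhds (show 7 / 8 < τ from h))
        (fun y hy => theta_one (by simp only [mem_Ioi] at hy; linarith))
    rw [h1.deriv_eq]; simp

theorem theta_hasDeriv (τ : ℝ) : HasDerivAt theta (prof τ) τ :=
  (theta_smooth.differentiable (by simp) τ).hasDerivAt

theorem prof_iter_deriv (n : ℕ) (τ : ℝ) :
    deriv^[n] prof τ = 4 ^ (n + 1) * deriv^[n + 1] St (4 * τ - 1) := by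
  have h1 : deriv^[n] prof = deriv^[n + 1] theta := by
    rw [Function.iterate_succ_apply]; rfl
  have h2 : theta = fun τ => St (4 * τ + (-1)) := by
    funext y; unfold theta; rw [sub_eq_add_neg]
  rw [h1, h2, iter_deriv_affine, sub_eq_add_neg]

end Vale.Agent.Lib.P113
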