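import Vale.Agent.Lib.P113.Defs

/-!
From a Turing machine to a queue machine.  A queue machine configuration is a pair `(s, q)` of a
state code and a list of digits.  One full rotation of the queue performs one machine step.
-/

namespace Vale.Agent.Lib.P113

open Machine

/-- Number of symbols. -/
def nA (M : Machine) : ℕ := M.numSymbols
/-- Number of states. -/
def nQ (M : Machine) : ℕ := M.numStates
/-- Number of cell codes: `0` is the end marker, `1 + x` a plain cell, `1 + A + q A + x` a cell
with the head in state `q`. -/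
def nK (M : Machine) : ℕ := 1 + nA M + nQ M * nA M
/-- Number of queue machine state codes. -/
def nS (M : Machine) : ℕ := 1 + nK M * (nQ M + 1)

/-- Code of a plain cell. -/
def cPlain (x : ℕ) : ℕ := 1 + x
/-- Code of a head cell. -/
def cHead (M : Machine) (q x : ℕ) : ℕ := 1 + nA M + q * nA M + x
/-- State code of buffer `b` and pending mark `p`. Code `0` is the stop state. -/
def stC (M : Machine) (b p : ℕ) : ℕ := 1 + b * (nQ M + 1) + p
/-- The buffer of a state code. -/
def stB (M : Machine) (s : ℕ) : ℕ := (s - 1) / (nQ M + 1)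
/-- The pending mark of a state code. -/
def stP (M : Machine) (s : ℕ) : ℕ := (s - 1) % (nQ M + 1)

/-- One queue machine rule, given the state and the first two queue digits: returns the new state,
the growth flag (`1`: two digits are read and three written; `0`: one read and one written), and
the digits written. -/
def qmNext (M : Machine) (s a1 a2 : ℕ) : ℕ × ℕ × ℕ × ℕ × ℕ :=
  if s = 0 then (0, 0, 0, 0, 0)
  else if a1 = 0 then (stC M 0 0, 0, stB M s, 0, 0)
  else if a1 ≤ nA M then
    (if stP M s = 0 then stC M a1 0 else stC M (cHead M (stP M s - 1) (a1 - 1)) 0, 0, stB M s, 0, 0)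
  else if (a1 - 1 - nA M) / nA M ∈ M.halting then (0, 0, 0, 0, 0)
  else
    let act := M.action ((a1 - 1 - nA M) / nA M) ((a1 - 1 - nA M) % nA M)
    if act.2.2 = none then (stC M (cHead M act.1 act.2.1) 0, 0, stB M s, 0, 0)
    else if act.2.2 = some true then
      if a2 = 0 then (stC M 0 0, 1, stB M s, cPlain act.2.1, cHead M act.1 0)
      else (stC M (cPlain act.2.1) (act.1 + 1), 0, stB M s, 0, 0)
    else
      if stB M s = 0 then (stC M a2 0, 1, 0, cHead M act.1 0, cPlain act.2.1)
      else (stC M (cPlain act.2.1) 0, 0,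
        if stB M s ≤ nA M then cHead M act.1 (stB M s - 1) else stB M s, 0, 0)

/-- One queue machine step. -/
def qmStep (M : Machine) : ℕ × List ℕ → ℕ × List ℕ
  | (s, a1 :: a2 :: rest) =>
    let r := qmNext M s a1 a2
    if r.2.1 = 1 then (r.1, rest ++ [r.2.2.1, r.2.2.2.1, r.2.2.2.2])
    else (r.1, a2 :: rest ++ [r.2.2.1])
  | c => c

section Arith

variable {M : Machine}

theorem stB_stC {b p : ℕ} (hp : p ≤ nQ M) : stB M (stC M b p) = b := by
  unfold stB stC
  have h1 : 1 + b * (nQ M + 1) + p - 1 = p + (nQ M + 1) * b := by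
    rw [Nat.mul_comm]; omega
  rw [h1, Nat.add_mul_div_left _ _ (Nat.succ_pos _), Nat.div_eq_of_lt (by omega)]
  simp

theorem stP_stC {b p : ℕ} (hp : p ≤ nQ M) : stP M (stC M b p) = p := by
  unfold stP stC
  have h1 : 1 + b * (nQ M + 1) + p - 1 = p + (nQ M + 1) * b := by
    rw [Nat.mul_comm]; omega
  rw [h1, Nat.add_mul_mod_self_left, Nat.mod_eq_of_lt (by omega)]

theorem stC_ne_zero {b p : ℕ} : stC M b p ≠ 0 := by
  unfold stC; omega

theorem cHead_gt {q x : ℕ} : nA M < cHead M q x := by
  unfold cHead; omega

theorem cHead_q {q x : ℕ} (hx : x < nA M) : (cHead M q x - 1 - nA M) / nA M = q := by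
  unfold cHead
  have h1 : 1 + nA M + q * nA M + x - 1 - nA M = x + nA M * q := by
    rw [Nat.mul_comm]; omega
  rw [h1, Nat.add_mul_div_left _ _ (by omega), Nat.div_eq_of_lt hx]; simp

theorem cHead_x {q x : ℕ} (hx : x < nA M) : (cHead M q x - 1 - nA M) % nA M = x := by
  unfold cHead
  have h1 : 1 + nA M + q * nA M + x - 1 - nA M = x + nA M * q := by
    rw [Nat.mul_comm]; omega
  rw [h1, Nat.add_mul_mod_self_left, Nat.mod_eq_of_lt hx]

theorem cHead_lt {q x : ℕ} (hq : q < nQ M) (hx : x < nA M) : cHead M q x < nK M := by
  unfold cHead nK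
  have : (q + 1) * nA M ≤ nQ M * nA M := Nat.mul_le_mul_right _ hq
  have h2 : (q + 1) * nA M = q * nA M + nA M := by ring
  omega

theorem cPlain_lt {x : ℕ} (hx : x < nA M) : cPlain x < nK M := by
  unfold cPlain nK; omega

theorem stC_lt {b p : ℕ} (hb : b < nK M) (hp : p ≤ nQ M) : stC M b p < nS M := by
  unfold stC nS
  have : (b + 1) * (nQ M + 1) ≤ nK M * (nQ M + 1) := Nat.mul_le_mul_right _ hb
  have h2 : (b + 1) * (nQ M + 1) = b * (nQ M + 1) + (nQ M + 1) := by ring
  omega

theorem stB_lt {s : ℕ} (hs : s < nS M) : stB M s < nK M := by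
  have hK : 0 < nK M := by unfold nK; omega
  have hpos : 0 < nK M * (nQ M + 1) := Nat.mul_pos hK (Nat.succ_pos _)
  unfold stB
  unfold nS at hs
  apply Nat.div_lt_of_lt_mul
  rw [Nat.mul_comm]; omega

theorem stP_le {s : ℕ} : stP M s ≤ nQ M := by
  unfold stP
  exact Nat.le_of_lt_succ (Nat.mod_lt (s - 1) (Nat.succ_pos (nQ M)))

theorem action_lt (hM : M.Valid) {q x : ℕ} (hq : q < nQ M) (hx : x < nA M) :
    (M.action q x).1 < nQ M ∧ (M.action q x).2.1 < nA M := by
  unfold Machine.action
  cases h : M.rules.find? (fun r => decide (r.1 = q ∧ r.2.1 = x)) with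
  | none => simpa using ⟨hq, hx⟩
  | some r =>
    have := List.mem_of_find?_eq_some h
    have h2 := hM.2.2 r this
    simpa [nQ, nA] using h2

end Arith

/-- Bounds for the rule. -/
theorem qmNext_lt {M : Machine} (hM : M.Valid) {s a1 a2 : ℕ} (hs : s < nS M) (h1 : a1 < nK M)
    (h2 : a2 < nK M) :
    (qmNext M s a1 a2).1 < nS M ∧ (qmNext M s a1 a2).2.2.1 < nK M ∧
      (qmNext M s a1 a2).2.2.2.1 < nK M ∧ (qmNext M s a1 a2).2.2.2.2 < nK M := by
  have hA : 0 < nA M := hM.1
  have hK : 0 < nK M := by unfold nK; omega
  have hS : 0 < nS M := by unfold nS; omega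
  have hb := stB_lt (M := M) hs
  have h0 : stC M 0 0 < nS M := stC_lt hK (Nat.zero_le _)
  unfold qmNext
  by_cases hs0 : s = 0
  · simp [hs0, hS, hK]
  simp only [hs0, if_false]
  by_cases h10 : a1 = 0
  · simp [h10, h0, hb, hK]
  simp only [h10, if_false]
  by_cases h1A : a1 ≤ nA M
  · simp only [h1A, if_true]
    refine ⟨?_, hb, hK, hK⟩
    split_ifs with hp
    · exact stC_lt h1 (Nat.zero_le _)
    · have hpQ := stP_le (M := M) (s := s)
      exact stC_lt (cHead_lt (by omega) (by omega)) (Nat.zero_le _)
  simp only [h1A, if_false]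
  by_cases hq : (a1 - 1 - nA M) / nA M ∈ M.halting
  · simp [hq, hS, hK]
  simp only [hq, if_false]
  have hqlt : (a1 - 1 - nA M) / nA M < nQ M := by
    apply Nat.div_lt_of_lt_mul
    unfold nK at h1
    rw [Nat.mul_comm]; omega
  have hxlt : (a1 - 1 - nA M) % nA M < nA M := Nat.mod_lt _ hA
  have hact := action_lt hM hqlt hxlt
  set act := M.action ((a1 - 1 - nA M) / nA M) ((a1 - 1 - nA M) % nA M) with hactdef
  have e1 : cHead M act.1 act.2.1 < nK M := cHead_lt hact.1 hact.2
  have e2 : cHead M act.1 0 < nK M := cHead_lt hact.1 hA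
  have e3 : cPlain act.2.1 < nK M := cPlain_lt hact.2
  have e4 : stB M s ≤ nA M → stB M s ≠ 0 → cHead M act.1 (stB M s - 1) < nK M :=
    fun h3 h4 => cHead_lt hact.1 (by omega)
  split_ifs
  all_goals
    first
    | exact ⟨stC_lt (by first | exact e1 | exact e2 | exact e3 | exact hK | exact h2)
        (by first | exact Nat.zero_le _ | omega), by
          first | exact hb | exact hK | exact e1 | exact e2 | exact e3 | exact e4 ‹_› ‹_›,
        by first | exact hK | exact e1 | exact e2 | exact e3,
        by first | exact hK | exact e1 | exact e2 | exact e3⟩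

section Steps

variable {M : Machine}

theorem qmStep_cons (s a : ℕ) {X : List ℕ} (hX : X ≠ []) :
    qmStep M (s, a :: X) =
      if (qmNext M s a X.headI).2.1 = 1 then
        ((qmNext M s a X.headI).1, X.tail ++
          [(qmNext M s a X.headI).2.2.1, (qmNext M s a X.headI).2.2.2.1,
            (qmNext M s a X.headI).2.2.2.2])
      else ((qmNext M s a X.headI).1, X ++ [(qmNext M s a X.headI).2.2.1]) := by
  cases X with
  | nil => exact absurd rfl hX
  | cons a2 rest => rfl

theorem next_hash {b p a2 : ℕ} (hp : p ≤ nQ M) :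
    qmNext M (stC M b p) 0 a2 = (stC M 0 0, 0, b, 0, 0) := by
  simp [qmNext, stC_ne_zero, stB_stC hp]

theorem next_plain_none {b x a2 : ℕ} (hx : x < nA M) :
    qmNext M (stC M b 0) (cPlain x) a2 = (stC M (cPlain x) 0, 0, b, 0, 0) := by
  have h1 : 1 + x ≤ nA M := by omega
  simp [qmNext, stC_ne_zero, stB_stC (Nat.zero_le _), stP_stC (M := M) (b := b) (Nat.zero_le _),
    cPlain, h1]

theorem next_plain_pending {b x q a2 : ℕ} (hx : x < nA M) (hq : q < nQ M) :
    qmNext M (stC M b (q + 1)) (cPlain x) a2 = (stC M (cHead M q x) 0, 0, b, 0, 0) := by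
  have h1 : 1 + x ≤ nA M := by omega
  have hq' : q + 1 ≤ nQ M := hq
  simp [qmNext, stC_ne_zero, stB_stC hq', stP_stC hq', cPlain, h1]

theorem next_head_halt {b p q x a2 : ℕ} (hx : x < nA M) (hq : q ∈ M.halting) :
    qmNext M (stC M b p) (cHead M q x) a2 = (0, 0, 0, 0, 0) := by
  have h0 : nA M < cHead M q x := cHead_gt
  have h1 : ¬ cHead M q x = 0 := by omega
  have h2 : ¬ cHead M q x ≤ nA M := by omega
  simp [qmNext, stC_ne_zero, h1, h2, cHead_q hx, hq]

theorem next_head_stay {b q x a2 q' x' : ℕ} (hx : x < nA M) (hq : q ∉ M.halting)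
    (ha : M.action q x = (q', x', none)) :
    qmNext M (stC M b 0) (cHead M q x) a2 = (stC M (cHead M q' x') 0, 0, b, 0, 0) := by
  have h0 : nA M < cHead M q x := cHead_gt
  have h1 : ¬ cHead M q x = 0 := by omega
  have h2 : ¬ cHead M q x ≤ nA M := by omega
  simp [qmNext, stC_ne_zero, h1, h2, cHead_q hx, cHead_x hx, hq, ha,
    stB_stC (M := M) (b := b) (Nat.zero_le _)]

theorem next_head_right_grow {b q x q' x' : ℕ} (hx : x < nA M) (hq : q ∉ M.halting)
    (ha : M.action q x = (q', x', some true)) :
    qmNext M (stC M b 0) (cHead M q x) 0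
      = (stC M 0 0, 1, b, cPlain x', cHead M q' 0) := by
  have h0 : nA M < cHead M q x := cHead_gt
  have h1 : ¬ cHead M q x = 0 := by omega
  have h2 : ¬ cHead M q x ≤ nA M := by omega
  simp [qmNext, stC_ne_zero, h1, h2, cHead_q hx, cHead_x hx, hq, ha,
    stB_stC (M := M) (b := b) (Nat.zero_le _)]

theorem next_head_right {b q x a2 q' x' : ℕ} (hx : x < nA M) (hq : q ∉ M.halting)
    (ha : M.action q x = (q', x', some true)) (h2' : a2 ≠ 0) :
    qmNext M (stC M b 0) (cHead M q x) a2
      = (stC M (cPlain x') (q' + 1), 0, b, 0, 0) := by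
  have h0 : nA M < cHead M q x := cHead_gt
  have h1 : ¬ cHead M q x = 0 := by omega
  have h2 : ¬ cHead M q x ≤ nA M := by omega
  simp [qmNext, stC_ne_zero, h1, h2, cHead_q hx, cHead_x hx, hq, ha, h2',
    stB_stC (M := M) (b := b) (Nat.zero_le _)]

theorem next_head_left_grow {q x a2 q' x' : ℕ} (hx : x < nA M) (hq : q ∉ M.halting)
    (ha : M.action q x = (q', x', some false)) :
    qmNext M (stC M 0 0) (cHead M q x) a2
      = (stC M a2 0, 1, 0, cHead M q' 0, cPlain x') := by
  have h0 : nA M < cHead M q x := cHead_gt
  have h1 : ¬ cHead M q x = 0 := by omega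
  have h2 : ¬ cHead M q x ≤ nA M := by omega
  simp [qmNext, stC_ne_zero, h1, h2, cHead_q hx, cHead_x hx, hq, ha,
    stB_stC (M := M) (b := 0) (Nat.zero_le _)]

theorem next_head_left {l q x a2 q' x' : ℕ} (hl : l < nA M) (hx : x < nA M) (hq : q ∉ M.halting)
    (ha : M.action q x = (q', x', some false)) :
    qmNext M (stC M (cPlain l) 0) (cHead M q x) a2
      = (stC M (cPlain x') 0, 0, cHead M q' l, 0, 0) := by
  have h0 : nA M < cHead M q x := cHead_gt
  have h1 : ¬ cHead M q x = 0 := by omega
  have h2 : ¬ cHead M q x ≤ nA M := by omega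
  have h3 : 1 + l ≤ nA M := by omega
  simp [qmNext, stC_ne_zero, h1, h2, cHead_q hx, cHead_x hx, hq, ha, cPlain, h3,
    stB_stC (M := M) (b := 1 + l) (Nat.zero_le _)]

/-- `N` steps from `c` to `c'` that never meet the stop state. -/
def ReachN (M : Machine) (N : ℕ) (c c' : ℕ × List ℕ) : Prop :=
  (qmStep M)^[N] c = c' ∧ ∀ j ≤ N, ((qmStep M)^[j] c).1 ≠ 0

theorem ReachN.refl {c : ℕ × List ℕ} (h : c.1 ≠ 0) : ReachN M 0 c c :=
  ⟨rfl, fun j hj => by
    have : j = 0 := by omega
    subst this; exact h⟩

theorem ReachN.trans {N N' : ℕ} {c c' c'' : ℕ × List ℕ} (h : ReachN M N c c')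
    (h' : ReachN M N' c' c'') : ReachN M (N + N') c c'' := by
  constructor
  · rw [Nat.add_comm, Function.iterate_add_apply, h.1, h'.1]
  · intro j hj
    by_cases hjN : j ≤ N
    · exact h.2 j hjN
    · have hj' : j = (j - N) + N := by omega
      rw [hj', Function.iterate_add_apply, h.1]
      exact h'.2 _ (by omega)

theorem ReachN.step {c c' : ℕ × List ℕ} (h : qmStep M c = c') (h0 : c.1 ≠ 0) (h1 : c'.1 ≠ 0) :
    ReachN M 1 c c' := by
  refine ⟨h, fun j hj => ?_⟩
  have : j = 0 ∨ j = 1 := by omega
  rcases this with rfl | rfl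
  · exact h0
  · simpa [h] using h1

theorem step_plain {b x : ℕ} {X : List ℕ} (hx : x < nA M) (hX : X ≠ []) :
    ReachN M 1 (stC M b 0, cPlain x :: X) (stC M (cPlain x) 0, X ++ [b]) :=
  ReachN.step (by rw [qmStep_cons _ _ hX, next_plain_none hx]; simp)
    stC_ne_zero stC_ne_zero

theorem step_pending {b x q : ℕ} {X : List ℕ} (hx : x < nA M) (hq : q < nQ M) (hX : X ≠ []) :
    ReachN M 1 (stC M b (q + 1), cPlain x :: X) (stC M (cHead M q x) 0, X ++ [b]) :=
  ReachN.step (by rw [qmStep_cons _ _ hX, next_plain_pending hx hq]; simp)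
    stC_ne_zero stC_ne_zero

theorem step_hash {b : ℕ} {X : List ℕ} (hX : X ≠ []) :
    ReachN M 1 (stC M b 0, 0 :: X) (stC M 0 0, X ++ [b]) :=
  ReachN.step (by rw [qmStep_cons _ _ hX, next_hash (Nat.zero_le _)]; simp)
    stC_ne_zero stC_ne_zero

/-- Reading plain cells. -/
theorem scan (P : List ℕ) : ∀ (b : ℕ) (T : List ℕ), T ≠ [] → (∀ x ∈ P, x < nA M) →
    ReachN M P.length (stC M b 0, P.map cPlain ++ T)
      (stC M ((b :: P.map cPlain).getLast (by simp)) 0, T ++ (b :: P.map cPlain).dropLast) := by
  induction P with
  | nil =>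
    intro b T _ _
    simpa using ReachN.refl (M := M) (c := (stC M b 0, T)) stC_ne_zero
  | cons x P' ih =>
    intro b T hT hP
    have hX : P'.map cPlain ++ T ≠ [] := by simp [hT]
    have h1 := step_plain (M := M) (b := b) (hP x (by simp)) hX
    have h2 := ih (cPlain x) (T ++ [b]) (by simp) (fun y hy => hP y (by simp [hy]))
    have h3 := h1.trans (by
      have e : P'.map cPlain ++ T ++ [b] = P'.map cPlain ++ (T ++ [b]) := by simp
      rw [e]; exact h2)
    have e1 : (x :: P').length = 1 + P'.length := by simp [Nat.add_comm]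
    have eL : ((b :: (x :: P').map cPlain).getLast (by simp))
        = ((cPlain x :: P'.map cPlain).getLast (by simp)) := by
      simp [List.getLast_cons]
    have eD : T ++ (b :: (x :: P').map cPlain).dropLast
        = T ++ [b] ++ (cPlain x :: P'.map cPlain).dropLast := by
      simp
    rw [e1, eL, eD]
    simpa using h3

end Steps

/-- A list configuration: reversed left part, state, symbol under the head, right part. -/
abbrev LConfig := List ℕ × ℕ × ℕ × List ℕ

/-- One machine step on list configurations. -/
def lstep (M : Machine) (c : LConfig) : LConfig :=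
  let act := M.action c.2.1 c.2.2.1
  match act.2.2 with
  | none => (c.1, act.1, act.2.1, c.2.2.2)
  | some true =>
    match c.2.2.2 with
    | [] => (act.2.1 :: c.1, act.1, 0, [])
    | y :: R => (act.2.1 :: c.1, act.1, y, R)
  | some false =>
    match c.1 with
    | [] => ([], act.1, 0, act.2.1 :: c.2.2.2)
    | l :: L => (L, act.1, l, act.2.1 :: c.2.2.2)

/-- The cells of a list configuration in queue order. -/
def cells (M : Machine) (c : LConfig) : List ℕ :=
  c.1.reverse.map cPlain ++ cHead M c.2.1 c.2.2.1 :: c.2.2.2.map cPlain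

/-- The queue machine configuration at the start of a rotation. -/
def rotStart (M : Machine) (c : LConfig) : ℕ × List ℕ := (stC M 0 0, cells M c)

/-- Validity of a list configuration. -/
def LValid (M : Machine) (c : LConfig) : Prop :=
  c.2.1 < nQ M ∧ c.2.2.1 < nA M ∧ (∀ x ∈ c.1, x < nA M) ∧ (∀ x ∈ c.2.2.2, x < nA M) ∧
    (c.1 ≠ [] ∨ c.2.2.2 ≠ [])

theorem lstep_valid {M : Machine} (hM : M.Valid) {c : LConfig} (h : LValid M c) :
    LValid M (lstep M c) := by
  obtain ⟨L, q, x, R⟩ := c
  obtain ⟨hq, hx, hL, hR, hne⟩ := h
  simp only at hq hx hL hR hne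
  have hact := action_lt hM hq hx
  have hA : 0 < nA M := hM.1
  unfold lstep
  simp only
  rcases hmv : (M.action q x).2.2 with _ | _ | _
  · exact ⟨hact.1, hact.2, hL, hR, hne⟩
  · -- left
    cases L with
    | nil =>
      exact ⟨hact.1, hA, by simp, by
        intro y hy
        rcases List.mem_cons.1 hy with rfl | hy
        · exact hact.2
        · exact hR y hy, Or.inr (by simp)⟩
    | cons l L' =>
      refine ⟨hact.1, hL l (by simp), fun y hy => hL y (by simp [hy]), ?_, Or.inr (by simp)⟩
      intro y hy
      rcases List.mem_cons.1 hy with rfl | hy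
      · exact hact.2
      · exact hR y hy
  · cases R with
    | nil =>
      exact ⟨hact.1, hA, by
        intro y hy
        rcases List.mem_cons.1 hy with rfl | hy
        · exact hact.2
        · exact hL y hy, by simp, Or.inl (by simp)⟩
    | cons y R' =>
      refine ⟨hact.1, hR y (by simp), ?_, fun z hz => hR z (by simp [hz]), Or.inl (by simp)⟩
      intro z hz
      rcases List.mem_cons.1 hz with rfl | hz
      · exact hact.2
      · exact hL z hz

theorem scan' {M : Machine} {P : List ℕ} {b b' : ℕ} {T D : List ℕ} (hT : T ≠ [])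
    (hP : ∀ x ∈ P, x < nA M) (h : b :: P.map cPlain = D ++ [b']) :
    ReachN M P.length (stC M b 0, P.map cPlain ++ T) (stC M b' 0, T ++ D) := by
  have h0 := scan (M := M) P b T hT hP
  simp only [h] at h0
  simpa using h0

theorem exists_decomp {l : List ℕ} (hl : l ≠ []) : ∃ D b, l = D ++ [b] :=
  ⟨l.dropLast, l.getLast hl, (List.dropLast_append_getLast hl).symm⟩

theorem decomp_length {a b : ℕ} {P D : List ℕ} (h : a :: P = D ++ [b]) : D.length = P.length := by
  have := congrArg List.length h
  simp at this
  omega

/-- A full rotation performs one machine step. -/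
theorem rotate {M : Machine} (hM : M.Valid) {c : LConfig} (hc : LValid M c)
    (hq : c.2.1 ∉ M.halting) :
    ∃ N, 0 < N ∧ ReachN M N (rotStart M c) (rotStart M (lstep M c)) := by
  obtain ⟨L, q, x, R⟩ := c
  obtain ⟨hqlt, hx, hL, hR, hne⟩ := hc
  simp only at hq hqlt hx hL hR hne
  have hA : 0 < nA M := hM.1
  have hact := action_lt hM hqlt hx
  set Lc := L.reverse.map cPlain with hLc
  set Rc := R.map cPlain with hRc
  have hLrev : ∀ y ∈ L.reverse, y < nA M := fun y hy => hL y (by simpa using hy)
  obtain ⟨D₁, b₁, hD₁⟩ := exists_decomp (l := 0 :: Lc) (by simp)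
  have h1 : ReachN M L.reverse.length (stC M 0 0, Lc ++ cHead M q x :: Rc)
      (stC M b₁ 0, (cHead M q x :: Rc) ++ D₁) :=
    scan' (by simp) hLrev hD₁
  have hD₁len := decomp_length hD₁
  have hLclen : Lc.length = L.length := by simp [hLc]
  have hstart : rotStart M (L, q, x, R) = (stC M 0 0, Lc ++ cHead M q x :: Rc) := rfl
  rw [hstart]
  have hRcnil : Rc = [] ↔ R = [] := by simp [hRc]
  have hLcnil : Lc = [] ↔ L = [] := by simp [hLc]
  rcases hact' : M.action q x with ⟨q', x', mv⟩
  rw [hact'] at hact
  simp only at hact
  have hqL : q' < nQ M := hact.1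
  have hxL : x' < nA M := hact.2
  rcases mv with _ | mv
  · -- stay
    have hls : rotStart M (lstep M (L, q, x, R)) = (stC M 0 0, Lc ++ cHead M q' x' :: Rc) := by
      simp [lstep, hact', rotStart, cells, hLc, hRc]
    rw [hls]
    have hX : Rc ++ D₁ ≠ [] := by
      intro h0
      have h2 := List.append_eq_nil_iff.1 h0
      have hR0 : R = [] := hRcnil.1 h2.1
      have hL0 : L = [] := by
        have : D₁.length = 0 := by simp [h2.2]
        rw [hD₁len, hLclen] at this
        exact List.length_eq_zero_iff.1 this
      rcases hne with h | h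
      · exact h hL0
      · exact h hR0
    have h2 : ReachN M 1 (stC M b₁ 0, (cHead M q x :: Rc) ++ D₁)
        (stC M (cHead M q' x') 0, Rc ++ 0 :: Lc) := by
      refine ReachN.step ?_ stC_ne_zero stC_ne_zero
      rw [List.cons_append, qmStep_cons _ _ hX, next_head_stay hx hq hact']
      simp [hD₁]
    obtain ⟨D₂, b₂, hD₂⟩ := exists_decomp (l := cHead M q' x' :: Rc) (by simp)
    have h3 : ReachN M R.length (stC M (cHead M q' x') 0, Rc ++ 0 :: Lc)
        (stC M b₂ 0, (0 :: Lc) ++ D₂) :=
      scan' (by simp) hR hD₂
    have hD₂len := decomp_length hD₂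
    have hX2 : Lc ++ D₂ ≠ [] := by
      intro h0
      have h2 := List.append_eq_nil_iff.1 h0
      have hL0 : L = [] := hLcnil.1 h2.1
      have hR0 : R = [] := by
        have : D₂.length = 0 := by simp [h2.2]
        rw [hD₂len] at this
        have h5 : Rc = [] := List.length_eq_zero_iff.1 this
        exact hRcnil.1 h5
      rcases hne with h | h
      · exact h hL0
      · exact h hR0
    have h4 : ReachN M 1 (stC M b₂ 0, (0 :: Lc) ++ D₂) (stC M 0 0, Lc ++ cHead M q' x' :: Rc) := by
      have := step_hash (M := M) (b := b₂) hX2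
      simpa [hD₂] using this
    exact ⟨_, by omega, ((h1.trans h2).trans h3).trans h4⟩
  · cases mv with
    | true =>
      rcases (show R = [] ∨ ∃ y R'', R = y :: R'' by cases R <;> simp) with hR' | ⟨y, R'', hR'⟩
      ·
        have hLne : L ≠ [] := by
          rcases hne with h | h
          · exact h
          · exact absurd hR' h
        have hRc0 : Rc = [] := by simp [hRc, hR']
        have hls : rotStart M (lstep M (L, q, x, R))
            = (stC M 0 0, Lc ++ [cPlain x', cHead M q' 0]) := by
          simp [lstep, hact', rotStart, cells, hLc, hR']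
        rw [hls]
        have hLcne : Lc ≠ [] := fun h => hLne (hLcnil.1 h)
        obtain ⟨D₀, b₀, hD₀⟩ := exists_decomp hLcne
        have hD₁' : D₁ = 0 :: D₀ ∧ b₁ = b₀ := by
          have h5 : (0 :: D₀) ++ [b₀] = D₁ ++ [b₁] := by
            rw [← hD₁, hD₀]; simp
          have := List.append_inj' h5 (by simp)
          simp only [List.cons.injEq, and_true] at this
          exact ⟨this.1.symm, this.2.symm⟩
        have h2 : ReachN M 1 (stC M b₁ 0, (cHead M q x :: Rc) ++ D₁)
            (stC M 0 0, Lc ++ [cPlain x', cHead M q' 0]) := by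
          refine ReachN.step ?_ stC_ne_zero stC_ne_zero
          rw [hRc0, hD₁'.1, hD₁'.2, List.cons_append, List.nil_append,
            qmStep_cons _ _ (by simp), List.headI_cons, next_head_right_grow hx hq hact']
          simp [hD₀]
        exact ⟨_, by omega, h1.trans h2⟩
      ·
        have hls : rotStart M (lstep M (L, q, x, R))
            = (stC M 0 0, Lc ++ [cPlain x'] ++ cHead M q' y :: R''.map cPlain) := by
          simp [lstep, hact', rotStart, cells, hLc, hR']
        rw [hls]
        have hRc' : Rc = cPlain y :: R''.map cPlain := by simp [hRc, hR']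
        have hy : y < nA M := hR y (by simp [hR'])
        have h2 : ReachN M 1 (stC M b₁ 0, (cHead M q x :: Rc) ++ D₁)
            (stC M (cPlain x') (q' + 1), cPlain y :: (R''.map cPlain ++ (0 :: Lc))) := by
          refine ReachN.step ?_ stC_ne_zero stC_ne_zero
          rw [hRc', List.cons_append, List.cons_append,
            qmStep_cons _ _ (by simp), List.headI_cons,
            next_head_right hx hq hact' (by simp [cPlain])]
          simp [hD₁]
        have h3 : ReachN M 1 (stC M (cPlain x') (q' + 1), cPlain y :: (R''.map cPlain ++ (0 :: Lc)))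
            (stC M (cHead M q' y) 0, R''.map cPlain ++ (0 :: Lc) ++ [cPlain x']) :=
          step_pending hy hqL (by simp)
        obtain ⟨D₂, b₂, hD₂⟩ := exists_decomp (l := cHead M q' y :: R''.map cPlain) (by simp)
        have h4 : ReachN M R''.length (stC M (cHead M q' y) 0, R''.map cPlain ++ (0 :: Lc) ++ [cPlain x'])
            (stC M b₂ 0, (0 :: Lc ++ [cPlain x']) ++ D₂) := by
          have := scan' (M := M) (P := R'') (T := 0 :: Lc ++ [cPlain x']) (by simp)
            (fun z hz => hR z (by simp [hR', hz])) hD₂
          simpa using this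
        have h5 : ReachN M 1 (stC M b₂ 0, (0 :: Lc ++ [cPlain x']) ++ D₂)
            (stC M 0 0, Lc ++ [cPlain x'] ++ cHead M q' y :: R''.map cPlain) := by
          have := step_hash (M := M) (b := b₂) (X := Lc ++ [cPlain x'] ++ D₂) (by simp)
          simpa [hD₂] using this
        exact ⟨_, by omega, ((((h1.trans h2).trans h3).trans h4).trans h5)⟩
    | false =>
      rcases (show L = [] ∨ ∃ l L'', L = l :: L'' by cases L <;> simp) with hL' | ⟨l, L'', hL'⟩
      ·
        have hRne : R ≠ [] := by
          rcases hne with h | h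
          · exact absurd hL' h
          · exact h
        obtain ⟨y, R'', hR''⟩ := List.exists_cons_of_ne_nil hRne
        have hLc0 : Lc = [] := by simp [hLc, hL']
        have hD₁0 : D₁ = [] ∧ b₁ = 0 := by
          rw [hLc0] at hD₁
          have := decomp_length hD₁
          simp only [List.length_nil] at this
          have h0 : D₁ = [] := List.length_eq_zero_iff.1 this
          subst h0
          simpa using hD₁.symm
        have hls : rotStart M (lstep M (L, q, x, R))
            = (stC M 0 0, cHead M q' 0 :: cPlain x' :: Rc) := by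
          simp [lstep, hact', rotStart, cells, hL', hRc]
        rw [hls]
        have hRc' : Rc = cPlain y :: R''.map cPlain := by simp [hRc, hR'']
        have hy : y < nA M := hR y (by simp [hR''])
        have h2 : ReachN M 1 (stC M b₁ 0, (cHead M q x :: Rc) ++ D₁)
            (stC M (cPlain y) 0, R''.map cPlain ++ [0, cHead M q' 0, cPlain x']) := by
          refine ReachN.step ?_ stC_ne_zero stC_ne_zero
          rw [hD₁0.1, hD₁0.2, hRc', List.append_nil,
            qmStep_cons _ _ (by simp), List.headI_cons, next_head_left_grow hx hq hact']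
          simp
        obtain ⟨D₂, b₂, hD₂⟩ := exists_decomp (l := cPlain y :: R''.map cPlain) (by simp)
        have h3 : ReachN M R''.length
            (stC M (cPlain y) 0, R''.map cPlain ++ [0, cHead M q' 0, cPlain x'])
            (stC M b₂ 0, [0, cHead M q' 0, cPlain x'] ++ D₂) :=
          scan' (by simp) (fun z hz => hR z (by simp [hR'', hz])) hD₂
        have h4 : ReachN M 1 (stC M b₂ 0, [0, cHead M q' 0, cPlain x'] ++ D₂)
            (stC M 0 0, cHead M q' 0 :: cPlain x' :: Rc) := by
          have := step_hash (M := M) (b := b₂) (X := cHead M q' 0 :: cPlain x' :: D₂) (by simp)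
          have e : cHead M q' 0 :: cPlain x' :: D₂ ++ [b₂] = cHead M q' 0 :: cPlain x' :: Rc := by
            rw [List.cons_append, List.cons_append, ← hD₂, hRc']
          rw [e] at this
          simpa using this
        exact ⟨_, by omega, ((h1.trans h2).trans h3).trans h4⟩
      ·
        have hls : rotStart M (lstep M (L, q, x, R))
            = (stC M 0 0, L''.reverse.map cPlain ++ cHead M q' l :: cPlain x' :: Rc) := by
          simp [lstep, hact', rotStart, cells, hL', hRc]
        rw [hls]
        have hLc' : Lc = L''.reverse.map cPlain ++ [cPlain l] := by simp [hLc, hL']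
        have hD₁' : D₁ = 0 :: L''.reverse.map cPlain ∧ b₁ = cPlain l := by
          have h5 : (0 :: L''.reverse.map cPlain) ++ [cPlain l] = D₁ ++ [b₁] := by
            rw [← hD₁, hLc']; simp
          have := List.append_inj' h5 (by simp)
          simp only [List.cons.injEq, and_true] at this
          exact ⟨this.1.symm, this.2.symm⟩
        have hl : l < nA M := hL l (by simp [hL'])
        set L2c := L''.reverse.map cPlain with hL2c
        have h2 : ReachN M 1 (stC M b₁ 0, (cHead M q x :: Rc) ++ D₁)
            (stC M (cPlain x') 0, Rc ++ (0 :: L2c) ++ [cHead M q' l]) := by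
          refine ReachN.step ?_ stC_ne_zero stC_ne_zero
          rw [hD₁'.1, hD₁'.2, List.cons_append, qmStep_cons _ _ (by simp), next_head_left hl hx hq hact']
          simp
        obtain ⟨D₂, b₂, hD₂⟩ := exists_decomp (l := cPlain x' :: Rc) (by simp)
        have h3 : ReachN M R.length (stC M (cPlain x') 0, Rc ++ (0 :: L2c) ++ [cHead M q' l])
            (stC M b₂ 0, (0 :: L2c ++ [cHead M q' l]) ++ D₂) := by
          have := scan' (M := M) (P := R) (T := 0 :: L2c ++ [cHead M q' l]) (by simp) hR hD₂
          simpa using this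
        have h4 : ReachN M 1 (stC M b₂ 0, (0 :: L2c ++ [cHead M q' l]) ++ D₂)
            (stC M 0 0, L2c ++ cHead M q' l :: cPlain x' :: Rc) := by
          have := step_hash (M := M) (b := b₂) (X := L2c ++ [cHead M q' l] ++ D₂) (by simp)
          have e : L2c ++ [cHead M q' l] ++ D₂ ++ [b₂] = L2c ++ cHead M q' l :: cPlain x' :: Rc := by
            rw [List.append_assoc, List.append_assoc, ← hD₂]; simp
          rw [e] at this
          simpa using this
        exact ⟨_, by omega, ((h1.trans h2).trans h3).trans h4⟩

/-- A rotation from a configuration in a halting state meets the stop state. -/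
theorem rotate_halt {M : Machine} (hM : M.Valid) {c : LConfig} (hc : LValid M c)
    (hq : c.2.1 ∈ M.halting) : ∃ N, ((qmStep M)^[N] (rotStart M c)).1 = 0 := by
  obtain ⟨L, q, x, R⟩ := c
  obtain ⟨hqlt, hx, hL, hR, hne⟩ := hc
  simp only at hq hqlt hx hL hR hne
  set Lc := L.reverse.map cPlain with hLc
  set Rc := R.map cPlain with hRc
  have hLrev : ∀ y ∈ L.reverse, y < nA M := fun y hy => hL y (by simpa using hy)
  obtain ⟨D₁, b₁, hD₁⟩ := exists_decomp (l := 0 :: Lc) (by simp)
  have h1 : ReachN M L.reverse.length (stC M 0 0, Lc ++ cHead M q x :: Rc)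
      (stC M b₁ 0, (cHead M q x :: Rc) ++ D₁) :=
    scan' (by simp) hLrev hD₁
  have hD₁len := decomp_length hD₁
  have hLclen : Lc.length = L.length := by simp [hLc]
  have hX : Rc ++ D₁ ≠ [] := by
    intro h0
    have h2 := List.append_eq_nil_iff.1 h0
    have hR0 : R = [] := by simpa [hRc] using h2.1
    have hL0 : L = [] := by
      have : D₁.length = 0 := by simp [h2.2]
      rw [hD₁len, hLclen] at this
      exact List.length_eq_zero_iff.1 this
    rcases hne with h | h
    · exact h hL0
    · exact h hR0
  refine ⟨L.reverse.length + 1, ?_⟩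
  have hstart : rotStart M (L, q, x, R) = (stC M 0 0, Lc ++ cHead M q x :: Rc) := rfl
  rw [hstart, Nat.add_comm, Function.iterate_add_apply, h1.1, Function.iterate_one,
    List.cons_append, qmStep_cons _ _ hX, next_head_halt hx hq]
  simp

/-- The cell contents of a tape given by a list configuration with the head at `h`. -/
def tapeOf (c : LConfig) (h : ℤ) : ℤ → ℕ := fun i =>
  if i < h then c.1.getD (h - 1 - i).toNat 0
  else if i = h then c.2.2.1
  else c.2.2.2.getD (i - h - 1).toNat 0

/-- The machine configuration given by a list configuration with the head at `h`. -/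
def toConfig (c : LConfig) (h : ℤ) : Config := (c.2.1, tapeOf c h, h)

theorem tapeOf_head (c : LConfig) (h : ℤ) : tapeOf c h h = c.2.2.1 := by
  simp [tapeOf]

/-- A machine step on a list configuration agrees with the step on the tape. -/
theorem step_toConfig (M : Machine) (c : LConfig) (h : ℤ) :
    M.step (toConfig c h) = toConfig (lstep M c) (h + moveBy (M.action c.2.1 c.2.2.1).2.2) := by
  obtain ⟨L, q, x, R⟩ := c
  simp only [Machine.step, toConfig, tapeOf_head]
  rcases hact : M.action q x with ⟨q', x', mv⟩
  simp only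
  have hcongr : ∀ (c' : LConfig) (h' : ℤ), c'.2.1 = q' →
      (Function.update (tapeOf (L, q, x, R) h) h x' = tapeOf c' h') →
      ((q', Function.update (tapeOf (L, q, x, R) h) h x', h') : Config) = (c'.2.1, tapeOf c' h', h') := by
    intro c' h' h1 h2
    rw [h1, h2]
  rcases mv with _ | mv
  · simp only [moveBy, add_zero]
    have hl : lstep M (L, q, x, R) = (L, q', x', R) := by simp [lstep, hact]
    rw [hl]
    apply hcongr _ _ rfl
    funext i
    by_cases hi : i = h
    · subst hi; simp [tapeOf]
    · simp [Function.update, hi, tapeOf]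
  · cases mv with
    | true =>
      simp only [moveBy]
      rcases (show R = [] ∨ ∃ y R'', R = y :: R'' by cases R <;> simp) with hR | ⟨y, R'', hR⟩
      · subst hR
        have hl : lstep M (L, q, x, []) = (x' :: L, q', 0, []) := by simp [lstep, hact]
        rw [hl]
        apply hcongr _ _ rfl
        funext i
        by_cases hi : i = h
        · subst hi; simp [tapeOf]
        · simp only [Function.update, hi, dite_false, tapeOf]
          by_cases hi2 : i < h
          · have h3 : i < h + 1 := by omega
            obtain ⟨n, hn⟩ : ∃ n : ℕ, h - 1 - i = n := ⟨(h - 1 - i).toNat, by omega⟩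
            have h4 : (h - i).toNat = n + 1 := by omega
            have h5 : (h - 1 - i).toNat = n := by omega
            simp [hi2, h3, h4, h5]
          · have h3 : ¬ i < h + 1 := by omega
            have h4 : ¬ i = h := hi
            by_cases hi3 : i = h + 1
            · simp [hi3]
            · simp [hi2, h3, h4, hi3]
      · subst hR
        have hl : lstep M (L, q, x, y :: R'') = (x' :: L, q', y, R'') := by simp [lstep, hact]
        rw [hl]
        apply hcongr _ _ rfl
        funext i
        by_cases hi : i = h
        · subst hi; simp [tapeOf]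
        · simp only [Function.update, hi, dite_false, tapeOf]
          by_cases hi2 : i < h
          · have h3 : i < h + 1 := by omega
            obtain ⟨n, hn⟩ : ∃ n : ℕ, h - 1 - i = n := ⟨(h - 1 - i).toNat, by omega⟩
            have h4 : (h - i).toNat = n + 1 := by omega
            have h5 : (h - 1 - i).toNat = n := by omega
            simp [hi2, h3, h4, h5]
          · have h3 : ¬ i < h + 1 := by omega
            have h4 : ¬ i = h := hi
            by_cases hi3 : i = h + 1
            · simp [hi3]
            · obtain ⟨n, hn⟩ : ∃ n : ℕ, i - (h + 1) - 1 = n := ⟨(i - (h + 1) - 1).toNat, by omega⟩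
              have h6 : (i - h - 1).toNat = n + 1 := by omega
              have h7 : (i - (h + 1) - 1).toNat = n := by omega
              simp [hi2, h3, h4, hi3, h6, h7]
    | false =>
      simp only [moveBy]
      rcases (show L = [] ∨ ∃ l L'', L = l :: L'' by cases L <;> simp) with hL | ⟨l, L'', hL⟩
      · subst hL
        have hl : lstep M ([], q, x, R) = ([], q', 0, x' :: R) := by simp [lstep, hact]
        rw [hl]
        apply hcongr _ _ rfl
        funext i
        by_cases hi : i = h
        · subst hi; simp [tapeOf]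
        · simp only [Function.update, hi, dite_false, tapeOf]
          by_cases hi2 : i < h + -1
          · have h3 : i < h := by omega
            simp [hi2, h3]
          · by_cases hi3 : i = h + -1
            · have h3 : i < h := by omega
              simp [hi3]
            · have h3 : ¬ i < h := by omega
              obtain ⟨n, hn⟩ : ∃ n : ℕ, i - h - 1 = n := ⟨(i - h - 1).toNat, by omega⟩
              have h6 : (i - (h + -1) - 1).toNat = n + 1 := by omega
              have h7 : (i - h - 1).toNat = n := by omega
              simp [hi2, hi3, h3, hi, h6, h7]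
      · subst hL
        have hl : lstep M (l :: L'', q, x, R) = (L'', q', l, x' :: R) := by simp [lstep, hact]
        rw [hl]
        apply hcongr _ _ rfl
        funext i
        by_cases hi : i = h
        · subst hi; simp [tapeOf]
        · simp only [Function.update, hi, dite_false, tapeOf]
          by_cases hi2 : i < h + -1
          · have h3 : i < h := by omega
            obtain ⟨n, hn⟩ : ∃ n : ℕ, h + -1 - 1 - i = n := ⟨(h + -1 - 1 - i).toNat, by omega⟩
            have h6 : (h - 1 - i).toNat = n + 1 := by omega
            have h7 : (h + -1 - 1 - i).toNat = n := by omega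
            simp [hi2, h3, h6, h7]
          · by_cases hi3 : i = h + -1
            · have h3 : i < h := by omega
              have h6 : (h - 1 - i).toNat = 0 := by omega
              simp [hi3, h6]
              have h8 : (h - 1 - (h + -1)).toNat = 0 := by omega
              simp [h8]
            · have h3 : ¬ i < h := by omega
              obtain ⟨n, hn⟩ : ∃ n : ℕ, i - h - 1 = n := ⟨(i - h - 1).toNat, by omega⟩
              have h6 : (i - (h + -1) - 1).toNat = n + 1 := by omega
              have h7 : (i - h - 1).toNat = n := by omega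
              simp [hi2, hi3, h3, hi, h6, h7]

/-- The list configuration at the start of the run on input `w`; a blank is added so that there
are at least two cells. -/
def lInit (M : Machine) (w : List ℕ) : LConfig := ([], M.start, w.headD 0, w.tail ++ [0])

theorem init_eq_toConfig (M : Machine) (w : List ℕ) : M.init w = toConfig (lInit M w) 0 := by
  unfold Machine.init toConfig lInit
  simp only
  congr 2
  funext i
  simp only [tapeOf]
  by_cases hi : i < 0
  · simp [hi, not_le.2 hi]
  · have h0 : 0 ≤ i := by omega
    simp only [hi, if_false, h0, if_true]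
    by_cases hi2 : i = 0
    · subst hi2
      cases w <;> simp
    · simp only [hi2, if_false]
      obtain ⟨n, hn⟩ : ∃ n : ℕ, i - 0 - 1 = n := ⟨(i - 0 - 1).toNat, by omega⟩
      have h6 : (i - 0 - 1).toNat = n := by omega
      have h7 : i.toNat = n + 1 := by omega
      rw [h6, h7]
      cases w with
      | nil => simp [List.getD_eq_getElem?_getD]
      | cons a t =>
        simp only [List.tail_cons, List.getD_cons_succ]
        by_cases hn2 : n < t.length
        · rw [List.getD_append _ _ _ _ hn2]
        · rw [List.getD_eq_default _ _ (by omega)]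
          rw [List.getD_eq_getElem?_getD, List.getElem?_append_right (by omega)]
          by_cases h8 : n - t.length = 0
          · simp [h8]
          · have : ([0] : List ℕ)[n - t.length]? = none := by
              simp; omega
            simp [this]

theorem lInit_valid {M : Machine} (hM : M.Valid) {w : List ℕ} (hw : M.IsInput w) :
    LValid M (lInit M w) := by
  refine ⟨hM.2.1, ?_, by simp [lInit], ?_, Or.inr (by simp [lInit])⟩
  · cases w with
    | nil => exact hM.1
    | cons a t => exact hw a (by simp)
  · intro x hx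
    simp only [lInit, List.mem_append, List.mem_singleton] at hx
    rcases hx with hx | rfl
    · exact hw x (List.mem_of_mem_tail hx)
    · exact hM.1

theorem iterate_step (M : Machine) (w : List ℕ) (n : ℕ) :
    ∃ h : ℤ, (M.step)^[n] (M.init w) = toConfig ((lstep M)^[n] (lInit M w)) h := by
  induction n with
  | zero => exact ⟨0, init_eq_toConfig M w⟩
  | succ n ih =>
    obtain ⟨h, hh⟩ := ih
    refine ⟨h + moveBy (M.action ((lstep M)^[n] (lInit M w)).2.1
      ((lstep M)^[n] (lInit M w)).2.2.1).2.2, ?_⟩
    rw [Function.iterate_succ_apply', hh, step_toConfig, ← Function.iterate_succ_apply' (lstep M)]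

theorem state_iterate (M : Machine) (w : List ℕ) (n : ℕ) :
    ((M.step)^[n] (M.init w)).1 = ((lstep M)^[n] (lInit M w)).2.1 := by
  obtain ⟨h, hh⟩ := iterate_step M w n
  rw [hh]; rfl

theorem lstep_iterate_valid {M : Machine} (hM : M.Valid) {w : List ℕ} (hw : M.IsInput w) (n : ℕ) :
    LValid M ((lstep M)^[n] (lInit M w)) := by
  induction n with
  | zero => exact lInit_valid hM hw
  | succ n ih =>
    rw [Function.iterate_succ_apply']
    exact lstep_valid hM ih

/-- The queue machine reaches the stop state if and only if the Turing machine halts. -/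
theorem qm_halts_iff {M : Machine} (hM : M.Valid) {w : List ℕ} (hw : M.IsInput w) :
    (∃ N, ((qmStep M)^[N] (rotStart M (lInit M w))).1 = 0) ↔ M.Halts w := by
  constructor
  · rintro ⟨N, hN⟩
    by_contra hnot
    have hnh : ∀ k, ((lstep M)^[k] (lInit M w)).2.1 ∉ M.halting := by
      intro k hk
      apply hnot
      exact ⟨k, by rw [state_iterate]; exact hk⟩
    have key : ∀ k, ∃ T, k ≤ T ∧
        ReachN M T (rotStart M (lInit M w)) (rotStart M ((lstep M)^[k] (lInit M w))) := by
      intro k
      induction k with
      | zero => exact ⟨0, le_rfl, ReachN.refl stC_ne_zero⟩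
      | succ k ih =>
        obtain ⟨T, hT, hR⟩ := ih
        obtain ⟨N', hN', hR'⟩ := rotate hM (lstep_iterate_valid hM hw k) (hnh k)
        refine ⟨T + N', by omega, ?_⟩
        rw [Function.iterate_succ_apply']
        exact hR.trans hR'
    obtain ⟨T, hT, hR⟩ := key N
    exact hR.2 N hT hN
  · rintro ⟨n, hn⟩
    classical
    rw [state_iterate] at hn
    have hex : ∃ k, ((lstep M)^[k] (lInit M w)).2.1 ∈ M.halting := ⟨n, hn⟩
    obtain hmin := Nat.find_spec hex
    have hmin2 : ∀ k < Nat.find hex, ((lstep M)^[k] (lInit M w)).2.1 ∉ M.halting :=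
      fun k hk => Nat.find_min hex hk
    set m := Nat.find hex with hm
    have key : ∀ k ≤ m, ∃ T,
        ReachN M T (rotStart M (lInit M w)) (rotStart M ((lstep M)^[k] (lInit M w))) := by
      intro k
      induction k with
      | zero => exact fun _ => ⟨0, ReachN.refl stC_ne_zero⟩
      | succ k ih =>
        intro hk
        obtain ⟨T, hR⟩ := ih (by omega)
        obtain ⟨N', _, hR'⟩ := rotate hM (lstep_iterate_valid hM hw k) (hmin2 k (by omega))
        refine ⟨T + N', ?_⟩
        rw [Function.iterate_succ_apply']
        exact hR.trans hR'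
    obtain ⟨T, hR⟩ := key m le_rfl
    obtain ⟨N', hN'⟩ := rotate_halt hM (lstep_iterate_valid hM hw m) hmin
    refine ⟨N' + T, ?_⟩
    rw [Function.iterate_add_apply, hR.1]
    exact hN'

/-- Invariant of queue machine configurations. -/
def QInv (M : Machine) (c : ℕ × List ℕ) : Prop :=
  c.1 < nS M ∧ (∀ a ∈ c.2, a < nK M) ∧ 2 ≤ c.2.length

theorem rotStart_inv {M : Machine} (hM : M.Valid) {c : LConfig} (hc : LValid M c) :
    QInv M (rotStart M c) := by
  obtain ⟨L, q, x, R⟩ := c
  obtain ⟨hqlt, hx, hL, hR, hne⟩ := hc
  simp only at hqlt hx hL hR hne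
  refine ⟨stC_lt (by unfold nK; omega) (Nat.zero_le _), ?_, ?_⟩
  · intro a ha
    simp only [rotStart, cells, List.mem_append, List.mem_map, List.mem_reverse, List.mem_cons] at ha
    rcases ha with ⟨y, hy, rfl⟩ | rfl | ⟨y, hy, rfl⟩
    · exact cPlain_lt (hL y hy)
    · exact cHead_lt hqlt hx
    · exact cPlain_lt (hR y hy)
  · simp only [rotStart, cells, List.length_append, List.length_map, List.length_reverse,
      List.length_cons]
    rcases hne with h | h
    · have := List.length_pos_iff.2 h
      omega
    · have := List.length_pos_iff.2 h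
      omega

theorem qmStep_inv {M : Machine} (hM : M.Valid) {c : ℕ × List ℕ} (hc : QInv M c) :
    QInv M (qmStep M c) := by
  obtain ⟨s, q⟩ := c
  obtain ⟨hs, hq, hlen⟩ := hc
  simp only at hs hq hlen
  match q, hq, hlen with
  | a1 :: a2 :: rest, hq, hlen =>
    have hb := qmNext_lt hM hs (hq a1 (by simp)) (hq a2 (by simp))
    simp only [qmStep]
    split_ifs with hg
    · refine ⟨hb.1, ?_, ?_⟩
      · intro a ha
        simp only [List.mem_append, List.mem_cons, List.not_mem_nil, or_false] at ha
        rcases ha with ha | rfl | rfl | rfl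
        · exact hq a (by simp [ha])
        · exact hb.2.1
        · exact hb.2.2.1
        · exact hb.2.2.2
      · simp
    · refine ⟨hb.1, ?_, ?_⟩
      · intro a ha
        simp only [List.cons_append, List.mem_cons, List.mem_append, List.not_mem_nil, or_false] at ha
        rcases ha with rfl | ha | rfl
        · exact hq _ (by simp)
        · exact hq a (by simp [ha])
        · exact hb.2.1
      · simp at hlen ⊢

end Vale.Agent.Lib.P113
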