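import Vale.Agent.Lib.P113.Path
import Vale.Agent.Lib.P113.TM

/-!
The time slots compiled from a machine and an input.
-/

namespace Vale.Agent.Lib.P113

open Machine

/-- Number of digits of the history stack. -/
def nD (M : Machine) : ℕ := nS M * nK M * nK M
/-- The base of all digit expansions. -/
def nB (M : Machine) : ℕ := 2 * nD M + 2
/-- The inverse of the scale `ρ` of the queue. -/
def nR (M : Machine) : ℕ := 64 * nB M ^ 3

/-- The code of `(a - b) / d`. -/
def ratF (a b d : ℕ) : RatCode := (a, b, d - 1)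

theorem val_ratF (a b : ℕ) {d : ℕ} (hd : 0 < d) :
    (ratF a b d).val = ((a : ℝ) - b) / d := by
  unfold ratF RatCode.val
  simp only
  rw [Nat.cast_sub hd]
  simp

/-- The history digit of an index of the tables. -/
def triH (M : Machine) (n : ℕ) : ℕ := n / (nK M * nK M)
/-- The first queue digit of an index of the tables. -/
def triA (M : Machine) (n : ℕ) : ℕ := (n / nK M) % nK M
/-- The second queue digit of an index of the tables. -/
def triA' (M : Machine) (n : ℕ) : ℕ := n % nK M
/-- The rule of an index of the tables. -/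
def triRule (M : Machine) (n : ℕ) : ℕ × ℕ × ℕ × ℕ × ℕ :=
  qmNext M (triH M n / (nK M * nK M)) (triA M n) (triA' M n)
/-- The new history digit. -/
def triH' (M : Machine) (n : ℕ) : ℕ :=
  (triRule M n).1 * nK M * nK M + triA M n * nK M + triA' M n
/-- The index of the plateau in the history coordinate. -/
def triNx (M : Machine) (n : ℕ) : ℕ := triH' M n * nB M + triH M n
/-- The index of the plateau in the queue coordinate. -/
def triN0 (M : Machine) (n : ℕ) : ℕ := (nK M * triH M n + triA M n) * nB M + triA' M n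
/-- The growth flag. -/
def triG (M : Machine) (n : ℕ) : ℕ := (triRule M n).2.1
/-- The coefficient of the write pointer when writing. -/
def triBeta (M : Machine) (n : ℕ) : ℕ :=
  if triG M n = 1 then
    (triRule M n).2.2.1 * nB M ^ 2 + (triRule M n).2.2.2.1 * nB M + (triRule M n).2.2.2.2
  else (triRule M n).2.2.1

/-- Direction, plateau coordinate, saw coordinate, width and number of entries of a stage. -/
def stageCode (M : Machine) (j : ℕ) : ℕ × ℕ × ℕ × RatCode × ℕ :=
  if j = 0 ∨ j = 2 then (0, 1, 2, ratF 1 0 1, 1)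
  else if j = 1 ∨ j = 3 then (2, 1, 0, ratF 1 0 1, 1)
  else if j = 4 then (0, 2, 1, ratF 1 0 (8 * nB M ^ 2), nD M)
  else if j = 5 then (2, 0, 1, ratF 1 0 (nR M * nB M), nD M * nK M * nK M)
  else if j = 8 ∨ j = 10 then (1, 2, 0, ratF 1 0 (8 * nB M ^ 2), nD M * nK M * nK M)
  else (0, 2, 1, ratF 1 0 (8 * nB M ^ 2), nD M * nK M * nK M)

/-- The entries `(N, α, β)` of a stage. -/
def stageEntry (M : Machine) (j n : ℕ) : RatCode × RatCode × RatCode :=
  if j = 0 then (ratF 0 1 4, ratF 0 0 1, ratF 0 1 (nB M))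
  else if j = 1 then (ratF 0 1 4, ratF 0 0 1, ratF (nB M - 1) 0 1)
  else if j = 2 then (ratF 0 1 4, ratF 0 0 1, ratF 1 0 1)
  else if j = 3 then (ratF 0 1 4, ratF 0 0 1, ratF 0 (nB M - 1) (nB M))
  else if j = 4 then (ratF n 0 1, ratF (nK M * n) 0 (nR M), ratF 0 0 1)
  else if j = 5 then (ratF (triN0 M n) 0 1, ratF (triH' M n) 0 (8 * nB M), ratF 0 0 1)
  else if j = 6 then
    (ratF (triNx M n) 0 1, ratF 0 (nK M * triH M n + triA M n) (nR M), ratF 0 0 1)
  else if j = 7 then (ratF (triNx M n) 0 1, ratF 0 0 1, ratF 0 (triG M n) (nB M))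
  else if j = 8 then (ratF (triNx M n) 0 1, ratF 0 0 1, ratF (triG M n * (nB M - 1)) 0 1)
  else if j = 9 then (ratF (triNx M n) 0 1, ratF 0 0 1, ratF (triG M n) 0 1)
  else if j = 10 then (ratF (triNx M n) 0 1, ratF 0 0 1, ratF 0 (triG M n * (nB M - 1)) (nB M))
  else if j = 11 then
    (ratF (triNx M n) 0 1, ratF 0 (triG M n * triA' M n) (nR M), ratF (triBeta M n) 0 1)
  else
    (ratF (triNx M n) 0 1, ratF (if (triRule M n).1 = 0 then 3 else 0) 0 8, ratF 0 0 1)

/-- The queue at the start of the run. -/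
def q0 (M : Machine) (w : List ℕ) : List ℕ :=
  cHead M M.start (w.headD 0) :: (w.tail ++ [0]).map cPlain

/-- The numerator of the expansion of a digit list. -/
def numN (B : ℕ) (L : List ℕ) : ℕ := L.foldl (fun acc d => acc * B + d) 0

/-- The history digit at the start of the run. -/
def h0 (M : Machine) : ℕ := stC M 0 0 * nK M * nK M

/-- The displacements of the three first slots, which bring the origin to the start point. -/
def initVal (M : Machine) (w : List ℕ) (k : ℕ) : RatCode :=
  if k = 0 then ratF (numN (nB M) (q0 M w)) 0 (nR M * nB M ^ (q0 M w).length)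
  else if k = 1 then ratF 1 0 (nR M * nB M ^ (q0 M w).length)
  else ratF (h0 M) 0 (8 * nB M)

/-- Direction etc of the three first slots. -/
def initCode (k : ℕ) : ℕ × ℕ × ℕ × RatCode × ℕ :=
  if k = 0 then (0, 1, 2, ratF 1 0 1, 1)
  else if k = 1 then (1, 0, 2, ratF 1 0 1, 1)
  else (2, 0, 1, ratF 1 0 1, 1)

/-- The data of slot `k`. -/
def slotCode (M : Machine) (k : ℕ) : ℕ × ℕ × ℕ × RatCode × ℕ :=
  if k < 3 then initCode k else stageCode M ((k - 3) % 13)

/-- The entries of slot `k`. -/
def slotEntry (M : Machine) (w : List ℕ) (k n : ℕ) : RatCode × RatCode × RatCode :=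
  if k < 3 then (ratF 0 1 4, initVal M w k, ratF 0 0 1) else stageEntry M ((k - 3) % 13) n

/-- The shear of slot `k`. -/
noncomputable def shearOf (M : Machine) (w : List ℕ) (k : ℕ) : Shear where
  i := Fin.ofNat 3 (slotCode M k).1
  p := Fin.ofNat 3 (slotCode M k).2.1
  l := Fin.ofNat 3 (slotCode M k).2.2.1
  w := (slotCode M k).2.2.2.1.val
  nn := (slotCode M k).2.2.2.2
  N := fun n => (slotEntry M w k n).1.val
  α := fun n => (slotEntry M w k n).2.1.val
  β := fun n => (slotEntry M w k n).2.2.val

end Vale.Agent.Lib.P113
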