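import Mathlib

/-!
Definitions for the statement on halting detection by particle paths of forced
Navier-Stokes flows on the torus `T³ = ℝ³/ℤ³`.

Functions on the torus are modelled as `ℤ³`-periodic functions on `ℝ³`, the open set `O` as a
`ℤ³`-invariant open subset of `ℝ³`, and a path on the torus by its lift to `ℝ³`.
-/

namespace Vale.Agent.Lib.P113

open MeasureTheory Set
open scoped ContDiff

/-- The covering space `ℝ³` of the torus. -/
abbrev R3 := Fin 3 → ℝ

/-- `ℤ³`-periodicity in the space variable, that is: a function on the torus. -/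
def SpacePeriodic {β : Type*} (g : R3 → β) : Prop :=
  ∀ (x : R3) (k : Fin 3 → ℤ), g (fun i => x i + (k i : ℝ)) = g x

/-- The derivative of a scalar function on `ℝ³` in the coordinate direction `j`. -/
noncomputable def pd (j : Fin 3) (g : R3 → ℝ) (x : R3) : ℝ :=
  fderiv ℝ g x (Pi.single j 1)

/-- A classical solution on `[0,T] × T³` of the Navier-Stokes system with viscosity `ν`, force `f`
and zero initial velocity: `u`, `∂ₜu`, the space derivatives of `u` up to order two, `p` and `∇p`
are continuous on `[0,T] × T³` and the equations hold pointwise; `p` has space mean zero.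
The time derivative at the ends of `[0,T]` is the one-sided derivative. -/
structure IsClassicalSolution (ν T : ℝ) (f u : ℝ → R3 → R3) (p : ℝ → R3 → ℝ) : Prop where
  periodic_u : ∀ t ∈ Icc 0 T, SpacePeriodic (u t)
  periodic_p : ∀ t ∈ Icc 0 T, SpacePeriodic (p t)
  contDiff_u : ∀ t ∈ Icc 0 T, ContDiff ℝ 2 (u t)
  contDiff_p : ∀ t ∈ Icc 0 T, ContDiff ℝ 1 (p t)
  continuous_u : ContinuousOn (fun q : ℝ × R3 => u q.1 q.2) (Icc 0 T ×ˢ univ)
  continuous_Du : ContinuousOn (fun q : ℝ × R3 => fderiv ℝ (u q.1) q.2) (Icc 0 T ×ˢ univ)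
  continuous_D2u :
    ContinuousOn (fun q : ℝ × R3 => fderiv ℝ (fderiv ℝ (u q.1)) q.2) (Icc 0 T ×ˢ univ)
  continuous_p : ContinuousOn (fun q : ℝ × R3 => p q.1 q.2) (Icc 0 T ×ˢ univ)
  continuous_Dp : ContinuousOn (fun q : ℝ × R3 => fderiv ℝ (p q.1) q.2) (Icc 0 T ×ˢ univ)
  differentiable_time : ∀ x, ∀ t ∈ Icc 0 T, DifferentiableWithinAt ℝ (fun s => u s x) (Icc 0 T) t
  continuous_time :
    ContinuousOn (fun q : ℝ × R3 => derivWithin (fun s => u s q.2) (Icc 0 T) q.1) (Icc 0 T ×ˢ univ)
  momentum : ∀ t ∈ Icc 0 T, ∀ x, ∀ i : Fin 3,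
    derivWithin (fun s => u s x i) (Icc 0 T) t + ∑ j, u t x j * pd j (fun y => u t y i) x
      = - pd i (p t) x + ν * ∑ j, pd j (pd j (fun y => u t y i)) x + f t x i
  divergence_free : ∀ t ∈ Icc 0 T, ∀ x, ∑ j, pd j (fun y => u t y j) x = 0
  initial : ∀ x, u 0 x = 0
  mean_zero : ∀ t ∈ Icc 0 T, ∫ x in Icc (0 : R3) 1, p t x = 0

/-- A global smooth solution: `u` and `p` are smooth (here even on all of `ℝ × ℝ³`) and they form
a classical solution on `[0,T]` for every `T > 0`. -/
def IsGlobalSmoothSolution (ν : ℝ) (f u : ℝ → R3 → R3) (p : ℝ → R3 → ℝ) : Prop :=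
  ContDiff ℝ ∞ (fun q : ℝ × R3 => u q.1 q.2) ∧ ContDiff ℝ ∞ (fun q : ℝ × R3 => p q.1 q.2) ∧
    ∀ T > 0, IsClassicalSolution ν T f u p

/-- A smooth force on the torus. -/
def IsSmoothForce (f : ℝ → R3 → R3) : Prop :=
  ContDiff ℝ ∞ (fun q : ℝ × R3 => f q.1 q.2) ∧ ∀ t, SpacePeriodic (f t)

/-- The path from `a` of the velocity field `u`, for times `t ≥ 0` (one-sided derivative at `0`). -/
def IsTrajectory (u : ℝ → R3 → R3) (a : R3) (X : ℝ → R3) : Prop :=
  X 0 = a ∧ ∀ t, 0 ≤ t → HasDerivWithinAt X (u t (X t)) (Ici 0) t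

/-- A subset of `ℝ³` invariant under `ℤ³`, that is: a subset of the torus. -/
def IsPeriodicSet (O : Set R3) : Prop :=
  ∀ (x : R3) (k : Fin 3 → ℤ), (fun i => x i + (k i : ℝ)) ∈ O ↔ x ∈ O

/-- Rational numbers as programs see them: the code `(a, b, c)` stands for `(a - b) / (c + 1)`. -/
abbrev RatCode := ℕ × ℕ × ℕ

/-- The rational number with code `q`. -/
noncomputable def RatCode.val (q : RatCode) : ℝ :=
  ((q.1 : ℝ) - (q.2.1 : ℝ)) / ((q.2.2 : ℝ) + 1)

/-- The derivative in time of a scalar function of `(t, x)`. -/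
noncomputable def dt (g : ℝ → R3 → ℝ) : ℝ → R3 → ℝ :=
  fun t x => deriv (fun s => g s x) t

/-- The derivative in the space coordinate `j` of a scalar function of `(t, x)`. -/
noncomputable def dx (j : Fin 3) (g : ℝ → R3 → ℝ) : ℝ → R3 → ℝ :=
  fun t x => deriv (fun s => g t (Function.update x j s)) (x j)

/-- The mixed derivative of order `n` in time and `m₀, m₁, m₂` in the three space coordinates. -/
noncomputable def mixedDeriv (n m₀ m₁ m₂ : ℕ) (g : ℝ → R3 → ℝ) : ℝ → R3 → ℝ :=
  (dt)^[n] ((dx 0)^[m₀] ((dx 1)^[m₁] ((dx 2)^[m₂] g)))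

/-- The program `c` returns every mixed derivative of every component of `f` at every rational
point `(t, x)` with `t ≥ 0` to within `2⁻ᵏ`. Its input is the code of the tuple
`(i, n, m₀, m₁, m₂, t, x₀, x₁, x₂, k)` and its output the code of a rational number. -/
def Computes (c : Nat.Partrec.Code) (f : ℝ → R3 → R3) : Prop :=
  ∀ (i : Fin 3) (n m₀ m₁ m₂ : ℕ) (t x₀ x₁ x₂ : RatCode) (k : ℕ), 0 ≤ t.val →
    ∃ q : RatCode,
      c.eval (Encodable.encode ((i : ℕ), n, m₀, m₁, m₂, t, x₀, x₁, x₂, k))
          = Part.some (Encodable.encode q) ∧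
        |q.val - mixedDeriv n m₀ m₁ m₂ (fun s y => f s y i) t.val ![x₀.val, x₁.val, x₂.val]|
          ≤ (1 / 2 : ℝ) ^ k

/-- A computable real number. -/
def IsComputableReal (ν : ℝ) : Prop :=
  ∃ r : ℕ → RatCode, Computable r ∧ ∀ n, |(r n).val - ν| ≤ (1 / 2 : ℝ) ^ n

/-- A deterministic one-tape Turing machine over a finite alphabet, as data a program can read:
the number of states (the states are `0, …, numStates - 1`), the number of symbols (the symbols are
`0, …, numSymbols - 1`, and `0` is the blank), the start state, the list of halting states, and the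
list of rules `(q, a, q', a', mv)`: in state `q` reading `a`, write `a'`, go to state `q'`, and move
as `mv` says (`some true`: one cell right, `some false`: one cell left, `none`: stay). -/
abbrev Machine := ℕ × ℕ × ℕ × List ℕ × List (ℕ × ℕ × ℕ × ℕ × Option Bool)

namespace Machine

/-- The number of states. -/
def numStates (M : Machine) : ℕ := M.1
/-- The number of symbols; `0` is the blank. -/
def numSymbols (M : Machine) : ℕ := M.2.1
/-- The start state. -/
def start (M : Machine) : ℕ := M.2.2.1
/-- The halting states. -/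
def halting (M : Machine) : List ℕ := M.2.2.2.1
/-- The rules. -/
def rules (M : Machine) : List (ℕ × ℕ × ℕ × ℕ × Option Bool) := M.2.2.2.2

/-- All data of a machine lie in its declared finite sets of states and symbols. -/
def Valid (M : Machine) : Prop :=
  0 < M.numSymbols ∧ M.start < M.numStates ∧
    ∀ r ∈ M.rules, r.2.2.1 < M.numStates ∧ r.2.2.2.1 < M.numSymbols

/-- The action in state `q` reading `a`: the first rule for `(q, a)` decides; if there is none the
machine stays as it is forever. -/
def action (M : Machine) (q a : ℕ) : ℕ × ℕ × Option Bool :=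
  ((M.rules.find? (fun r => r.1 = q ∧ r.2.1 = a)).map (fun r => r.2.2)).getD (q, a, none)

/-- The displacement of the head. -/
def moveBy : Option Bool → ℤ
  | some true => 1
  | some false => -1
  | none => 0

/-- A configuration: state, tape contents, head position. -/
abbrev Config := ℕ × (ℤ → ℕ) × ℤ

/-- One step of the machine. -/
def step (M : Machine) (c : Config) : Config :=
  let act := M.action c.1 (c.2.1 c.2.2)
  (act.1, Function.update c.2.1 c.2.2 act.2.1, c.2.2 + moveBy act.2.2)

/-- The start configuration on input `w`: `w` on an otherwise blank two-sided tape, the head at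
the first cell of `w`. -/
def init (M : Machine) (w : List ℕ) : Config :=
  (M.start, fun i => if 0 ≤ i then w.getD i.toNat 0 else 0, 0)

/-- `M` halts on `w`: it reaches a halting state after finitely many steps, possibly none. -/
def Halts (M : Machine) (w : List ℕ) : Prop :=
  ∃ n : ℕ, ((step M)^[n] (init M w)).1 ∈ M.halting

/-- `w` is a word over the alphabet of `M`. -/
def IsInput (M : Machine) (w : List ℕ) : Prop :=
  ∀ a ∈ w, a < M.numSymbols

end Machine

/-- The statement for viscosity `ν`: there are a point `a`, an open set `O` of the torus, a time `T₀`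
and a force compiler `compile`, with `force M w` the force whose program is `compile (M, w)`, such
that for every machine `M` and input `w`: `force M w` is smooth and effective; on `t ≥ T₀` it is
periodic in time and depends on `M` only; the system has a global smooth solution `(u, p)`, unique
among classical solutions on each `[0,T]`, and the unique path `X` of `u` from `a` lies in `O` at
some time `t ≥ 0` if and only if `M` halts on `w`. -/
def HaltingDetection (ν : ℝ) : Prop :=
  ∃ (a : R3) (O : Set R3) (T₀ : ℝ) (compile : Machine × List ℕ → Nat.Partrec.Code)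
    (force : Machine → List ℕ → ℝ → R3 → R3),
    IsOpen O ∧ IsPeriodicSet O ∧ 0 ≤ T₀ ∧ Computable compile ∧
    ∀ M : Machine, M.Valid →
      -- on `t ≥ T₀` the force is periodic in time and depends on `M` only
      (∃ P > 0, ∀ w, M.IsInput w → ∀ t ≥ T₀, ∀ x, force M w (t + P) x = force M w t x) ∧
      (∀ w w', M.IsInput w → M.IsInput w' → ∀ t ≥ T₀, ∀ x, force M w t x = force M w' t x) ∧
      ∀ w, M.IsInput w →
        IsSmoothForce (force M w) ∧ Computes (compile (M, w)) (force M w) ∧
        ∃ (u : ℝ → R3 → R3) (p : ℝ → R3 → ℝ) (X : ℝ → R3),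
          IsGlobalSmoothSolution ν (force M w) u p ∧
          (∀ T > 0, ∀ (v : ℝ → R3 → R3) (q : ℝ → R3 → ℝ),
            IsClassicalSolution ν T (force M w) v q →
              ∀ t ∈ Icc 0 T, ∀ x, v t x = u t x ∧ q t x = p t x) ∧
          IsTrajectory u a X ∧
          (∀ Y : ℝ → R3, IsTrajectory u a Y → ∀ t ≥ 0, Y t = X t) ∧
          ((∃ t ≥ 0, X t ∈ O) ↔ M.Halts w)

end Vale.Agent.Lib.P113
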