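import Vale.Agent.Lib.P113.Data

/-!
The tables of the compilation from a machine and an input are primitive recursive.
-/

namespace Vale.Agent.Lib.P113

open Machine

section PR

variable {α β γ : Type*} [Primcodable α] [Primcodable β] [Primcodable γ]

theorem pr_add {f g : α → ℕ} (hf : Primrec f) (hg : Primrec g) : Primrec fun a => f a + g a :=
  Primrec.nat_add.comp hf hg

theorem pr_sub {f g : α → ℕ} (hf : Primrec f) (hg : Primrec g) : Primrec fun a => f a - g a :=
  Primrec.nat_sub.comp hf hg

theorem pr_mul {f g : α → ℕ} (hf : Primrec f) (hg : Primrec g) : Primrec fun a => f a * g a :=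
  Primrec.nat_mul.comp hf hg

theorem pr_div {f g : α → ℕ} (hf : Primrec f) (hg : Primrec g) : Primrec fun a => f a / g a :=
  Primrec.nat_div.comp hf hg

theorem pr_mod {f g : α → ℕ} (hf : Primrec f) (hg : Primrec g) : Primrec fun a => f a % g a :=
  Primrec.nat_mod.comp hf hg

theorem pr_pow {f g : α → ℕ} (hf : Primrec f) (hg : Primrec g) : Primrec fun a => f a ^ g a :=
  (Primrec₂.unpaired'.1 Nat.Primrec.pow).comp hf hg

theorem pr_fst {f : α → β × γ} (hf : Primrec f) : Primrec fun a => (f a).1 :=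
  Primrec.fst.comp hf

theorem pr_snd {f : α → β × γ} (hf : Primrec f) : Primrec fun a => (f a).2 :=
  Primrec.snd.comp hf

theorem pr_pair {f : α → β} {g : α → γ} (hf : Primrec f) (hg : Primrec g) :
    Primrec fun a => (f a, g a) := Primrec.pair hf hg

theorem pr_eq {f g : α → β} (hf : Primrec f) (hg : Primrec g) : PrimrecPred fun a => f a = g a :=
  Primrec.eq.comp hf hg

theorem pr_le {f g : α → ℕ} (hf : Primrec f) (hg : Primrec g) : PrimrecPred fun a => f a ≤ g a :=
  Primrec.nat_le.comp hf hg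

theorem pr_lt {f g : α → ℕ} (hf : Primrec f) (hg : Primrec g) : PrimrecPred fun a => f a < g a :=
  Primrec.nat_lt.comp hf hg

theorem pr_ite {c : α → Prop} [DecidablePred c] {f g : α → β} (hc : PrimrecPred c) (hf : Primrec f)
    (hg : Primrec g) : Primrec fun a => if c a then f a else g a := Primrec.ite hc hf hg

theorem pr_or {p q : α → Prop} (hp : PrimrecPred p) (hq : PrimrecPred q) :
    PrimrecPred fun a => p a ∨ q a := hp.or hq

theorem pr_and {p q : α → Prop} (hp : PrimrecPred p) (hq : PrimrecPred q) :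
    PrimrecPred fun a => p a ∧ q a := hp.and hq

theorem pr_id : Primrec fun a : α => a := Primrec.id

theorem pr_const (x : β) : Primrec fun _ : α => x := Primrec.const x

theorem pr_mem {l : α → List ℕ} {x : α → ℕ} (hl : Primrec l) (hx : Primrec x) :
    PrimrecPred fun a => x a ∈ l a := by
  have h : PrimrecRel fun (L : List ℕ) (b : ℕ) => ∃ a ∈ L, a = b :=
    PrimrecRel.exists_mem_list Primrec.eq
  refine (h.comp hl hx).of_eq (fun a => ?_)
  simp

end PR

section Machine

variable {α : Type*} [Primcodable α]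

theorem pr_numStates {f : α → Machine} (hf : Primrec f) : Primrec fun a => (f a).numStates := by
  unfold Machine.numStates
  apply_rules [pr_fst, pr_snd]

theorem pr_numSymbols {f : α → Machine} (hf : Primrec f) : Primrec fun a => (f a).numSymbols := by
  unfold Machine.numSymbols
  apply_rules [pr_fst, pr_snd]

theorem pr_start {f : α → Machine} (hf : Primrec f) : Primrec fun a => (f a).start := by
  unfold Machine.start
  apply_rules [pr_fst, pr_snd]

theorem pr_halting {f : α → Machine} (hf : Primrec f) : Primrec fun a => (f a).halting := by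
  unfold Machine.halting
  apply_rules [pr_fst, pr_snd]

theorem pr_rules {f : α → Machine} (hf : Primrec f) : Primrec fun a => (f a).rules := by
  unfold Machine.rules
  apply_rules [pr_fst, pr_snd]

theorem pr_nA {f : α → Machine} (hf : Primrec f) : Primrec fun a => nA (f a) := by
  unfold nA
  exact pr_numSymbols hf

theorem pr_nQ {f : α → Machine} (hf : Primrec f) : Primrec fun a => nQ (f a) := by
  unfold nQ
  exact pr_numStates hf

theorem pr_nK {f : α → Machine} (hf : Primrec f) : Primrec fun a => nK (f a) := by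
  unfold nK
  apply_rules [pr_add, pr_mul, pr_nA, pr_nQ, pr_const]

theorem pr_nS {f : α → Machine} (hf : Primrec f) : Primrec fun a => nS (f a) := by
  unfold nS
  apply_rules [pr_nK, pr_nQ, pr_add, pr_mul, pr_const]

theorem pr_nD {f : α → Machine} (hf : Primrec f) : Primrec fun a => nD (f a) := by
  unfold nD
  apply_rules [pr_nK, pr_nS, pr_mul]

theorem pr_nB {f : α → Machine} (hf : Primrec f) : Primrec fun a => nB (f a) := by
  unfold nB
  apply_rules [pr_nD, pr_add, pr_mul, pr_const]

theorem pr_nR {f : α → Machine} (hf : Primrec f) : Primrec fun a => nR (f a) := by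
  unfold nR
  apply_rules [pr_nB, pr_mul, pr_pow, pr_const]

theorem pr_cPlain {x : α → ℕ} (hx : Primrec x) : Primrec fun a => cPlain (x a) := by
  unfold cPlain
  apply_rules [pr_add, pr_const]

theorem pr_cHead {f : α → Machine} {q x : α → ℕ} (hf : Primrec f) (hq : Primrec q)
    (hx : Primrec x) : Primrec fun a => cHead (f a) (q a) (x a) := by
  unfold cHead
  apply_rules [pr_nA, pr_add, pr_mul, pr_const]

theorem pr_stC {f : α → Machine} {b p : α → ℕ} (hf : Primrec f) (hb : Primrec b) (hp : Primrec p) :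
    Primrec fun a => stC (f a) (b a) (p a) := by
  unfold stC
  apply_rules [pr_nQ, pr_add, pr_mul, pr_const]

theorem pr_stB {f : α → Machine} {s : α → ℕ} (hf : Primrec f) (hs : Primrec s) :
    Primrec fun a => stB (f a) (s a) := by
  unfold stB
  apply_rules [pr_nQ, pr_add, pr_sub, pr_div, pr_const]

theorem pr_stP {f : α → Machine} {s : α → ℕ} (hf : Primrec f) (hs : Primrec s) :
    Primrec fun a => stP (f a) (s a) := by
  unfold stP
  apply_rules [pr_nQ, pr_add, pr_sub, pr_mod, pr_const]

/-- The action, computed by a fold. -/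
theorem action_eq_foldr (M : Machine) (q a : ℕ) :
    M.action q a = M.rules.foldr (fun r acc => if r.1 = q ∧ r.2.1 = a then r.2.2 else acc)
      (q, a, none) := by
  unfold Machine.action
  induction M.rules with
  | nil => simp
  | cons r L ih =>
    by_cases h : r.1 = q ∧ r.2.1 = a
    · simp [h]
    · simp only [List.foldr_cons, h, if_false, ← ih]
      simp [h]

theorem pr_action {f : α → Machine} {q x : α → ℕ} (hf : Primrec f) (hq : Primrec q)
    (hx : Primrec x) : Primrec fun a => (f a).action (q a) (x a) := by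
  have h : Primrec fun a => (f a).rules.foldr
      (fun r acc => (fun (a : α) (p : (ℕ × ℕ × ℕ × ℕ × Option Bool) × (ℕ × ℕ × Option Bool)) =>
        if p.1.1 = q a ∧ p.1.2.1 = x a then p.1.2.2 else p.2) a (r, acc))
      (q a, x a, none) := by
    refine Primrec.list_foldr (σ := ℕ × ℕ × Option Bool) (g := fun a => (q a, x a, none))
      (h := fun a p => if p.1.1 = q a ∧ p.1.2.1 = x a then p.1.2.2 else p.2) (pr_rules hf) ?_ ?_
    · apply_rules [pr_pair, pr_const]
    · have hq' : Primrec fun p : α × (ℕ × ℕ × ℕ × ℕ × Option Bool) × (ℕ × ℕ × Option Bool) =>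
        q p.1 := hq.comp Primrec.fst
      have hx' : Primrec fun p : α × (ℕ × ℕ × ℕ × ℕ × Option Bool) × (ℕ × ℕ × Option Bool) =>
        x p.1 := hx.comp Primrec.fst
      change Primrec fun p : α × (ℕ × ℕ × ℕ × ℕ × Option Bool) × (ℕ × ℕ × Option Bool) =>
        if p.2.1.1 = q p.1 ∧ p.2.1.2.1 = x p.1 then p.2.1.2.2 else p.2.2
      apply_rules [pr_ite, pr_and, pr_eq, pr_fst, pr_snd, pr_id]
  refine h.of_eq (fun a => ?_)
  rw [action_eq_foldr]

theorem pr_qmNext {f : α → Machine} {s a1 a2 : α → ℕ} (hf : Primrec f) (hs : Primrec s)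
    (h1 : Primrec a1) (h2 : Primrec a2) : Primrec fun a => qmNext (f a) (s a) (a1 a) (a2 a) := by
  unfold qmNext
  dsimp only
  have hB := pr_stB hf hs
  have hP := pr_stP hf hs
  have hA := pr_nA hf
  have h0 : ∀ {c : α → ℕ}, Primrec c → PrimrecPred fun a => c a = 0 :=
    fun hc => pr_eq hc (pr_const 0)
  have hq : Primrec fun a => (a1 a - 1 - nA (f a)) / nA (f a) :=
    pr_div (pr_sub (pr_sub h1 (pr_const 1)) hA) hA
  have hx : Primrec fun a => (a1 a - 1 - nA (f a)) % nA (f a) :=
    pr_mod (pr_sub (pr_sub h1 (pr_const 1)) hA) hA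
  have hact := pr_action hf hq hx
  have u1 := pr_fst hact
  have u2 := pr_fst (pr_snd hact)
  have u3 := pr_snd (pr_snd hact)
  have z : Primrec fun _ : α => (0 : ℕ) := pr_const 0
  have z2 : Primrec fun _ : α => ((0 : ℕ), (0 : ℕ)) := pr_const _
  have e1 : Primrec fun a => stC (f a) 0 0 := pr_stC hf z z
  have c1 := pr_stC hf h1 z
  have c2 := pr_stC hf (pr_cHead hf (pr_sub hP (pr_const 1)) (pr_sub h1 (pr_const 1))) z
  have c3 := pr_stC hf (pr_cHead hf u1 u2) z
  have c4 := pr_cPlain u2
  have c5 := pr_cHead hf u1 z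
  have c6 := pr_stC hf c4 (pr_add u1 (pr_const 1))
  have c7 := pr_stC hf h2 z
  have c8 := pr_stC hf c4 z
  have c9 := pr_cHead hf u1 (pr_sub hB (pr_const 1))
  have one : Primrec fun _ : α => (1 : ℕ) := pr_const 1
  refine pr_ite (h0 hs) (pr_const _) (pr_ite (h0 h1) (pr_pair e1 (pr_pair z (pr_pair hB z2)))
    (pr_ite (pr_le h1 hA)
      (pr_pair (pr_ite (h0 hP) c1 c2) (pr_pair z (pr_pair hB z2)))
      (pr_ite (pr_mem (pr_halting hf) hq) (pr_const _)
        (pr_ite (pr_eq u3 (pr_const _)) (pr_pair c3 (pr_pair z (pr_pair hB z2)))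
          (pr_ite (pr_eq u3 (pr_const _))
            (pr_ite (h0 h2)
              (pr_pair e1 (pr_pair one (pr_pair hB (pr_pair c4 c5))))
              (pr_pair c6 (pr_pair z (pr_pair hB z2))))
            (pr_ite (h0 hB)
              (pr_pair c7 (pr_pair one (pr_pair z (pr_pair c5 c4))))
              (pr_pair c8 (pr_pair z (pr_pair (pr_ite (pr_le hB hA) c9 hB) z2)))))))))

/-! ### The tables -/

theorem pr_triH {f : α → Machine} {n : α → ℕ} (hf : Primrec f) (hn : Primrec n) :
    Primrec fun a => triH (f a) (n a) := by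
  unfold triH
  exact pr_div hn (pr_mul (pr_nK hf) (pr_nK hf))

theorem pr_triA {f : α → Machine} {n : α → ℕ} (hf : Primrec f) (hn : Primrec n) :
    Primrec fun a => triA (f a) (n a) := by
  unfold triA
  exact pr_mod (pr_div hn (pr_nK hf)) (pr_nK hf)

theorem pr_triA' {f : α → Machine} {n : α → ℕ} (hf : Primrec f) (hn : Primrec n) :
    Primrec fun a => triA' (f a) (n a) := by
  unfold triA'
  exact pr_mod hn (pr_nK hf)

theorem pr_triRule {f : α → Machine} {n : α → ℕ} (hf : Primrec f) (hn : Primrec n) :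
    Primrec fun a => triRule (f a) (n a) := by
  unfold triRule
  exact pr_qmNext hf (pr_div (pr_triH hf hn) (pr_mul (pr_nK hf) (pr_nK hf))) (pr_triA hf hn)
    (pr_triA' hf hn)

theorem pr_triH' {f : α → Machine} {n : α → ℕ} (hf : Primrec f) (hn : Primrec n) :
    Primrec fun a => triH' (f a) (n a) := by
  unfold triH'
  have hK := pr_nK hf
  exact pr_add (pr_add (pr_mul (pr_mul (pr_fst (pr_triRule hf hn)) hK) hK)
    (pr_mul (pr_triA hf hn) hK)) (pr_triA' hf hn)

theorem pr_triNx {f : α → Machine} {n : α → ℕ} (hf : Primrec f) (hn : Primrec n) :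
    Primrec fun a => triNx (f a) (n a) := by
  unfold triNx
  exact pr_add (pr_mul (pr_triH' hf hn) (pr_nB hf)) (pr_triH hf hn)

theorem pr_triN0 {f : α → Machine} {n : α → ℕ} (hf : Primrec f) (hn : Primrec n) :
    Primrec fun a => triN0 (f a) (n a) := by
  unfold triN0
  exact pr_add (pr_mul (pr_add (pr_mul (pr_nK hf) (pr_triH hf hn)) (pr_triA hf hn)) (pr_nB hf))
    (pr_triA' hf hn)

theorem pr_triG {f : α → Machine} {n : α → ℕ} (hf : Primrec f) (hn : Primrec n) :
    Primrec fun a => triG (f a) (n a) := by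
  unfold triG
  exact pr_fst (pr_snd (pr_triRule hf hn))

theorem pr_triBeta {f : α → Machine} {n : α → ℕ} (hf : Primrec f) (hn : Primrec n) :
    Primrec fun a => triBeta (f a) (n a) := by
  unfold triBeta
  have hr := pr_triRule hf hn
  have d1 := pr_fst (pr_snd (pr_snd hr))
  have d2 := pr_fst (pr_snd (pr_snd (pr_snd hr)))
  have d3 := pr_snd (pr_snd (pr_snd (pr_snd hr)))
  have hB := pr_nB hf
  exact pr_ite (pr_eq (pr_triG hf hn) (pr_const 1))
    (pr_add (pr_add (pr_mul d1 (pr_pow hB (pr_const 2))) (pr_mul d2 hB)) d3) d1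

theorem pr_ratF {a b d : α → ℕ} (ha : Primrec a) (hb : Primrec b) (hd : Primrec d) :
    Primrec fun x => ratF (a x) (b x) (d x) := by
  unfold ratF
  exact pr_pair ha (pr_pair hb (pr_sub hd (pr_const 1)))

theorem pr_stageCode {f : α → Machine} {j : α → ℕ} (hf : Primrec f) (hj : Primrec j) :
    Primrec fun a => stageCode (f a) (j a) := by
  unfold stageCode
  have hB := pr_nB hf
  have hK := pr_nK hf
  have hD := pr_nD hf
  have hR := pr_nR hf
  have e : ∀ c : ℕ, PrimrecPred fun a => j a = c := fun c => pr_eq hj (pr_const c)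
  have r1 : Primrec fun a => ratF 1 0 (8 * nB (f a) ^ 2) :=
    pr_ratF (pr_const 1) (pr_const 0) (pr_mul (pr_const 8) (pr_pow hB (pr_const 2)))
  have n1 : Primrec fun a => nD (f a) * nK (f a) * nK (f a) := pr_mul (pr_mul hD hK) hK
  refine pr_ite (pr_or (e 0) (e 2)) (pr_const _) (pr_ite (pr_or (e 1) (e 3)) (pr_const _)
    (pr_ite (e 4) (pr_pair (pr_const 0) (pr_pair (pr_const 2) (pr_pair (pr_const 1) (pr_pair r1 hD))))
      (pr_ite (e 5) (pr_pair (pr_const 2) (pr_pair (pr_const 0) (pr_pair (pr_const 1) (pr_pair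
        (pr_ratF (pr_const 1) (pr_const 0) (pr_mul hR hB)) n1))))
        (pr_ite (pr_or (e 8) (e 10))
          (pr_pair (pr_const 1) (pr_pair (pr_const 2) (pr_pair (pr_const 0) (pr_pair r1 n1))))
          (pr_pair (pr_const 0) (pr_pair (pr_const 2) (pr_pair (pr_const 1) (pr_pair r1 n1))))))))

theorem pr_stageEntry {f : α → Machine} {j n : α → ℕ} (hf : Primrec f) (hj : Primrec j)
    (hn : Primrec n) : Primrec fun a => stageEntry (f a) (j a) (n a) := by
  unfold stageEntry
  have hB := pr_nB hf
  have hK := pr_nK hf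
  have hR := pr_nR hf
  have e : ∀ c : ℕ, PrimrecPred fun a => j a = c := fun c => pr_eq hj (pr_const c)
  have zr : Primrec fun a : α => ((0 : ℕ)) := pr_const 0
  have one : Primrec fun a : α => ((1 : ℕ)) := pr_const 1
  have hBm : Primrec fun a => nB (f a) - 1 := pr_sub hB one
  have hNx := pr_ratF (pr_triNx hf hn) zr one
  have hG := pr_triG hf hn
  have hH := pr_triH hf hn
  have hA := pr_triA hf hn
  have hA' := pr_triA' hf hn
  have h00 : Primrec fun a : α => ratF 0 0 1 := pr_const _
  refine pr_ite (e 0) (pr_pair (pr_const _) (pr_pair (pr_const _) (pr_ratF zr one hB)))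
    (pr_ite (e 1) (pr_pair (pr_const _) (pr_pair (pr_const _) (pr_ratF hBm zr one)))
    (pr_ite (e 2) (pr_const _)
    (pr_ite (e 3) (pr_pair (pr_const _) (pr_pair (pr_const _) (pr_ratF zr hBm hB)))
    (pr_ite (e 4) (pr_pair (pr_ratF hn zr one) (pr_pair (pr_ratF (pr_mul hK hn) zr hR) h00))
    (pr_ite (e 5) (pr_pair (pr_ratF (pr_triN0 hf hn) zr one) (pr_pair
      (pr_ratF (pr_triH' hf hn) zr (pr_mul (pr_const 8) hB)) h00))
    (pr_ite (e 6) (pr_pair hNx (pr_pair
      (pr_ratF zr (pr_add (pr_mul hK hH) hA) hR) h00))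
    (pr_ite (e 7) (pr_pair hNx (pr_pair (pr_const _) (pr_ratF zr hG hB)))
    (pr_ite (e 8) (pr_pair hNx (pr_pair (pr_const _) (pr_ratF (pr_mul hG hBm) zr one)))
    (pr_ite (e 9) (pr_pair hNx (pr_pair (pr_const _) (pr_ratF hG zr one)))
    (pr_ite (e 10) (pr_pair hNx (pr_pair (pr_const _) (pr_ratF zr (pr_mul hG hBm) hB)))
    (pr_ite (e 11) (pr_pair hNx (pr_pair (pr_ratF zr (pr_mul hG hA') hR)
      (pr_ratF (pr_triBeta hf hn) zr one)))
    (pr_pair hNx (pr_pair (pr_ratF (pr_ite (pr_eq (pr_fst (pr_triRule hf hn)) zr)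
      (pr_const 3) zr) zr (pr_const 8)) h00)))))))))))))

theorem pr_numN {B : α → ℕ} {L : α → List ℕ} (hB : Primrec B) (hL : Primrec L) :
    Primrec fun a => numN (B a) (L a) := by
  unfold numN
  refine Primrec.list_foldl (σ := ℕ) (h := fun a p => p.1 * B a + p.2) hL (pr_const 0) ?_
  change Primrec fun p : α × ℕ × ℕ => p.2.1 * B p.1 + p.2.2
  exact pr_add (pr_mul (pr_fst (pr_snd pr_id)) (hB.comp Primrec.fst)) (pr_snd (pr_snd pr_id))

theorem pr_q0 {f : α → Machine} {w : α → List ℕ} (hf : Primrec f) (hw : Primrec w) :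
    Primrec fun a => q0 (f a) (w a) := by
  unfold q0
  have h1 : Primrec fun a => (w a).headD 0 :=
    (Primrec.option_getD.comp (Primrec.list_head?.comp hw) (pr_const 0)).of_eq
      (fun a => by cases w a <;> rfl)
  have h2 : Primrec fun a => (w a).tail ++ [0] :=
    Primrec.list_append.comp (Primrec.list_tail.comp hw) (pr_const _)
  refine Primrec.list_cons.comp (pr_cHead hf (pr_start hf) h1) ?_
  refine Primrec.list_map h2 ?_
  change Primrec fun p : α × ℕ => cPlain p.2
  exact pr_cPlain Primrec.snd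

theorem pr_h0 {f : α → Machine} (hf : Primrec f) : Primrec fun a => h0 (f a) := by
  unfold h0
  exact pr_mul (pr_mul (pr_stC hf (pr_const 0) (pr_const 0)) (pr_nK hf)) (pr_nK hf)

theorem pr_initVal {f : α → Machine} {w : α → List ℕ} {k : α → ℕ} (hf : Primrec f)
    (hw : Primrec w) (hk : Primrec k) : Primrec fun a => initVal (f a) (w a) (k a) := by
  unfold initVal
  have hq := pr_q0 hf hw
  have hB := pr_nB hf
  have hd := pr_mul (pr_nR hf) (pr_pow hB (Primrec.list_length.comp hq))
  refine pr_ite (pr_eq hk (pr_const 0)) (pr_ratF (pr_numN hB hq) (pr_const 0) hd)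
    (pr_ite (pr_eq hk (pr_const 1)) (pr_ratF (pr_const 1) (pr_const 0) hd)
      (pr_ratF (pr_h0 hf) (pr_const 0) (pr_mul (pr_const 8) hB)))

theorem pr_initCode {k : α → ℕ} (hk : Primrec k) : Primrec fun a => initCode (k a) := by
  unfold initCode
  exact pr_ite (pr_eq hk (pr_const 0)) (pr_const _)
    (pr_ite (pr_eq hk (pr_const 1)) (pr_const _) (pr_const _))

/-- The data of the slots are primitive recursive. -/
theorem pr_slotCode {f : α → Machine} {k : α → ℕ} (hf : Primrec f) (hk : Primrec k) :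
    Primrec fun a => slotCode (f a) (k a) := by
  unfold slotCode
  exact pr_ite (pr_lt hk (pr_const 3)) (pr_initCode hk)
    (pr_stageCode hf (pr_mod (pr_sub hk (pr_const 3)) (pr_const 13)))

/-- The entries of the slots are primitive recursive. -/
theorem pr_slotEntry {f : α → Machine} {w : α → List ℕ} {k n : α → ℕ} (hf : Primrec f)
    (hw : Primrec w) (hk : Primrec k) (hn : Primrec n) :
    Primrec fun a => slotEntry (f a) (w a) (k a) (n a) := by
  unfold slotEntry
  exact pr_ite (pr_lt hk (pr_const 3))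
    (pr_pair (pr_const _) (pr_pair (pr_initVal hf hw hk) (pr_const _)))
    (pr_stageEntry hf (pr_mod (pr_sub hk (pr_const 3)) (pr_const 13)) hn)

theorem primrec_slotCode : Primrec (fun x : Machine × ℕ => slotCode x.1 x.2) :=
  pr_slotCode Primrec.fst Primrec.snd

theorem primrec_slotEntry :
    Primrec (fun x : (Machine × List ℕ) × ℕ × ℕ => slotEntry x.1.1 x.1.2 x.2.1 x.2.2) :=
  pr_slotEntry (pr_fst (pr_fst pr_id)) (pr_snd (pr_fst pr_id)) (pr_fst (pr_snd pr_id))
    (pr_snd (pr_snd pr_id))

end Machine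

end Vale.Agent.Lib.P113
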