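import Vale.Agent.Lib.P113.Run

/-!
The particle path simulates the queue machine.
-/

namespace Vale.Agent.Lib.P113

open Machine

section

variable {M : Machine} {w : List ℕ}

theorem psiValid_of {N w : ℝ} (hN0 : 0 ≤ N) (hw : 0 < w) (hw1 : w ≤ 1)
    (hN : w * (N + 1) ≤ 3 / 8) : PsiValid N w := by
  have _ := hw1
  refine ⟨hw, ?_, ?_⟩
  · nlinarith [mul_nonneg hw.le hN0]
  · nlinarith

theorem zone_width (hM : M.Valid) {N : ℕ} (hN : N + 1 ≤ nD M * nB M) :
    PsiValid (N : ℝ) (1 / (8 * (nB M : ℝ) ^ 2)) := by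
  obtain ⟨hB128, hB00, _, _, hD, hD0, _, _⟩ := real_bounds hM
  have hN' : (N : ℝ) + 1 ≤ nD M * nB M := by exact_mod_cast hN
  apply psiValid_of (Nat.cast_nonneg _)
  · positivity
  · rw [div_le_one (by positivity)]
    nlinarith
  · rw [div_mul_eq_mul_div, one_mul, div_le_iff₀ (by positivity)]
    nlinarith

theorem zone_valid_Nx (hM : M.Valid) {n : ℕ} (hn : n < nD M * nK M * nK M) :
    PsiValid (ratF (triNx M n) 0 1).val (ratF 1 0 (8 * nB M ^ 2)).val := by
  rw [hN_zone, hw_zone]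
  have := zone_width hM (triNx_lt hM hn)
  have e : (((1 : ℕ) : ℝ) - ((0 : ℕ) : ℝ)) / (((8 * nB M ^ 2 : ℕ)) : ℝ)
      = 1 / (8 * (nB M : ℝ) ^ 2) := by
    push_cast; norm_num
  rw [e]
  exact this

theorem zone_valid_4 (hM : M.Valid) {n : ℕ} (hn : n < nD M) :
    PsiValid (ratF n 0 1).val (ratF 1 0 (8 * nB M ^ 2)).val := by
  rw [hw_zone]
  have hn1 : n + 1 ≤ nD M * nB M := by
    have : nD M * 1 ≤ nD M * nB M := Nat.mul_le_mul le_rfl (nB_one_le hM)
    omega
  have := zone_width hM hn1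
  have e : (((1 : ℕ) : ℝ) - ((0 : ℕ) : ℝ)) / (((8 * nB M ^ 2 : ℕ)) : ℝ)
      = 1 / (8 * (nB M : ℝ) ^ 2) := by
    push_cast; norm_num
  have e2 : (ratF n 0 1).val = (n : ℝ) := by
    rw [val_ratF _ _ (by norm_num)]; norm_num
  rw [e, e2]
  exact this

theorem valid_N0_real {B R K D N : ℝ} (hB : 128 ≤ B) (hR : R = 64 * B ^ 3) (hD : 2 * D + 2 = B)
    (hKD : K ≤ D) (hN0 : 0 ≤ N) (hN1 : N + 1 ≤ K * D * B) : PsiValid N (1 / (R * B)) := by
  subst hR
  have hB0 : 0 < B := by linarith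
  have h1 : 1 ≤ B ^ 3 := one_le_pow₀ (by linarith)
  apply psiValid_of hN0 (by positivity)
  · rw [div_le_one (by positivity)]
    nlinarith
  · rw [div_mul_eq_mul_div, one_mul, div_le_iff₀ (by positivity)]
    have h2 : K * D ≤ B * B := by nlinarith
    have h3 : K * D * B ≤ B * B * B := mul_le_mul_of_nonneg_right h2 hB0.le
    have h4 : B * B * B = B ^ 3 := by ring
    have h5 : B ^ 3 ≤ 3 / 8 * (64 * B ^ 3 * B) := by nlinarith
    linarith

theorem zone_valid_5 (hM : M.Valid) {n : ℕ} (hn : n < nD M * nK M * nK M) :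
    PsiValid (ratF (triN0 M n) 0 1).val (ratF 1 0 (nR M * nB M)).val := by
  obtain ⟨hB128, hB00, hRv, hR00, hD, hD0, hKD, hK0⟩ := real_bounds hM
  have hRB : 0 < nR M * nB M := Nat.mul_pos (nR_pos hM) nB_pos
  have e1 : (ratF (triN0 M n) 0 1).val = (triN0 M n : ℝ) := by
    rw [val_ratF _ _ (by norm_num)]; norm_num
  have e2 : (ratF 1 0 (nR M * nB M)).val = 1 / ((nR M : ℝ) * nB M) := by
    rw [val_ratF _ _ hRB]; push_cast; norm_num
  rw [e1, e2]
  have hN1 : ((triN0 M n : ℕ) : ℝ) + 1 ≤ nK M * nD M * nB M := by exact_mod_cast triN0_lt hM hn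
  exact valid_N0_real hB128 hRv hD hKD (Nat.cast_nonneg _) hN1

theorem chi_valid' : PsiValid (ratF 0 1 4).val (ratF 1 0 1).val := by
  rw [val_neg_quarter, val_one]
  exact chi_valid

theorem stageS_valid (hM : M.Valid) {j : ℕ} (hj : j < 13) : (stageS M j).Valid := by
  interval_cases j
  · exact ⟨by change (0 : Fin 3) ≠ 1; decide, by change (0 : Fin 3) ≠ 2; decide,
      by change (1 : Fin 3) ≠ 2; decide, fun _ _ => chi_valid'⟩
  · exact ⟨by change (2 : Fin 3) ≠ 1; decide, by change (2 : Fin 3) ≠ 0; decide,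
      by change (1 : Fin 3) ≠ 0; decide, fun _ _ => chi_valid'⟩
  · exact ⟨by change (0 : Fin 3) ≠ 1; decide, by change (0 : Fin 3) ≠ 2; decide,
      by change (1 : Fin 3) ≠ 2; decide, fun _ _ => chi_valid'⟩
  · exact ⟨by change (2 : Fin 3) ≠ 1; decide, by change (2 : Fin 3) ≠ 0; decide,
      by change (1 : Fin 3) ≠ 0; decide, fun _ _ => chi_valid'⟩
  · exact ⟨by change (0 : Fin 3) ≠ 2; decide, by change (0 : Fin 3) ≠ 1; decide,
      by change (2 : Fin 3) ≠ 1; decide, fun _ hn => zone_valid_4 hM hn⟩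
  · exact ⟨by change (2 : Fin 3) ≠ 0; decide, by change (2 : Fin 3) ≠ 1; decide,
      by change (0 : Fin 3) ≠ 1; decide, fun _ hn => zone_valid_5 hM hn⟩
  · exact ⟨by change (0 : Fin 3) ≠ 2; decide, by change (0 : Fin 3) ≠ 1; decide,
      by change (2 : Fin 3) ≠ 1; decide, fun _ hn => zone_valid_Nx hM hn⟩
  · exact ⟨by change (0 : Fin 3) ≠ 2; decide, by change (0 : Fin 3) ≠ 1; decide,
      by change (2 : Fin 3) ≠ 1; decide, fun _ hn => zone_valid_Nx hM hn⟩
  · exact ⟨by change (1 : Fin 3) ≠ 2; decide, by change (1 : Fin 3) ≠ 0; decide,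
      by change (2 : Fin 3) ≠ 0; decide, fun _ hn => zone_valid_Nx hM hn⟩
  · exact ⟨by change (0 : Fin 3) ≠ 2; decide, by change (0 : Fin 3) ≠ 1; decide,
      by change (2 : Fin 3) ≠ 1; decide, fun _ hn => zone_valid_Nx hM hn⟩
  · exact ⟨by change (1 : Fin 3) ≠ 2; decide, by change (1 : Fin 3) ≠ 0; decide,
      by change (2 : Fin 3) ≠ 0; decide, fun _ hn => zone_valid_Nx hM hn⟩
  · exact ⟨by change (0 : Fin 3) ≠ 2; decide, by change (0 : Fin 3) ≠ 1; decide,
      by change (2 : Fin 3) ≠ 1; decide, fun _ hn => zone_valid_Nx hM hn⟩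
  · exact ⟨by change (0 : Fin 3) ≠ 2; decide, by change (0 : Fin 3) ≠ 1; decide,
      by change (2 : Fin 3) ≠ 1; decide, fun _ hn => zone_valid_Nx hM hn⟩

/-- All slots are valid. -/
theorem shearOf_valid (hM : M.Valid) (w : List ℕ) (k : ℕ) : (shearOf M w k).Valid := by
  by_cases hk : k < 3
  · interval_cases k
    · exact ⟨by change (0 : Fin 3) ≠ 1; decide, by change (0 : Fin 3) ≠ 2; decide,
        by change (1 : Fin 3) ≠ 2; decide, fun _ _ => chi_valid'⟩
    · exact ⟨by change (1 : Fin 3) ≠ 0; decide, by change (1 : Fin 3) ≠ 2; decide,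
        by change (0 : Fin 3) ≠ 2; decide, fun _ _ => chi_valid'⟩
    · exact ⟨by change (2 : Fin 3) ≠ 0; decide, by change (2 : Fin 3) ≠ 1; decide,
        by change (0 : Fin 3) ≠ 1; decide, fun _ _ => chi_valid'⟩
  · rw [shearOf_stage M w (by omega)]
    exact stageS_valid hM (Nat.mod_lt _ (by norm_num))

theorem shearOf_period (M : Machine) (w : List ℕ) (n j : ℕ) (hj : j < 13) :
    shearOf M w (3 + 13 * n + j) = stageS M j := by
  rw [shearOf_stage M w (by omega)]
  congr 1
  have e : 3 + 13 * n + j - 3 = j + 13 * n := by omega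
  rw [e, Nat.add_mul_mod_self_left, Nat.mod_eq_of_lt hj]

theorem rotStart_init (M : Machine) (w : List ℕ) :
    rotStart M (lInit M w) = (stC M 0 0, q0 M w) := by
  simp [rotStart, lInit, cells, q0]

theorem q0_digits (hM : M.Valid) (hw : M.IsInput w) : (∀ a ∈ q0 M w, a < nK M) ∧ 2 ≤ (q0 M w).length := by
  have h := rotStart_inv hM (lInit_valid hM hw)
  rw [rotStart_init] at h
  exact h.2

theorem h0_lt (hM : M.Valid) : h0 M < nD M := by
  have hK : 0 < nK M := nK_pos hM
  have hs : stC M 0 0 < nS M := stC_lt hK (Nat.zero_le _)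
  unfold h0 nD
  have : (stC M 0 0 + 1) * nK M ≤ nS M * nK M := Nat.mul_le_mul hs le_rfl
  have h2 : stC M 0 0 * nK M < nS M * nK M := Nat.mul_lt_mul_of_pos_right hs hK
  exact Nat.mul_lt_mul_of_pos_right h2 hK

theorem h0_div (hM : M.Valid) : h0 M / (nK M * nK M) = stC M 0 0 := by
  have hK : 0 < nK M := nK_pos hM
  unfold h0
  rw [Nat.mul_assoc]
  exact Nat.mul_div_cancel _ (Nat.mul_pos hK hK)

/-- The first three slots bring the origin to the start point. -/
theorem orbit_init (hM : M.Valid) (hw : M.IsInput w) :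
    (∀ j ≤ 2, |orbit (shearOf M w) ![0, 0, 0] j 0| ≤ 1 / 4) ∧
      orbit (shearOf M w) ![0, 0, 0] 3 = encV M (q0 M w) [h0 M] := by
  obtain ⟨hB128, hB00, hRv, hR00, hD, hD0, hKD, hK0⟩ := real_bounds hM
  have hB0 : (nB M : ℝ) ≠ 0 := hB00.ne'
  have hR0 : (nR M : ℝ) ≠ 0 := hR00.ne'
  obtain ⟨hq, hlen⟩ := q0_digits hM hw
  have hKD' := nK_le_nD hM
  obtain ⟨hq0, hq1⟩ := num_digits hM (L := q0 M w) (fun d hd => by
    have := hq d hd
    omega)
  have hr : |num (nB M) (q0 M w) / (nR M : ℝ)| ≤ 1 / 4 := num_div_small hB128 hRv hq0 hq1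
  have hz : |(0 : ℝ)| ≤ 1 / 4 := by norm_num
  have hBpow : 0 < nB M ^ (q0 M w).length := pow_pos nB_pos _
  have hRB : 0 < nR M * nB M ^ (q0 M w).length := Nat.mul_pos (nR_pos hM) hBpow
  have hv0 : (initVal M w 0).val = num (nB M) (q0 M w) / nR M := by
    change (ratF (numN (nB M) (q0 M w)) 0 (nR M * nB M ^ (q0 M w).length)).val = _
    rw [val_ratF _ _ hRB, ← numN_val nB_pos]
    push_cast
    field_simp
    simp
  have hv1 : (initVal M w 1).val = 1 / ((nR M : ℝ) * (nB M : ℝ) ^ (q0 M w).length) := by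
    change (ratF 1 0 (nR M * nB M ^ (q0 M w).length)).val = _
    rw [val_ratF _ _ hRB]
    push_cast
    norm_num
  have hv2 : (initVal M w 2).val = num (nB M) [h0 M] / 8 := by
    change (ratF (h0 M) 0 (8 * nB M)).val = _
    rw [val_ratF _ _ (by have : 0 < nB M := nB_pos; omega), num_cons, num_nil]
    push_cast
    field_simp
    simp
  have e1 : orbit (shearOf M w) ![0, 0, 0] 1 = ![num (nB M) (q0 M w) / nR M, 0, 0] := by
    refine orbit_step (x := ![0, 0, 0]) rfl rfl ?_
    rw [step0 (d := shearOf M w 0) rfl]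
    have h := chi_g (shearOf M w 0) val_one rfl (fun _ => val_neg_quarter) ![0, 0, 0] hz hz
    have e1 : (shearOf M w 0).α 0 = num (nB M) (q0 M w) / nR M := hv0
    have e2 : (shearOf M w 0).β 0 = 0 := val_zero
    rw [h, e1, e2]
    simp
  have e2 : orbit (shearOf M w) ![0, 0, 0] 2
      = ![num (nB M) (q0 M w) / nR M, 1 / ((nR M : ℝ) * (nB M : ℝ) ^ (q0 M w).length), 0] := by
    refine orbit_step rfl e1 ?_
    rw [step1 (d := shearOf M w 1) rfl]
    have h := chi_g (shearOf M w 1) val_one rfl (fun _ => val_neg_quarter)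
      ![num (nB M) (q0 M w) / nR M, 0, 0] hr hz
    have e1 : (shearOf M w 1).α 0 = 1 / ((nR M : ℝ) * (nB M : ℝ) ^ (q0 M w).length) := hv1
    have e2 : (shearOf M w 1).β 0 = 0 := val_zero
    rw [h, e1, e2]
    simp
  have hE : |1 / ((nR M : ℝ) * (nB M : ℝ) ^ (q0 M w).length)| ≤ 1 / 4 :=
    (eps_small hB128 hRv _).trans (by norm_num)
  have e3 : orbit (shearOf M w) ![0, 0, 0] 3 = encV M (q0 M w) [h0 M] := by
    refine orbit_step rfl e2 ?_
    rw [step2 (d := shearOf M w 2) rfl]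
    have h := chi_g (shearOf M w 2) val_one rfl (fun _ => val_neg_quarter)
      ![num (nB M) (q0 M w) / nR M, 1 / ((nR M : ℝ) * (nB M : ℝ) ^ (q0 M w).length), 0] hr hE
    have e1 : (shearOf M w 2).α 0 = num (nB M) [h0 M] / 8 := hv2
    have e2 : (shearOf M w 2).β 0 = 0 := val_zero
    rw [h, e1, e2]
    simp [encV]
  refine ⟨?_, e3⟩
  intro j hj
  interval_cases j
  · change |(![0, 0, 0] : R3) 0| ≤ 1 / 4
    simp
  · rw [e1]; exact hr
  · rw [e2]; exact hr

/-- The orbit of the queue machine. -/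
def qmOrbit (M : Machine) (w : List ℕ) (n : ℕ) : ℕ × List ℕ :=
  (qmStep M)^[n] (stC M 0 0, q0 M w)

theorem qmOrbit_succ (M : Machine) (w : List ℕ) (n : ℕ) :
    qmOrbit M w (n + 1) = qmStep M (qmOrbit M w n) := by
  unfold qmOrbit
  rw [Function.iterate_succ_apply']

theorem qmOrbit_inv (hM : M.Valid) (hw : M.IsInput w) (n : ℕ) : QInv M (qmOrbit M w n) := by
  induction n with
  | zero =>
    have h := rotStart_inv hM (lInit_valid hM hw)
    rw [rotStart_init] at h
    exact h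
  | succ n ih =>
    rw [qmOrbit_succ]
    exact qmStep_inv hM ih

theorem triH'_div (hM : M.Valid) {n : ℕ} : triH' M n / (nK M * nK M) = (triRule M n).1 := by
  have hK := nK_pos hM
  have h3 := triA_lt hM n
  have h4 := triA'_lt hM n
  unfold triH'
  have hKK : 0 < nK M * nK M := Nat.mul_pos hK hK
  have e : (triRule M n).1 * nK M * nK M + triA M n * nK M + triA' M n
      = (triA M n * nK M + triA' M n) + (nK M * nK M) * (triRule M n).1 := by ring
  have h5 : triA M n * nK M + triA' M n < nK M * nK M := by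
    have : (triA M n + 1) * nK M ≤ nK M * nK M := Nat.mul_le_mul h3 le_rfl
    have e2 : (triA M n + 1) * nK M = triA M n * nK M + nK M := by ring
    omega
  rw [e, Nat.add_mul_div_left _ _ hKK, Nat.div_eq_of_lt h5]
  simp

/-- One period of the particle path against one step of the queue machine. -/
theorem sim_period (hM : M.Valid) (hw : M.IsInput w) {a0 : R3} {n h : ℕ} {hs : List ℕ}
    (hh : h < nD M) (hhs : ∀ d ∈ hs, d < nD M) (hdiv : h / (nK M * nK M) = (qmOrbit M w n).1)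
    (hO : orbit (shearOf M w) a0 (3 + 13 * n) = encV M (qmOrbit M w n).2 (h :: hs)) :
    (∀ j ≤ 12, |orbit (shearOf M w) a0 (3 + 13 * n + j) 0| ≤ 1 / 4) ∧
    ∃ h', h' < nD M ∧ h' / (nK M * nK M) = (qmOrbit M w (n + 1)).1 ∧
      orbit (shearOf M w) a0 (3 + 13 * (n + 1)) =
      ![num (nB M) (qmOrbit M w (n + 1)).2 / nR M +
          (if (qmOrbit M w (n + 1)).1 = 0 then 3 / 8 else 0),
        1 / ((nR M : ℝ) * (nB M : ℝ) ^ (qmOrbit M w (n + 1)).2.length),
        num (nB M) (h' :: h :: hs) / 8] := by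
  obtain ⟨his, hiq, hil⟩ := qmOrbit_inv hM hw n
  rw [qmOrbit_succ]
  generalize qmOrbit M w n = c at his hiq hil hdiv hO
  obtain ⟨s, q⟩ := c
  simp only at his hiq hil hdiv hO
  match q, hiq, hil, hO with
  | a :: a' :: rest, hiq, hil, hO =>
    have ha : a < nK M := hiq a (by simp)
    have ha' : a' < nK M := hiq a' (by simp)
    have hrest : ∀ d ∈ rest, d < nK M := fun d hd => hiq d (by simp [hd])
    have hnlt := triIndex_lt hM hh ha ha'
    have hrule : triRule M (triIndex M h a a') = qmNext M s a a' := by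
      unfold triRule
      rw [triIndex_H hM ha ha', triIndex_A hM ha ha', triIndex_A' ha', hdiv]
    have hstep : qmStep M (s, a :: a' :: rest)
        = ((triRule M (triIndex M h a a')).1, qNext M (triIndex M h a a') a' rest) := by
      unfold qNext triG
      rw [hrule]
      simp only [qmStep]
      split_ifs <;> rfl
    obtain ⟨h1, h2⟩ := period_run hM (fun j hj => shearOf_period M w n j hj) ha ha' hrest hh hhs rfl hO
    refine ⟨h1, triH' M (triIndex M h a a'), triH'_lt hM hnlt, ?_, ?_⟩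
    · rw [hstep, triH'_div hM]
    · rw [hstep]
      exact h2

theorem encV_period (hM : M.Valid) (hw : M.IsInput w) {a0 : R3}
    (hO : orbit (shearOf M w) a0 3 = encV M (q0 M w) [h0 M]) :
    ∀ n, (∀ m ≤ n, (qmOrbit M w m).1 ≠ 0) →
      ∃ h hs, h < nD M ∧ (∀ d ∈ hs, d < nD M) ∧ h / (nK M * nK M) = (qmOrbit M w n).1 ∧
        orbit (shearOf M w) a0 (3 + 13 * n) = encV M (qmOrbit M w n).2 (h :: hs) := by
  intro n
  induction n with
  | zero =>
    intro _
    refine ⟨h0 M, [], h0_lt hM, by simp, h0_div hM, ?_⟩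
    exact hO
  | succ n ih =>
    intro hne
    obtain ⟨h, hs, hh, hhs, hdiv, hO'⟩ := ih (fun m hm => hne m (by omega))
    obtain ⟨_, h', hh', hdiv', hO''⟩ := sim_period hM hw hh hhs hdiv hO'
    refine ⟨h', h :: hs, hh', ?_, hdiv', ?_⟩
    · intro d hd
      simp only [List.mem_cons] at hd
      rcases hd with rfl | hd
      · exact hh
      · exact hhs d hd
    · rw [hO'', if_neg (hne (n + 1) le_rfl), add_zero]
      rfl

/-- The target set. -/
def targetO : Set R3 := {x | ∃ k : ℤ, 1 / 3 < x 0 - k ∧ x 0 - k < 4 / 9}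

theorem targetO_open : IsOpen targetO := by
  have : targetO = ⋃ k : ℤ, {x : R3 | 1 / 3 < x 0 - k} ∩ {x : R3 | x 0 - k < 4 / 9} := by
    ext x
    simp [targetO]
  rw [this]
  apply isOpen_iUnion
  intro k
  apply IsOpen.inter
  · exact isOpen_lt continuous_const ((continuous_apply 0).sub continuous_const)
  · exact isOpen_lt ((continuous_apply 0).sub continuous_const) continuous_const

theorem targetO_periodic : IsPeriodicSet targetO := by
  intro x k
  constructor
  · rintro ⟨m, h1, h2⟩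
    refine ⟨m - k 0, ?_, ?_⟩
    · push_cast; linarith
    · push_cast; linarith
  · rintro ⟨m, h1, h2⟩
    refine ⟨m + k 0, ?_, ?_⟩
    · push_cast; linarith
    · push_cast; linarith

theorem not_mem_targetO {x : R3} (h : |x 0| ≤ 1 / 4) : x ∉ targetO := by
  rintro ⟨k, h1, h2⟩
  obtain ⟨h3, h4⟩ := abs_le.1 h
  have h5 : (k : ℝ) < 0 := by linarith
  have h6 : k < 0 := by exact_mod_cast h5
  have h7 : k ≤ -1 := by omega
  have h8 : (k : ℝ) ≤ -1 := by exact_mod_cast h7
  linarith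

theorem xLoc_small (ds : ℕ → Shear) (a : R3) (k : ℕ) (s : ℝ) (h0 : |orbit ds a k 0| ≤ 1 / 4)
    (h1 : |orbit ds a (k + 1) 0| ≤ 1 / 4) : |xLoc ds a k s 0| ≤ 1 / 4 := by
  unfold xLoc
  by_cases hi : (ds k).i = 0
  · have e1 : orbit ds a (k + 1) 0 = orbit ds a k 0 + (ds k).g (orbit ds a k) := by
      change stepX (ds k) (orbit ds a k) 0 = _
      unfold stepX
      rw [hi]
      simp only [Function.update_self]
    rw [e1] at h1
    rw [hi]
    simp only [Function.update_self]
    obtain ⟨t0, t1⟩ := theta_range (s - k)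
    generalize theta (s - k) = θ at t0 t1
    generalize (ds k).g (orbit ds a k) = g at h1
    generalize orbit ds a k 0 = x at h0 h1
    have e : x + θ * g = (1 - θ) * x + θ * (x + g) := by ring
    rw [e]
    obtain ⟨a1, a2⟩ := abs_le.1 h0
    obtain ⟨a3, a4⟩ := abs_le.1 h1
    apply abs_le.2
    constructor <;> nlinarith
  · rw [Function.update_of_ne (Ne.symm hi)]
    exact h0

theorem path_small (ds : ℕ → Shear) (a : R3) (h : ∀ k, |orbit ds a k 0| ≤ 1 / 4) (t : ℝ) :
    |pathX ds a t 0| ≤ 1 / 4 :=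
  xLoc_small ds a _ t (h _) (h _)

theorem num_three_eighths (hM : M.Valid) {L : List ℕ} (hL : ∀ d ∈ L, d < nD M) :
    1 / 3 < num (nB M) L / nR M + 3 / 8 ∧ num (nB M) L / nR M + 3 / 8 < 4 / 9 := by
  obtain ⟨hB128, hB00, hRv, hR00, hD, hD0, hKD, hK0⟩ := real_bounds hM
  obtain ⟨h0, h1⟩ := num_digits hM hL
  have h2 : 0 ≤ num (nB M) L / nR M := div_nonneg h0 hR00.le
  have h3 : (1 : ℝ) ≤ (nB M : ℝ) ^ 3 := one_le_pow₀ (by linarith)
  have h4 : (64 : ℝ) ≤ nR M := by rw [hRv]; linarith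
  have h5 : num (nB M) L / nR M ≤ 1 / 64 := by
    rw [div_le_iff₀ hR00]
    linarith
  constructor <;> linarith

/-- The path meets the target set if and only if the machine halts. -/
theorem path_iff (hM : M.Valid) (hw : M.IsInput w) :
    (∃ t ≥ 0, pathX (shearOf M w) ![0, 0, 0] t ∈ targetO) ↔ M.Halts w := by
  rw [← qm_halts_iff hM hw, rotStart_init]
  change _ ↔ ∃ N, (qmOrbit M w N).1 = 0
  obtain ⟨hi0, hi3⟩ := orbit_init hM hw
  have hP := encV_period hM hw hi3
  constructor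
  · rintro ⟨t, _, ht⟩
    by_contra hN
    have hN : ∀ m, (qmOrbit M w m).1 ≠ 0 := fun m hm => hN ⟨m, hm⟩
    have hsmall : ∀ k, |orbit (shearOf M w) ![0, 0, 0] k 0| ≤ 1 / 4 := by
      intro k
      by_cases hk : k ≤ 2
      · exact hi0 k hk
      · obtain ⟨h, hs, hh, hhs, hdiv, hO⟩ := hP ((k - 3) / 13) (fun m _ => hN m)
        obtain ⟨h1, _⟩ := sim_period hM hw hh hhs hdiv hO
        have := h1 ((k - 3) % 13) (by have := Nat.mod_lt (k - 3) (by norm_num : 13 > 0); omega)
        have e : 3 + 13 * ((k - 3) / 13) + (k - 3) % 13 = k := by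
          have := Nat.div_add_mod (k - 3) 13
          omega
        rwa [e] at this
    exact not_mem_targetO (path_small _ _ hsmall t) ht
  · intro hex
    classical
    have hmin : ∀ m < Nat.find hex, (qmOrbit M w m).1 ≠ 0 := fun m hm => Nat.find_min hex hm
    have hspec := Nat.find_spec hex
    generalize Nat.find hex = N at hmin hspec
    cases N with
    | zero =>
      exfalso
      have : (qmOrbit M w 0).1 = stC M 0 0 := rfl
      rw [this] at hspec
      exact stC_ne_zero hspec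
    | succ n =>
      obtain ⟨h, hs, hh, hhs, hdiv, hO⟩ := hP n (fun m hm => hmin m (by omega))
      obtain ⟨_, h', _, _, hO'⟩ := sim_period hM hw hh hhs hdiv hO
      refine ⟨((3 + 13 * (n + 1) : ℕ) : ℝ), Nat.cast_nonneg _, ?_⟩
      rw [path_nat, hO', if_pos hspec]
      refine ⟨0, ?_⟩
      have hKD' := nK_le_nD hM
      have hq := (qmOrbit_inv hM hw (n + 1)).2.1
      have := num_three_eighths hM (L := (qmOrbit M w (n + 1)).2) (fun d hd => by
        have := hq d hd
        omega)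
      simpa using this

end

end Vale.Agent.Lib.P113
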