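import Vale.Agent.Lib.P113.Approx

/-!
The generic wrapper: a value `P - ν * Q`, where `P` and `Q` have primitive recursive schemes of
rational approximations and `ν` is a computable real number, is computed by a program that
depends computably on the data.
-/

namespace Vale.Agent.Lib.P113

open RatCode

/-- The arguments of the force program, without the precision. -/
abbrev FIn := ℕ × ℕ × ℕ × ℕ × ℕ × RatCode × RatCode × RatCode × RatCode

section generic

variable {σ Q : Type*} [Primcodable σ] [Primcodable Q]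

/-- A computable function of two arguments is computed by a family of programs that depends
computably on the first argument. -/
theorem exists_compile_of_computable {τ : Type*} [Primcodable τ] {F : σ → Q → τ}
    (hF : Computable₂ F) :
    ∃ compile : σ → Nat.Partrec.Code, Computable compile ∧
      ∀ a q, (compile a).eval (Encodable.encode q) = Part.some (Encodable.encode (F a q)) := by
  have h1 : Nat.Partrec (fun n : ℕ =>
      Part.bind (Encodable.decode (α := σ × Q) n : Part (σ × Q)) fun p =>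
        (Part.some (F p.1 p.2)).map Encodable.encode) := hF
  obtain ⟨c, hc⟩ := Nat.Partrec.Code.exists_code.1 h1
  refine ⟨fun a => Nat.Partrec.Code.curry c (Encodable.encode a), ?_, ?_⟩
  · exact (Nat.Partrec.Code.primrec₂_curry.comp (Primrec.const c) Primrec.encode).to_comp
  · intro a q
    rw [Nat.Partrec.Code.eval_curry, hc]
    have h2 : Nat.pair (Encodable.encode a) (Encodable.encode q) = Encodable.encode (a, q) := by
      simp [Encodable.encode_prod_val]
    rw [h2]
    simp only [Encodable.encodek]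
    simp

end generic

/-- Bound for a product of approximations. -/
theorem mul_error {x y f g ε B C : ℝ} (h1 : |x - f| ≤ ε) (h2 : |y - g| ≤ ε) (hf : |f| ≤ B)
    (hg : |g| ≤ C) (hε : ε ≤ 1) : |x * y - f * g| ≤ ε * (C + 1 + B) := by
  have hε0 : 0 ≤ ε := (abs_nonneg _).trans h1
  have hy : |y| ≤ C + 1 := by
    have h3 : |y| ≤ |g| + |y - g| := by
      have := abs_sub_abs_le_abs_sub y g
      linarith
    linarith
  have h4 : x * y - f * g = (x - f) * y + f * (y - g) := by ring
  rw [h4]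
  calc |(x - f) * y + f * (y - g)| ≤ |(x - f) * y| + |f * (y - g)| := abs_add_le _ _
    _ = |x - f| * |y| + |f| * |y - g| := by rw [abs_mul, abs_mul]
    _ ≤ ε * (C + 1) + B * ε := by
        apply add_le_add
        · exact mul_le_mul h1 hy (abs_nonneg _) hε0
        · exact mul_le_mul hf h2 (abs_nonneg _) ((abs_nonneg _).trans hf)
    _ = ε * (C + 1 + B) := by ring

section combine

variable {α : Type*} [Primcodable α]

/-- The scheme for `P - ν * Q`. -/
theorem computable_sub_mul {ν : ℝ} (hc : IsComputableReal ν) {P Q : α → ℝ}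
    (hP : Approx P) (hQ : Approx Q) :
    ∃ R : α → ℕ → RatCode, Computable₂ R ∧
      ∀ a k, |(R a k).val - (P a - ν * Q a)| ≤ (1 / 2 : ℝ) ^ k := by
  obtain ⟨rν, hrν, heν⟩ := hc
  obtain ⟨rP, hrP, heP⟩ := hP
  obtain ⟨rQ, hrQ, heQ⟩ := hQ
  -- the precision used for the product
  let K : α → ℕ → ℕ := fun a k =>
    (k + 1) + ((bd (rQ a 0) + 1) + 1 + (bd (rν 0) + 1))
  let R : α → ℕ → RatCode := fun a k =>
    RatCode.add (rP a (k + 1)) (RatCode.neg (RatCode.mul (rν (K a k)) (rQ a (K a k))))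
  have hbν : |ν| ≤ ((bd (rν 0) + 1 : ℕ) : ℝ) := by
    have h1 := heν 0
    have h2 := abs_val_le_bd (rν 0)
    have h3 : |ν| ≤ |(rν 0).val| + |(rν 0).val - ν| := by
      have := abs_sub_abs_le_abs_sub ν (rν 0).val
      rw [abs_sub_comm] at this
      linarith
    simp only [pow_zero] at h1
    push_cast
    linarith
  refine ⟨R, ?_, ?_⟩
  · -- computability
    have hK : Primrec₂ K := by
      have h1 : Primrec (fun p : α × ℕ => bd (rQ p.1 0)) :=
        primrec_bd.comp (hrQ.comp Primrec.fst (Primrec.const 0))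
      have h2 : Primrec (fun p : α × ℕ =>
          (p.2 + 1) + ((bd (rQ p.1 0) + 1) + 1 + (bd (rν 0) + 1))) := by
        refine Primrec.nat_add.comp (Primrec.succ.comp Primrec.snd) ?_
        refine Primrec.nat_add.comp ?_ (Primrec.const _)
        exact Primrec.succ.comp (Primrec.succ.comp h1)
      exact h2
    have h3 : Computable (fun p : α × ℕ => rν (K p.1 p.2)) :=
      hrν.comp (hK.to_comp)
    have h4 : Computable (fun p : α × ℕ => rQ p.1 (K p.1 p.2)) :=
      (hrQ.comp Primrec.fst hK).to_comp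
    have h5 : Computable (fun p : α × ℕ => rP p.1 (p.2 + 1)) :=
      (hrP.comp Primrec.fst (Primrec.succ.comp Primrec.snd)).to_comp
    have h6 : Computable (fun p : α × ℕ =>
        RatCode.mul (rν (K p.1 p.2)) (rQ p.1 (K p.1 p.2))) :=
      primrec_mul.to_comp.comp h3 h4
    have h7 : Computable (fun p : α × ℕ =>
        RatCode.neg (RatCode.mul (rν (K p.1 p.2)) (rQ p.1 (K p.1 p.2)))) :=
      primrec_neg.to_comp.comp h6
    exact primrec_add.to_comp.comp h5 h7
  · intro a k
    simp only [R, val_add, val_neg, val_mul]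
    set ε : ℝ := (1 / 2 : ℝ) ^ K a k with hε
    have hbQ := Approx.exists_bound heQ a
    have h1 : |(rν (K a k)).val - ν| ≤ ε := heν _
    have h2 : |(rQ a (K a k)).val - Q a| ≤ ε := heQ _ _
    have hε1 : ε ≤ 1 := pow_le_one₀ (by norm_num) (by norm_num)
    have h3 := mul_error h1 h2 hbν hbQ hε1
    have h4 : |(rP a (k + 1)).val - P a| ≤ (1 / 2 : ℝ) ^ (k + 1) := heP _ _
    -- the size of the product error
    have h5 : ε * (((bd (rQ a 0) + 1 : ℕ) : ℝ) + 1 + ((bd (rν 0) + 1 : ℕ) : ℝ))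
        ≤ (1 / 2 : ℝ) ^ (k + 1) := by
      set N : ℕ := (bd (rQ a 0) + 1) + 1 + (bd (rν 0) + 1) with hN
      have h6 : ((bd (rQ a 0) + 1 : ℕ) : ℝ) + 1 + ((bd (rν 0) + 1 : ℕ) : ℝ) = (N : ℝ) := by
        simp only [hN]; push_cast; ring
      have h7 : ε = (1 / 2 : ℝ) ^ (k + 1) * (1 / 2 : ℝ) ^ N := by
        simp only [hε, K, hN]; rw [pow_add]
      rw [h6, h7]
      have h8 := two_pow_bound N
      have h9 : (0 : ℝ) ≤ (1 / 2 : ℝ) ^ (k + 1) := by positivity
      calc (1 / 2 : ℝ) ^ (k + 1) * (1 / 2 : ℝ) ^ N * (N : ℝ)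
          = (1 / 2 : ℝ) ^ (k + 1) * ((N : ℝ) * (1 / 2 : ℝ) ^ N) := by ring
        _ ≤ (1 / 2 : ℝ) ^ (k + 1) * 1 := mul_le_mul_of_nonneg_left h8 h9
        _ = (1 / 2 : ℝ) ^ (k + 1) := by ring
    have h10 : (rP a (k + 1)).val + -((rν (K a k)).val * (rQ a (K a k)).val) - (P a - ν * Q a)
        = ((rP a (k + 1)).val - P a) - ((rν (K a k)).val * (rQ a (K a k)).val - ν * Q a) := by
      ring
    rw [h10]
    have h11 : (1 / 2 : ℝ) ^ k = (1 / 2 : ℝ) ^ (k + 1) + (1 / 2 : ℝ) ^ (k + 1) := by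
      rw [pow_succ]; ring
    rw [h11]
    calc _ ≤ |(rP a (k + 1)).val - P a| + |(rν (K a k)).val * (rQ a (K a k)).val - ν * Q a| :=
          abs_sub _ _
      _ ≤ _ := add_le_add h4 (h3.trans h5)

end combine

/-- The wrapper for the force programs. -/
theorem compile_of_approx {ν : ℝ} (hc : IsComputableReal ν)
    {P Q : (Machine × List ℕ) × FIn → ℝ} (hP : Approx P) (hQ : Approx Q) :
    ∃ compile : Machine × List ℕ → Nat.Partrec.Code, Computable compile ∧
      ∀ (X : Machine × List ℕ) (i n m₀ m₁ m₂ : ℕ) (t x₀ x₁ x₂ : RatCode) (k : ℕ),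
        ∃ q : RatCode,
          (compile X).eval (Encodable.encode (i, n, m₀, m₁, m₂, t, x₀, x₁, x₂, k))
            = Part.some (Encodable.encode q) ∧
          |q.val - (P (X, (i, n, m₀, m₁, m₂, t, x₀, x₁, x₂))
              - ν * Q (X, (i, n, m₀, m₁, m₂, t, x₀, x₁, x₂)))| ≤ (1 / 2 : ℝ) ^ k := by
  obtain ⟨R, hR, he⟩ := computable_sub_mul hc hP hQ
  -- the function of the data and the full input
  let split : ℕ × ℕ × ℕ × ℕ × ℕ × RatCode × RatCode × RatCode × RatCode × ℕ → FIn × ℕ :=
    fun q => ((q.1, q.2.1, q.2.2.1, q.2.2.2.1, q.2.2.2.2.1, q.2.2.2.2.2.1, q.2.2.2.2.2.2.1,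
      q.2.2.2.2.2.2.2.1, q.2.2.2.2.2.2.2.2.1), q.2.2.2.2.2.2.2.2.2)
  have hsplit : Primrec split := by
    have h0 : Primrec (fun q : ℕ × ℕ × ℕ × ℕ × ℕ × RatCode × RatCode × RatCode × RatCode × ℕ =>
        q.2.2.2.2.2.2.2.2) :=
      Primrec.snd.comp (Primrec.snd.comp (Primrec.snd.comp (Primrec.snd.comp (Primrec.snd.comp
        (Primrec.snd.comp (Primrec.snd.comp (Primrec.snd)))))))
    have h1 : Primrec (fun q : ℕ × ℕ × ℕ × ℕ × ℕ × RatCode × RatCode × RatCode × RatCode × ℕ =>
        q.2.2.2.2.2.2.2) :=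
      Primrec.snd.comp (Primrec.snd.comp (Primrec.snd.comp (Primrec.snd.comp (Primrec.snd.comp
        (Primrec.snd.comp (Primrec.snd))))))
    have h2 : Primrec (fun q : ℕ × ℕ × ℕ × ℕ × ℕ × RatCode × RatCode × RatCode × RatCode × ℕ =>
        q.2.2.2.2.2.2) :=
      Primrec.snd.comp (Primrec.snd.comp (Primrec.snd.comp (Primrec.snd.comp (Primrec.snd.comp
        (Primrec.snd)))))
    have h3 : Primrec (fun q : ℕ × ℕ × ℕ × ℕ × ℕ × RatCode × RatCode × RatCode × RatCode × ℕ =>
        q.2.2.2.2.2) :=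
      Primrec.snd.comp (Primrec.snd.comp (Primrec.snd.comp (Primrec.snd.comp (Primrec.snd))))
    have h4 : Primrec (fun q : ℕ × ℕ × ℕ × ℕ × ℕ × RatCode × RatCode × RatCode × RatCode × ℕ =>
        q.2.2.2.2) :=
      Primrec.snd.comp (Primrec.snd.comp (Primrec.snd.comp (Primrec.snd)))
    have h5 : Primrec (fun q : ℕ × ℕ × ℕ × ℕ × ℕ × RatCode × RatCode × RatCode × RatCode × ℕ =>
        q.2.2.2) :=
      Primrec.snd.comp (Primrec.snd.comp (Primrec.snd))
    have h6 : Primrec (fun q : ℕ × ℕ × ℕ × ℕ × ℕ × RatCode × RatCode × RatCode × RatCode × ℕ =>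
        q.2.2) :=
      Primrec.snd.comp (Primrec.snd)
    have h7 : Primrec (fun q : ℕ × ℕ × ℕ × ℕ × ℕ × RatCode × RatCode × RatCode × RatCode × ℕ =>
        q.2) :=
      Primrec.snd
    refine Primrec.pair ?_ (Primrec.snd.comp h0)
    refine Primrec.pair Primrec.fst ?_
    refine Primrec.pair (Primrec.fst.comp h7) ?_
    refine Primrec.pair (Primrec.fst.comp h6) ?_
    refine Primrec.pair (Primrec.fst.comp h5) ?_
    refine Primrec.pair (Primrec.fst.comp h4) ?_
    refine Primrec.pair (Primrec.fst.comp h3) ?_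
    refine Primrec.pair (Primrec.fst.comp h2) ?_
    refine Primrec.pair (Primrec.fst.comp h1) ?_
    exact Primrec.fst.comp h0
  let F : Machine × List ℕ → (ℕ × ℕ × ℕ × ℕ × ℕ × RatCode × RatCode × RatCode × RatCode × ℕ) →
      RatCode := fun X q => R (X, (split q).1) (split q).2
  have hF : Computable₂ F := by
    have h1 : Computable (fun p : (Machine × List ℕ) ×
        (ℕ × ℕ × ℕ × ℕ × ℕ × RatCode × RatCode × RatCode × RatCode × ℕ) => split p.2) :=
      (hsplit.comp Primrec.snd).to_comp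
    exact hR.comp (Computable.pair Computable.fst (Computable.fst.comp h1))
      (Computable.snd.comp h1)
  obtain ⟨compile, hcomp, hev⟩ := exists_compile_of_computable hF
  refine ⟨compile, hcomp, ?_⟩
  intro X i n m₀ m₁ m₂ t x₀ x₁ x₂ k
  exact ⟨F X (i, n, m₀, m₁, m₂, t, x₀, x₁, x₂, k), hev _ _, he _ _⟩

end Vale.Agent.Lib.P113
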