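import Vale.Agent.Lib.P113.Jets
import Vale.Agent.Lib.P113.Wrapper
import Vale.Agent.Lib.P113.Sim
import Vale.Agent.Lib.P113.PRData

/-!
Approximation of all mixed derivatives of the compiled forces at rational points.
-/

namespace Vale.Agent.Lib.P113

open Machine RatCode
open scoped ContDiff

/-! ### Exact operations on codes -/

/-- The code of `1 / 2`. -/
def halfC : RatCode := (1, 0, 1)

theorem val_halfC : halfC.val = 1 / 2 := by
  norm_num [halfC, RatCode.val]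

/-- The code of the fractional part. -/
def fractCode (s : RatCode) : RatCode := ((s.1 + s.2.2 * s.2.1) % (s.2.2 + 1), 0, s.2.2)

theorem val_fractCode (s : RatCode) : (fractCode s).val = Int.fract s.val := by
  symm
  rw [Int.fract_eq_iff]
  have hd : (0 : ℝ) < (s.2.2 : ℝ) + 1 := by positivity
  have hmod : (s.1 + s.2.2 * s.2.1) % (s.2.2 + 1) < s.2.2 + 1 := Nat.mod_lt _ (Nat.succ_pos _)
  have e : (fractCode s).val = (((s.1 + s.2.2 * s.2.1) % (s.2.2 + 1) : ℕ) : ℝ) / ((s.2.2 : ℝ) + 1) := by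
    simp [fractCode, RatCode.val]
  rw [e]
  refine ⟨by positivity, ?_, ?_⟩
  · rw [div_lt_one hd]
    exact_mod_cast hmod
  · have h := Nat.div_add_mod (s.1 + s.2.2 * s.2.1) (s.2.2 + 1)
    have h' : ((s.2.2 : ℝ) + 1) * (((s.1 + s.2.2 * s.2.1) / (s.2.2 + 1) : ℕ) : ℝ)
        + (((s.1 + s.2.2 * s.2.1) % (s.2.2 + 1) : ℕ) : ℝ) = (s.1 : ℝ) + s.2.2 * s.2.1 := by
      exact_mod_cast h
    generalize (s.1 + s.2.2 * s.2.1) / (s.2.2 + 1) = q at h'
    generalize (s.1 + s.2.2 * s.2.1) % (s.2.2 + 1) = r at h'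
    refine ⟨(q : ℤ) - s.2.1, ?_⟩
    rw [RatCode.val]
    push_cast
    field_simp
    linarith

theorem primrec_fractCode : Primrec fractCode := by
  unfold fractCode
  refine pr_pair (pr_mod (pr_add (pr_fst pr_id) (pr_mul (pr_snd (pr_snd pr_id))
    (pr_fst (pr_snd pr_id)))) (pr_add (pr_snd (pr_snd pr_id)) (pr_const 1)))
    (pr_pair (pr_const 0) (pr_snd (pr_snd pr_id)))

/-- The code of the centered fractional part. -/
def cenCode (s : RatCode) : RatCode := RatCode.add (fractCode (RatCode.add s halfC)) (RatCode.neg halfC)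

theorem val_cenCode (s : RatCode) : (cenCode s).val = cen s.val := by
  unfold cenCode cen
  rw [val_add, val_neg, val_fractCode, val_add, val_halfC]
  ring

theorem primrec_cenCode : Primrec cenCode := by
  unfold cenCode
  exact primrec_add.comp (primrec_fractCode.comp (primrec_add.comp Primrec.id (Primrec.const _)))
    (Primrec.const _)

/-- The integer part of a nonnegative code. -/
def floorNat (t : RatCode) : ℕ := (t.1 - t.2.1) / (t.2.2 + 1)

theorem primrec_floorNat : Primrec floorNat := by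
  unfold floorNat
  exact pr_div (pr_sub (pr_fst pr_id) (pr_fst (pr_snd pr_id))) (pr_add (pr_snd (pr_snd pr_id)) (pr_const 1))

theorem floorNat_eq {t : RatCode} (ht : 0 ≤ t.val) : ⌊t.val⌋₊ = floorNat t := by
  have hd : (0 : ℝ) < (t.2.2 : ℝ) + 1 := by positivity
  have h1 : (t.2.1 : ℝ) ≤ t.1 := by
    rw [RatCode.val] at ht
    have := (div_nonneg_iff.1 ht)
    rcases this with h | h
    · linarith [h.1]
    · linarith [h.2]
  have h2 : t.2.1 ≤ t.1 := by exact_mod_cast h1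
  have e : t.val = ((t.1 - t.2.1 : ℕ) : ℝ) / ((t.2.2 + 1 : ℕ) : ℝ) := by
    rw [RatCode.val, Nat.cast_sub h2]
    push_cast
    rfl
  rw [e, Nat.floor_div_eq_div]
  rfl

/-! ### The plateau -/

/-- The code of `8 y + 1`. -/
def lin8p (y : RatCode) : RatCode := RatCode.add (RatCode.mul (8, 0, 0) y) (1, 0, 0)

/-- The code of `5 - 8 y`. -/
def lin8m (y : RatCode) : RatCode := RatCode.add (5, 0, 0) (RatCode.neg (RatCode.mul (8, 0, 0) y))

theorem val_lin8p (y : RatCode) : (lin8p y).val = 8 * y.val + 1 := by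
  unfold lin8p
  rw [val_add, val_mul]
  norm_num [RatCode.val]

theorem val_lin8m (y : RatCode) : (lin8m y).val = 5 - 8 * y.val := by
  unfold lin8m
  rw [val_add, val_neg, val_mul]
  norm_num [RatCode.val]
  ring

theorem primrec_lin8p : Primrec lin8p := by
  unfold lin8p
  exact primrec_add.comp (primrec_mul.comp (Primrec.const _) Primrec.id) (Primrec.const _)

theorem primrec_lin8m : Primrec lin8m := by
  unfold lin8m
  exact primrec_add.comp (Primrec.const _) (primrec_neg.comp (primrec_mul.comp (Primrec.const _) Primrec.id))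

/-- Derivatives of the plateau at a code. -/
noncomputable def psi0J (m : ℕ) (y : RatCode) : ℝ :=
  ∑ i ∈ Finset.range (m + 1), (m.choose i : ℝ) *
    (8 ^ i * iteratedDeriv i stepB (lin8p y).val) *
      ((-8) ^ (m - i) * iteratedDeriv (m - i) stepB (lin8m y).val)

theorem iterated_step (i : ℕ) (y : ℝ) : iteratedDeriv i stepB y = deriv^[i] St y := by
  rw [iteratedDeriv_eq_iterate]

theorem psi0J_eq (m : ℕ) (y : RatCode) : deriv^[m] psi0 y.val = psi0J m y := by
  have hf : ContDiff ℝ ∞ (fun y : ℝ => St (8 * y + 1)) := St_smooth.comp (by fun_prop)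
  have hg : ContDiff ℝ ∞ (fun y : ℝ => St ((-8) * y + 5)) := St_smooth.comp (by fun_prop)
  have e : psi0 = (fun y : ℝ => St (8 * y + 1)) * (fun y : ℝ => St ((-8) * y + 5)) := by
    funext z
    simp only [psi0, Pi.mul_apply]
    congr 2
    ring
  rw [← iteratedDeriv_eq_iterate, e,
    iteratedDeriv_mul (hf.contDiffAt.of_le (by exact_mod_cast le_top))
      (hg.contDiffAt.of_le (by exact_mod_cast le_top))]
  apply Finset.sum_congr rfl
  intro i _
  rw [iteratedDeriv_eq_iterate, iteratedDeriv_eq_iterate, iter_deriv_affine, iter_deriv_affine,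
    iterated_step, iterated_step, val_lin8p, val_lin8m]
  have e2 : (-8 : ℝ) * y.val + 5 = 5 - 8 * y.val := by ring
  beta_reduce
  rw [e2]

/-- Constants of the approximation calculus. -/
theorem approx_natC {α : Type*} [Primcodable α] (c : ℕ) : Approx (fun _ : α => (c : ℝ)) :=
  (Approx.const ((c, 0, 0) : RatCode)).congr (fun _ => by simp [RatCode.val])

theorem approx_negC {α : Type*} [Primcodable α] (c : ℕ) : Approx (fun _ : α => -(c : ℝ)) :=
  (Approx.const ((0, c, 0) : RatCode)).congr (fun _ => by simp [RatCode.val])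

theorem sum_range_list (f : ℕ → ℝ) (n : ℕ) :
    ((List.range n).map f).sum = ∑ i ∈ Finset.range n, f i := by
  induction n with
  | zero => simp
  | succ n ih =>
    rw [List.range_succ, Finset.sum_range_succ, List.map_append, List.sum_append, ih]
    simp

/-- Finite sums along a primitive recursive range. -/
theorem Approx.sumRange {α : Type*} [Primcodable α] {N : α → ℕ} (hN : Primrec N)
    {g : α × ℕ → ℝ} (hg : Approx g) : Approx (fun a => ∑ i ∈ Finset.range (N a), g (a, i)) := by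
  have h := Approx.listSum (L := fun a => List.range (N a)) (Primrec.list_range.comp hN) hg
  exact h.congr (fun a => sum_range_list _ _)

theorem pr_factorial {α : Type*} [Primcodable α] {f : α → ℕ} (hf : Primrec f) :
    Primrec fun a => (f a).factorial := by
  have h : Primrec fun a => Nat.rec (motive := fun _ => ℕ) 1 (fun y IH => (y + 1) * IH) (f a) := by
    refine Primrec.nat_rec' (h := fun _ p => (p.1 + 1) * p.2) hf (pr_const 1) ?_
    change Primrec fun p : α × ℕ × ℕ => (p.2.1 + 1) * p.2.2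
    exact pr_mul (pr_add (pr_fst (pr_snd pr_id)) (pr_const 1)) (pr_snd (pr_snd pr_id))
  refine h.of_eq (fun a => ?_)
  induction f a with
  | zero => rfl
  | succ n ih =>
    simp only [Nat.factorial_succ]
    rw [← ih]

theorem pr_choose {α : Type*} [Primcodable α] {m i : α → ℕ} (hm : Primrec m) (hi : Primrec i) :
    Primrec fun a => if i a ≤ m a then (m a).factorial /
      ((i a).factorial * (m a - i a).factorial) else 0 :=
  pr_ite (pr_le hi hm) (pr_div (pr_factorial hm) (pr_mul (pr_factorial hi)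
    (pr_factorial (pr_sub hm hi)))) (pr_const 0)

theorem choose_eq_of (m i : ℕ) : (if i ≤ m then m.factorial / (i.factorial * (m - i).factorial)
    else 0) = m.choose i := by
  split_ifs with h
  · exact (Nat.choose_eq_factorial_div_factorial h).symm
  · exact (Nat.choose_eq_zero_of_lt (not_le.1 h)).symm

theorem approx_psi0J : Approx (fun p : ℕ × RatCode => psi0J p.1 p.2) := by
  unfold psi0J
  refine Approx.sumRange (N := fun p : ℕ × RatCode => p.1 + 1) (g := fun x : (ℕ × RatCode) × ℕ =>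
      (x.1.1.choose x.2 : ℝ) * (8 ^ x.2 * iteratedDeriv x.2 stepB (lin8p x.1.2).val) *
        ((-8) ^ (x.1.1 - x.2) * iteratedDeriv (x.1.1 - x.2) stepB (lin8m x.1.2).val))
    (pr_add (pr_fst pr_id) (pr_const 1)) ?_
  have hm : Primrec fun x : (ℕ × RatCode) × ℕ => x.1.1 := pr_fst (pr_fst pr_id)
  have hi : Primrec fun x : (ℕ × RatCode) × ℕ => x.2 := pr_snd pr_id
  have hy : Primrec fun x : (ℕ × RatCode) × ℕ => x.1.2 := pr_snd (pr_fst pr_id)
  have h1 : Approx fun x : (ℕ × RatCode) × ℕ => (x.1.1.choose x.2 : ℝ) := by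
    refine (Approx.ofCode (h := fun x : (ℕ × RatCode) × ℕ => RatCode.ofNat
      (if x.2 ≤ x.1.1 then x.1.1.factorial / (x.2.factorial * (x.1.1 - x.2).factorial) else 0))
      (primrec_ofNat.comp (pr_choose hm hi))).congr (fun x => ?_)
    rw [val_ofNat, choose_eq_of]
  have h2 : Approx fun x : (ℕ × RatCode) × ℕ => ((8 : ℝ) ^ x.2) :=
    ((approx_natC 8).pow hi).congr (fun x => by norm_num)
  have h3 : Approx fun x : (ℕ × RatCode) × ℕ => ((-8 : ℝ) ^ (x.1.1 - x.2)) :=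
    ((approx_negC 8).pow (pr_sub hm hi)).congr (fun x => by norm_num)
  have h4 : Approx fun x : (ℕ × RatCode) × ℕ => iteratedDeriv x.2 stepB (lin8p x.1.2).val :=
    approx_jet.comp (pr_pair hi (primrec_lin8p.comp hy))
  have h5 : Approx fun x : (ℕ × RatCode) × ℕ =>
      iteratedDeriv (x.1.1 - x.2) stepB (lin8m x.1.2).val :=
    approx_jet.comp (pr_pair (pr_sub hm hi) (primrec_lin8m.comp hy))
  exact (h1.mul (h2.mul h4)).mul (h3.mul h5)

/-! ### Plateaus and the sawtooth -/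

/-- The code of `cen s / w - N`. -/
def psiArg (N w s : RatCode) : RatCode :=
  RatCode.add (RatCode.mul (cenCode s) (RatCode.inv w)) (RatCode.neg N)

theorem val_psiArg {N w : RatCode} (hw : 0 < w.val) (s : RatCode) :
    (psiArg N w s).val = cen s.val / w.val - N.val := by
  unfold psiArg
  rw [val_add, val_mul, val_neg, val_inv _ hw, val_cenCode, div_eq_mul_inv]
  ring

theorem primrec_psiArg : Primrec fun p : RatCode × RatCode × RatCode => psiArg p.1 p.2.1 p.2.2 := by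
  unfold psiArg
  exact primrec_add.comp (primrec_mul.comp (primrec_cenCode.comp (pr_snd (pr_snd pr_id)))
    (primrec_inv.comp (pr_fst (pr_snd pr_id)))) (primrec_neg.comp (pr_fst pr_id))

/-- Derivatives of a plateau at a code. -/
noncomputable def psiJ (a : ℕ) (N w s : RatCode) : ℝ :=
  (RatCode.inv w).val ^ a * psi0J a (psiArg N w s)

theorem psiJ_eq {N w : RatCode} (hv : PsiValid N.val w.val) (a : ℕ) (s : RatCode) :
    deriv^[a] (psi N.val w.val) s.val = psiJ a N w s := by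
  unfold psiJ
  rw [psi_iter_deriv hv, val_inv _ hv.1, ← psi0J_eq, val_psiArg hv.1]

theorem approx_psiJ : Approx (fun p : ℕ × RatCode × RatCode × RatCode =>
    psiJ p.1 p.2.1 p.2.2.1 p.2.2.2) := by
  unfold psiJ
  have h1 : Approx fun p : ℕ × RatCode × RatCode × RatCode => (RatCode.inv p.2.2.1).val ^ p.1 :=
    (Approx.ofCode (primrec_inv.comp (pr_fst (pr_snd (pr_snd pr_id))))).pow (pr_fst pr_id)
  have h2 : Approx fun p : ℕ × RatCode × RatCode × RatCode =>
      psi0J p.1 (psiArg p.2.1 p.2.2.1 p.2.2.2) :=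
    approx_psi0J.comp (h := fun p : ℕ × RatCode × RatCode × RatCode =>
      (p.1, psiArg p.2.1 p.2.2.1 p.2.2.2))
      (pr_pair (pr_fst pr_id) (primrec_psiArg.comp (pr_snd pr_id)))
  exact h1.mul h2

/-- The code of `1 / 4`. -/
def quarterC : RatCode := (1, 0, 3)

theorem val_quarterC : quarterC.val = 1 / 4 := by
  norm_num [quarterC, RatCode.val]

/-- Derivatives of the sawtooth at a code. -/
noncomputable def sawJ (b : ℕ) (s : RatCode) : ℝ :=
  (cenCode s).val * psi0J b (RatCode.add (cenCode s) quarterC) +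
    b * psi0J (b - 1) (RatCode.add (cenCode s) quarterC)

theorem iter_psiBase (n : ℕ) (y : ℝ) :
    deriv^[n] (psiBase (-(1 / 4)) 1) y = deriv^[n] psi0 (y + 1 / 4) := by
  have h2 : psiBase (-(1 / 4)) 1 = fun y => psi0 (1 * y + (1 / 4)) := by
    funext y
    unfold psiBase
    congr 1
    ring
  rw [h2, iter_deriv_affine]
  simp

theorem sawJ_eq (b : ℕ) (s : RatCode) : deriv^[b] saw s.val = sawJ b s := by
  unfold sawJ
  rw [saw_iter_deriv, sawBase_iter_deriv, ← psi0J_eq, ← psi0J_eq, val_add, val_quarterC,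
    val_cenCode]
  beta_reduce
  rw [iter_psiBase, iter_psiBase]

theorem approx_sawJ : Approx (fun p : ℕ × RatCode => sawJ p.1 p.2) := by
  unfold sawJ
  have hc : Primrec fun p : ℕ × RatCode => cenCode p.2 := primrec_cenCode.comp (pr_snd pr_id)
  have hq : Primrec fun p : ℕ × RatCode => RatCode.add (cenCode p.2) quarterC :=
    primrec_add.comp hc (Primrec.const _)
  have h1 := (Approx.ofCode hc).mul (approx_psi0J.comp (h := fun p : ℕ × RatCode =>
    (p.1, RatCode.add (cenCode p.2) quarterC)) (pr_pair (pr_fst pr_id) hq))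
  have h2 : Approx fun p : ℕ × RatCode => (p.1 : ℝ) :=
    (Approx.ofCode (h := fun p : ℕ × RatCode => RatCode.ofNat p.1)
      (primrec_ofNat.comp (pr_fst pr_id))).congr (fun p => val_ofNat _)
  have h3 := approx_psi0J.comp (h := fun p : ℕ × RatCode =>
    (p.1 - 1, RatCode.add (cenCode p.2) quarterC))
    (pr_pair (pr_sub (pr_fst pr_id) (pr_const 1)) hq)
  exact h1.add (h2.mul h3)

/-- Derivatives of the second factor of an entry. -/
noncomputable def cJ (b : ℕ) (α β s : RatCode) : ℝ :=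
  (if b = 0 then α.val else 0) + β.val * sawJ b s

theorem cJ_eq (b : ℕ) (α β s : RatCode) :
    deriv^[b] (fun s => α.val + β.val * saw s) s.val = cJ b α β s := by
  unfold cJ
  rw [← sawJ_eq]
  cases b with
  | zero => simp
  | succ b =>
    simp only [Nat.succ_ne_zero, if_false, zero_add]
    have h1 : deriv (fun s => α.val + β.val * saw s) = fun s => β.val * deriv saw s := by
      funext y
      have := (saw_smooth.differentiable (by simp) y).hasDerivAt
      exact ((this.const_mul β.val).const_add α.val).deriv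
    rw [Function.iterate_succ_apply, h1, iter_deriv_const_mul, Function.iterate_succ_apply]

theorem approx_cJ : Approx (fun p : ℕ × RatCode × RatCode × RatCode =>
    cJ p.1 p.2.1 p.2.2.1 p.2.2.2) := by
  unfold cJ
  have h1 : Approx fun p : ℕ × RatCode × RatCode × RatCode => if p.1 = 0 then p.2.1.val else 0 :=
    Approx.ite (pr_eq (pr_fst pr_id) (pr_const 0)) (Approx.ofCode (pr_fst (pr_snd pr_id)))
      Approx.zero
  have h2 : Approx fun p : ℕ × RatCode × RatCode × RatCode => p.2.2.1.val :=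
    Approx.ofCode (pr_fst (pr_snd (pr_snd pr_id)))
  have h3 : Approx fun p : ℕ × RatCode × RatCode × RatCode => sawJ p.1 p.2.2.2 :=
    approx_sawJ.comp (h := fun p : ℕ × RatCode × RatCode × RatCode => (p.1, p.2.2.2))
      (pr_pair (pr_fst pr_id) (pr_snd (pr_snd (pr_snd pr_id))))
  exact h1.add (h2.mul h3)

/-! ### The profiles of the slots -/

/-- One entry of a slot. -/
noncomputable def termJ (a b : ℕ) (N w α β sp sl : RatCode) : ℝ :=
  psiJ a N w sp * cJ b α β sl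

/-- The derivative of order `(a, b)` of the profile of slot `k`, given the two relevant
coordinates. -/
noncomputable def tensJ (X : Machine × List ℕ) (k a b : ℕ) (sp sl : RatCode) : ℝ :=
  ∑ n ∈ Finset.range (slotCode X.1 k).2.2.2.2,
    termJ a b (slotEntry X.1 X.2 k n).1 (slotCode X.1 k).2.2.2.1 (slotEntry X.1 X.2 k n).2.1
      (slotEntry X.1 X.2 k n).2.2 sp sl

/-- The inputs of `tensJ`. -/
abbrev TensIn := (Machine × List ℕ) × ℕ × ℕ × ℕ × RatCode × RatCode

theorem approx_tensJ : Approx (fun z : TensIn =>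
    tensJ z.1 z.2.1 z.2.2.1 z.2.2.2.1 z.2.2.2.2.1 z.2.2.2.2.2) := by
  unfold tensJ
  have hM : Primrec fun z : TensIn => z.1.1 := pr_fst (pr_fst pr_id)
  have hk : Primrec fun z : TensIn => z.2.1 := pr_fst (pr_snd pr_id)
  refine Approx.sumRange (N := fun z : TensIn => (slotCode z.1.1 z.2.1).2.2.2.2)
    (g := fun y : TensIn × ℕ => termJ y.1.2.2.1 y.1.2.2.2.1
      (slotEntry y.1.1.1 y.1.1.2 y.1.2.1 y.2).1 (slotCode y.1.1.1 y.1.2.1).2.2.2.1
      (slotEntry y.1.1.1 y.1.1.2 y.1.2.1 y.2).2.1 (slotEntry y.1.1.1 y.1.1.2 y.1.2.1 y.2).2.2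
      y.1.2.2.2.2.1 y.1.2.2.2.2.2)
    (pr_snd (pr_snd (pr_snd (pr_snd (pr_slotCode hM hk))))) ?_
  have yM : Primrec fun y : TensIn × ℕ => y.1.1.1 := pr_fst (pr_fst (pr_fst pr_id))
  have yw : Primrec fun y : TensIn × ℕ => y.1.1.2 := pr_snd (pr_fst (pr_fst pr_id))
  have yk : Primrec fun y : TensIn × ℕ => y.1.2.1 := pr_fst (pr_snd (pr_fst pr_id))
  have yn : Primrec fun y : TensIn × ℕ => y.2 := pr_snd pr_id
  have hE := pr_slotEntry yM yw yk yn
  have hC := pr_slotCode yM yk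
  have h1 : Approx fun y : TensIn × ℕ => psiJ y.1.2.2.1 (slotEntry y.1.1.1 y.1.1.2 y.1.2.1 y.2).1
      (slotCode y.1.1.1 y.1.2.1).2.2.2.1 y.1.2.2.2.2.1 :=
    approx_psiJ.comp (h := fun y : TensIn × ℕ => (y.1.2.2.1, (slotEntry y.1.1.1 y.1.1.2 y.1.2.1 y.2).1,
      (slotCode y.1.1.1 y.1.2.1).2.2.2.1, y.1.2.2.2.2.1))
      (pr_pair (pr_fst (pr_snd (pr_snd (pr_fst pr_id)))) (pr_pair (pr_fst hE)
        (pr_pair (pr_fst (pr_snd (pr_snd (pr_snd hC))))
          (pr_fst (pr_snd (pr_snd (pr_snd (pr_snd (pr_fst pr_id)))))))))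
  have h2 : Approx fun y : TensIn × ℕ => cJ y.1.2.2.2.1 (slotEntry y.1.1.1 y.1.1.2 y.1.2.1 y.2).2.1
      (slotEntry y.1.1.1 y.1.1.2 y.1.2.1 y.2).2.2 y.1.2.2.2.2.2 :=
    approx_cJ.comp (h := fun y : TensIn × ℕ => (y.1.2.2.2.1, (slotEntry y.1.1.1 y.1.1.2 y.1.2.1 y.2).2.1,
      (slotEntry y.1.1.1 y.1.1.2 y.1.2.1 y.2).2.2, y.1.2.2.2.2.2))
      (pr_pair (pr_fst (pr_snd (pr_snd (pr_snd (pr_fst pr_id))))) (pr_pair (pr_fst (pr_snd hE))
        (pr_pair (pr_snd (pr_snd hE))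
          (pr_snd (pr_snd (pr_snd (pr_snd (pr_snd (pr_fst pr_id)))))))))
  exact h1.mul h2

theorem tens_eq {M : Machine} (hM : M.Valid) (w : List ℕ) (k a b : ℕ) (x : R3) (sp sl : RatCode)
    (hp : x (shearOf M w k).p = sp.val) (hl : x (shearOf M w k).l = sl.val) :
    (shearOf M w k).tens a b x = tensJ (M, w) k a b sp sl := by
  unfold Shear.tens tensJ
  have hd := shearOf_valid hM w k
  apply Finset.sum_congr rfl
  intro n hn
  unfold termJ Shear.B Shear.C
  rw [hp, hl]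
  have hv : PsiValid ((shearOf M w k).N n) (shearOf M w k).w := hd.hv n (Finset.mem_range.1 hn)
  rw [show psi ((shearOf M w k).N n) (shearOf M w k).w =
    psi (slotEntry M w k n).1.val (slotCode M k).2.2.2.1.val from rfl,
    psiJ_eq (N := (slotEntry M w k n).1) (w := (slotCode M k).2.2.2.1) hv a sp]
  congr 1
  exact cJ_eq b (slotEntry M w k n).2.1 (slotEntry M w k n).2.2 sl

/-- Selection of a component by a code. -/
def sel3 {β : Type*} (a b c : β) (p : ℕ) : β :=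
  if p % 3 = 0 then a else if p % 3 = 1 then b else c

theorem vec_sel {β : Type*} (a b c : β) (p : ℕ) : ![a, b, c] (Fin.ofNat 3 p) = sel3 a b c p := by
  unfold sel3
  have h : p % 3 = 0 ∨ p % 3 = 1 ∨ p % 3 = 2 := by omega
  rcases h with h | h | h
  · have e : Fin.ofNat 3 p = 0 := Fin.ext h
    rw [e, if_pos h]
    rfl
  · have e : Fin.ofNat 3 p = 1 := Fin.ext h
    rw [e, if_neg (by omega), if_pos h]
    rfl
  · have e : Fin.ofNat 3 p = 2 := Fin.ext h
    rw [e, if_neg (by omega), if_neg (by omega)]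
    rfl

theorem sel3_val (a b c : RatCode) (p : ℕ) : sel3 a.val b.val c.val p = (sel3 a b c p).val := by
  unfold sel3
  split_ifs <;> rfl

theorem pr_sel3 {α β : Type*} [Primcodable α] [Primcodable β] {a b c : α → β} {p : α → ℕ}
    (ha : Primrec a) (hb : Primrec b) (hc : Primrec c) (hp : Primrec p) :
    Primrec fun x => sel3 (a x) (b x) (c x) (p x) := by
  unfold sel3
  exact pr_ite (pr_eq (pr_mod hp (pr_const 3)) (pr_const 0)) ha
    (pr_ite (pr_eq (pr_mod hp (pr_const 3)) (pr_const 1)) hb hc)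

/-- The space derivatives of the profile of a slot. -/
noncomputable def tmJ (X : Machine × List ℕ) (k m₀ m₁ m₂ : ℕ) (x₀ x₁ x₂ : RatCode) : ℝ :=
  if sel3 m₀ m₁ m₂ (slotCode X.1 k).1 ≠ 0 then 0
  else tensJ X k (sel3 m₀ m₁ m₂ (slotCode X.1 k).2.1) (sel3 m₀ m₁ m₂ (slotCode X.1 k).2.2.1)
    (sel3 x₀ x₁ x₂ (slotCode X.1 k).2.1) (sel3 x₀ x₁ x₂ (slotCode X.1 k).2.2.1)

theorem tm_eq {M : Machine} (hM : M.Valid) (w : List ℕ) (k m₀ m₁ m₂ : ℕ) (x₀ x₁ x₂ : RatCode) :
    (shearOf M w k).TM ![m₀, m₁, m₂] ![x₀.val, x₁.val, x₂.val] = tmJ (M, w) k m₀ m₁ m₂ x₀ x₁ x₂ := by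
  unfold Shear.TM tmJ
  have e1 : ![m₀, m₁, m₂] (shearOf M w k).i = sel3 m₀ m₁ m₂ (slotCode M k).1 := vec_sel _ _ _ _
  have e2 : ![m₀, m₁, m₂] (shearOf M w k).p = sel3 m₀ m₁ m₂ (slotCode M k).2.1 := vec_sel _ _ _ _
  have e3 : ![m₀, m₁, m₂] (shearOf M w k).l = sel3 m₀ m₁ m₂ (slotCode M k).2.2.1 := vec_sel _ _ _ _
  rw [e1, e2, e3]
  simp only []
  split_ifs
  · rfl
  · apply tens_eq hM
    · rw [← sel3_val]
      exact vec_sel _ _ _ _
    · rw [← sel3_val]
      exact vec_sel _ _ _ _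

/-- The inputs of `tmJ`. -/
abbrev TmIn := (Machine × List ℕ) × ℕ × ℕ × ℕ × ℕ × RatCode × RatCode × RatCode

theorem approx_tmJ : Approx (fun z : TmIn =>
    tmJ z.1 z.2.1 z.2.2.1 z.2.2.2.1 z.2.2.2.2.1 z.2.2.2.2.2.1 z.2.2.2.2.2.2.1 z.2.2.2.2.2.2.2) := by
  unfold tmJ
  have hX : Primrec fun z : TmIn => z.1 := pr_fst pr_id
  have hk : Primrec fun z : TmIn => z.2.1 := pr_fst (pr_snd pr_id)
  have hC : Primrec fun z : TmIn => slotCode z.1.1 z.2.1 := pr_slotCode (pr_fst hX) hk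
  have m0 : Primrec fun z : TmIn => z.2.2.1 := pr_fst (pr_snd (pr_snd pr_id))
  have m1 : Primrec fun z : TmIn => z.2.2.2.1 := pr_fst (pr_snd (pr_snd (pr_snd pr_id)))
  have m2 : Primrec fun z : TmIn => z.2.2.2.2.1 := pr_fst (pr_snd (pr_snd (pr_snd (pr_snd pr_id))))
  have x0 : Primrec fun z : TmIn => z.2.2.2.2.2.1 :=
    pr_fst (pr_snd (pr_snd (pr_snd (pr_snd (pr_snd pr_id)))))
  have x1 : Primrec fun z : TmIn => z.2.2.2.2.2.2.1 :=
    pr_fst (pr_snd (pr_snd (pr_snd (pr_snd (pr_snd (pr_snd pr_id))))))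
  have x2 : Primrec fun z : TmIn => z.2.2.2.2.2.2.2 :=
    pr_snd (pr_snd (pr_snd (pr_snd (pr_snd (pr_snd (pr_snd pr_id))))))
  have c1 := pr_fst hC
  have c2 := pr_fst (pr_snd hC)
  have c3 := pr_fst (pr_snd (pr_snd hC))
  have hP : PrimrecPred fun z : TmIn => sel3 z.2.2.1 z.2.2.2.1 z.2.2.2.2.1 (slotCode z.1.1 z.2.1).1 ≠ 0 :=
    (pr_eq (pr_sel3 m0 m1 m2 c1) (pr_const 0)).not
  refine Approx.ite hP Approx.zero ?_
  exact approx_tensJ.comp (h := fun z : TmIn => (z.1, z.2.1,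
      sel3 z.2.2.1 z.2.2.2.1 z.2.2.2.2.1 (slotCode z.1.1 z.2.1).2.1,
      sel3 z.2.2.1 z.2.2.2.1 z.2.2.2.2.1 (slotCode z.1.1 z.2.1).2.2.1,
      sel3 z.2.2.2.2.2.1 z.2.2.2.2.2.2.1 z.2.2.2.2.2.2.2 (slotCode z.1.1 z.2.1).2.1,
      sel3 z.2.2.2.2.2.1 z.2.2.2.2.2.2.1 z.2.2.2.2.2.2.2 (slotCode z.1.1 z.2.1).2.2.1))
    (pr_pair hX (pr_pair hk (pr_pair (pr_sel3 m0 m1 m2 c2) (pr_pair (pr_sel3 m0 m1 m2 c3)
      (pr_pair (pr_sel3 x0 x1 x2 c2) (pr_sel3 x0 x1 x2 c3))))))

/-- The function `GF` at a natural slot. -/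
noncomputable def gfJ (X : Machine × List ℕ) (i k m₀ m₁ m₂ : ℕ) (x₀ x₁ x₂ : RatCode) : ℝ :=
  if (slotCode X.1 k).1 % 3 = i then tmJ X k m₀ m₁ m₂ x₀ x₁ x₂ else 0

theorem gf_eq {M : Machine} (hM : M.Valid) (w : List ℕ) (c : Fin 3) (k m₀ m₁ m₂ : ℕ)
    (x₀ x₁ x₂ : RatCode) :
    GF (shearOf M w) c ![m₀, m₁, m₂] (k : ℤ) ![x₀.val, x₁.val, x₂.val]
      = gfJ (M, w) (c : ℕ) k m₀ m₁ m₂ x₀ x₁ x₂ := by
  unfold GF gfJ
  have h1 : ¬ ((k : ℤ) < 0) := by omega
  have h2 : ((k : ℤ)).toNat = k := by simp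
  simp only [h1, false_or, h2]
  by_cases h : (slotCode M k).1 % 3 = (c : ℕ)
  · have h3 : (shearOf M w k).i = c := Fin.ext h
    rw [if_neg (by simpa using h3), if_pos h]
    exact tm_eq hM w k m₀ m₁ m₂ x₀ x₁ x₂
  · have h3 : (shearOf M w k).i ≠ c := fun e => h (by rw [← e]; rfl)
    rw [if_pos h3, if_neg h]

/-- The inputs of `gfJ`. -/
abbrev GfIn := (Machine × List ℕ) × ℕ × ℕ × ℕ × ℕ × ℕ × RatCode × RatCode × RatCode

theorem approx_gfJ : Approx (fun z : GfIn =>
    gfJ z.1 z.2.1 z.2.2.1 z.2.2.2.1 z.2.2.2.2.1 z.2.2.2.2.2.1 z.2.2.2.2.2.2.1 z.2.2.2.2.2.2.2.1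
      z.2.2.2.2.2.2.2.2) := by
  unfold gfJ
  have hX : Primrec fun z : GfIn => z.1 := pr_fst pr_id
  have hi : Primrec fun z : GfIn => z.2.1 := pr_fst (pr_snd pr_id)
  have hk : Primrec fun z : GfIn => z.2.2.1 := pr_fst (pr_snd (pr_snd pr_id))
  have hrest : Primrec fun z : GfIn => z.2.2.2 := pr_snd (pr_snd (pr_snd pr_id))
  refine Approx.ite (pr_eq (pr_mod (pr_fst (pr_slotCode (pr_fst hX) hk)) (pr_const 3)) hi)
    ?_ Approx.zero
  exact approx_tmJ.comp (h := fun z : GfIn => (z.1, z.2.2.1, z.2.2.2))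
    (pr_pair hX (pr_pair hk hrest))

/-! ### The derivatives of the force -/

/-- The code of `4 τ - 1`, for `τ` the fractional part of `t`. -/
def timeArg (t : RatCode) : RatCode :=
  RatCode.add (RatCode.mul (4, 0, 0) (fractCode t)) (RatCode.neg (1, 0, 0))

theorem val_timeArg (t : RatCode) : (timeArg t).val = 4 * Int.fract t.val - 1 := by
  unfold timeArg
  rw [val_add, val_mul, val_neg, val_fractCode]
  norm_num [RatCode.val]
  ring

theorem primrec_timeArg : Primrec timeArg := by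
  unfold timeArg
  exact primrec_add.comp (primrec_mul.comp (Primrec.const _) primrec_fractCode) (Primrec.const _)

/-- The first term of the derivatives of the force. -/
noncomputable def forceP (a : (Machine × List ℕ) × FIn) : ℝ :=
  4 ^ (a.2.2.1 + 2) * iteratedDeriv (a.2.2.1 + 2) stepB (timeArg a.2.2.2.2.2.2.1).val *
    gfJ a.1 a.2.1 (floorNat a.2.2.2.2.2.2.1) a.2.2.2.1 a.2.2.2.2.1 a.2.2.2.2.2.1
      a.2.2.2.2.2.2.2.1 a.2.2.2.2.2.2.2.2.1 a.2.2.2.2.2.2.2.2.2

/-- The factor of the viscosity in the derivatives of the force. -/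
noncomputable def forceQ (a : (Machine × List ℕ) × FIn) : ℝ :=
  4 ^ (a.2.2.1 + 1) * iteratedDeriv (a.2.2.1 + 1) stepB (timeArg a.2.2.2.2.2.2.1).val *
    (gfJ a.1 a.2.1 (floorNat a.2.2.2.2.2.2.1) (a.2.2.2.1 + 2) a.2.2.2.2.1 a.2.2.2.2.2.1
        a.2.2.2.2.2.2.2.1 a.2.2.2.2.2.2.2.2.1 a.2.2.2.2.2.2.2.2.2 +
      gfJ a.1 a.2.1 (floorNat a.2.2.2.2.2.2.1) a.2.2.2.1 (a.2.2.2.2.1 + 2) a.2.2.2.2.2.1
        a.2.2.2.2.2.2.2.1 a.2.2.2.2.2.2.2.2.1 a.2.2.2.2.2.2.2.2.2 +
      gfJ a.1 a.2.1 (floorNat a.2.2.2.2.2.2.1) a.2.2.2.1 a.2.2.2.2.1 (a.2.2.2.2.2.1 + 2)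
        a.2.2.2.2.2.2.2.1 a.2.2.2.2.2.2.2.2.1 a.2.2.2.2.2.2.2.2.2)

/-- The inputs of the force terms. -/
abbrev FullIn := (Machine × List ℕ) × FIn

theorem approx_gf_shift {d0 d1 d2 : ℕ} : Approx (fun a : FullIn =>
    gfJ a.1 a.2.1 (floorNat a.2.2.2.2.2.2.1) (a.2.2.2.1 + d0) (a.2.2.2.2.1 + d1) (a.2.2.2.2.2.1 + d2)
      a.2.2.2.2.2.2.2.1 a.2.2.2.2.2.2.2.2.1 a.2.2.2.2.2.2.2.2.2) := by
  have hX : Primrec fun a : FullIn => a.1 := pr_fst pr_id
  have hi : Primrec fun a : FullIn => a.2.1 := pr_fst (pr_snd pr_id)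
  have hm0 : Primrec fun a : FullIn => a.2.2.2.1 := pr_fst (pr_snd (pr_snd (pr_snd pr_id)))
  have hm1 : Primrec fun a : FullIn => a.2.2.2.2.1 :=
    pr_fst (pr_snd (pr_snd (pr_snd (pr_snd pr_id))))
  have hm2 : Primrec fun a : FullIn => a.2.2.2.2.2.1 :=
    pr_fst (pr_snd (pr_snd (pr_snd (pr_snd (pr_snd pr_id)))))
  have ht : Primrec fun a : FullIn => a.2.2.2.2.2.2.1 :=
    pr_fst (pr_snd (pr_snd (pr_snd (pr_snd (pr_snd (pr_snd pr_id))))))
  have hx : Primrec fun a : FullIn => a.2.2.2.2.2.2.2 :=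
    pr_snd (pr_snd (pr_snd (pr_snd (pr_snd (pr_snd (pr_snd pr_id))))))
  exact approx_gfJ.comp (h := fun a : FullIn => (a.1, a.2.1, floorNat a.2.2.2.2.2.2.1,
      a.2.2.2.1 + d0, a.2.2.2.2.1 + d1, a.2.2.2.2.2.1 + d2,
      a.2.2.2.2.2.2.2.1, a.2.2.2.2.2.2.2.2.1, a.2.2.2.2.2.2.2.2.2))
    (pr_pair hX (pr_pair hi (pr_pair (primrec_floorNat.comp ht)
      (pr_pair (pr_add hm0 (pr_const _)) (pr_pair (pr_add hm1 (pr_const _))
        (pr_pair (pr_add hm2 (pr_const _)) hx))))))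

theorem approx_time {d : ℕ} : Approx (fun a : FullIn =>
    (4 : ℝ) ^ (a.2.2.1 + d) * iteratedDeriv (a.2.2.1 + d) stepB (timeArg a.2.2.2.2.2.2.1).val) := by
  have hn : Primrec fun a : FullIn => a.2.2.1 + d :=
    pr_add (pr_fst (pr_snd (pr_snd pr_id))) (pr_const _)
  have ht : Primrec fun a : FullIn => timeArg a.2.2.2.2.2.2.1 :=
    primrec_timeArg.comp (pr_fst (pr_snd (pr_snd (pr_snd (pr_snd (pr_snd (pr_snd pr_id)))))))
  have h1 : Approx fun a : FullIn => (4 : ℝ) ^ (a.2.2.1 + d) :=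
    ((approx_natC 4).pow hn).congr (fun a => by norm_num)
  exact h1.mul (approx_jet.comp (h := fun a : FullIn =>
    (a.2.2.1 + d, timeArg a.2.2.2.2.2.2.1)) (pr_pair hn ht))

theorem approx_forceP : Approx forceP := by
  unfold forceP
  exact (approx_time (d := 2)).mul (approx_gf_shift (d0 := 0) (d1 := 0) (d2 := 0))

theorem approx_forceQ : Approx forceQ := by
  unfold forceQ
  exact (approx_time (d := 1)).mul (((approx_gf_shift (d0 := 2) (d1 := 0) (d2 := 0)).add
    (approx_gf_shift (d0 := 0) (d1 := 2) (d2 := 0))).add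
    (approx_gf_shift (d0 := 0) (d1 := 0) (d2 := 2)))

/-- The mixed derivatives of the force in terms of the approximated quantities. -/
theorem force_mixed_eq (ν : ℝ) {M : Machine} (hM : M.Valid) (w : List ℕ) (c : Fin 3)
    (n m₀ m₁ m₂ : ℕ) (t x₀ x₁ x₂ : RatCode) (ht : 0 ≤ t.val) :
    mixedDeriv n m₀ m₁ m₂ (fun s y => forceF ν (shearOf M w) s y c) t.val ![x₀.val, x₁.val, x₂.val]
      = forceP ((M, w), ((c : ℕ), n, m₀, m₁, m₂, t, x₀, x₁, x₂))
        - ν * forceQ ((M, w), ((c : ℕ), n, m₀, m₁, m₂, t, x₀, x₁, x₂)) := by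
  have hds := shearOf_valid hM w
  rw [force_mixed ν hds]
  unfold two one forceP forceQ
  simp only
  have hfl : ⌊t.val⌋ = ((floorNat t : ℕ) : ℤ) := by
    rw [floor_cast_eq ht, floorNat_eq ht]
  rw [hfl]
  have e1 : deriv^[n] (deriv prof) (Int.fract t.val)
      = 4 ^ (n + 2) * iteratedDeriv (n + 2) stepB (timeArg t).val := by
    have : deriv^[n] (deriv prof) = deriv^[n + 1] prof := by
      rw [Function.iterate_succ_apply]
    rw [this, prof_iter_deriv, iterated_step, val_timeArg]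
  have e2 : deriv^[n] (fun τ => -ν * prof τ) (Int.fract t.val)
      = -ν * (4 ^ (n + 1) * iteratedDeriv (n + 1) stepB (timeArg t).val) := by
    rw [iter_deriv_const_mul]
    beta_reduce
    rw [prof_iter_deriv, iterated_step, val_timeArg]
  rw [e1, e2, gf_eq hM]
  have e3 : GLap (shearOf M w) c ![m₀, m₁, m₂] ((floorNat t : ℕ) : ℤ) ![x₀.val, x₁.val, x₂.val]
      = gfJ (M, w) (c : ℕ) (floorNat t) (m₀ + 2) m₁ m₂ x₀ x₁ x₂
        + gfJ (M, w) (c : ℕ) (floorNat t) m₀ (m₁ + 2) m₂ x₀ x₁ x₂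
        + gfJ (M, w) (c : ℕ) (floorNat t) m₀ m₁ (m₂ + 2) x₀ x₁ x₂ := by
    unfold GLap
    rw [Fin.sum_univ_three]
    have i0 : ![m₀, m₁, m₂] + eM 0 + eM 0 = ![m₀ + 2, m₁, m₂] := by
      funext j; fin_cases j <;> simp [eM, Matrix.vecHead, Matrix.vecTail]
    have i1 : ![m₀, m₁, m₂] + eM 1 + eM 1 = ![m₀, m₁ + 2, m₂] := by
      funext j; fin_cases j <;> simp [eM, Matrix.vecHead, Matrix.vecTail]
    have i2 : ![m₀, m₁, m₂] + eM 2 + eM 2 = ![m₀, m₁, m₂ + 2] := by
      funext j; fin_cases j <;> simp [eM, Matrix.vecHead, Matrix.vecTail]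
    rw [i0, i1, i2, gf_eq hM, gf_eq hM, gf_eq hM]
  rw [e3]
  ring

/-- The compiled forces are effective, uniformly in the machine and the input. -/
theorem force_effective {ν : ℝ} (hc : IsComputableReal ν) :
    ∃ compile : Machine × List ℕ → Nat.Partrec.Code, Computable compile ∧
      ∀ M w, M.Valid → Computes (compile (M, w)) (forceF ν (shearOf M w)) := by
  obtain ⟨compile, hcomp, h⟩ := compile_of_approx hc approx_forceP approx_forceQ
  refine ⟨compile, hcomp, fun M w hM i n m₀ m₁ m₂ t x₀ x₁ x₂ k ht => ?_⟩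
  obtain ⟨q, h1, h2⟩ := h (M, w) (i : ℕ) n m₀ m₁ m₂ t x₀ x₁ x₂ k
  refine ⟨q, h1, ?_⟩
  rw [force_mixed_eq ν hM w i n m₀ m₁ m₂ t x₀ x₁ x₂ ht]
  exact h2

end Vale.Agent.Lib.P113
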