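import Vale.Agent.Lib.P113.Flow

/-!
The velocity field and the force made of shear slots: smoothness, the Navier-Stokes equations,
mixed derivatives of the force.
-/

namespace Vale.Agent.Lib.P113

open Set Filter Topology MeasureTheory
open scoped ContDiff

/-- The function of slot `k`, component `c`, of multi-order `m`. -/
noncomputable def GF (ds : ℕ → Shear) (c : Fin 3) (m : Fin 3 → ℕ) (k : ℤ) (x : R3) : ℝ :=
  if k < 0 ∨ (ds k.toNat).i ≠ c then 0 else (ds k.toNat).TM m x

/-- The Laplacian of `GF`. -/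
noncomputable def GLap (ds : ℕ → Shear) (c : Fin 3) (m : Fin 3 → ℕ) (k : ℤ) (x : R3) : ℝ :=
  ∑ j : Fin 3, GF ds c (m + eM j + eM j) k x

/-- The velocity field. -/
noncomputable def velocity (ds : ℕ → Shear) (t : ℝ) (x : R3) : R3 :=
  fun c => one prof (GF ds c 0) t x

/-- The force. -/
noncomputable def forceF (ν : ℝ) (ds : ℕ → Shear) (t : ℝ) (x : R3) : R3 :=
  fun c => one (deriv prof) (GF ds c 0) t x + one (fun τ => -ν * prof τ) (GLap ds c 0) t x

section

variable {ds : ℕ → Shear}

theorem GF_smooth (hds : ∀ k, (ds k).Valid) (c : Fin 3) (m : Fin 3 → ℕ) (k : ℤ) :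
    ContDiff ℝ ∞ (GF ds c m k) := by
  unfold GF
  by_cases h : k < 0 ∨ (ds k.toNat).i ≠ c
  · simp only [h, if_true]
    exact contDiff_const
  · simp only [h, if_false]
    exact (ds k.toNat).TM_smooth (hds _) m

theorem GLap_smooth (hds : ∀ k, (ds k).Valid) (c : Fin 3) (m : Fin 3 → ℕ) (k : ℤ) :
    ContDiff ℝ ∞ (GLap ds c m k) := by
  unfold GLap
  apply ContDiff.sum
  intro j _
  exact GF_smooth hds c _ k

theorem GF_deriv (hds : ∀ k, (ds k).Valid) (c : Fin 3) (m : Fin 3 → ℕ) (j : Fin 3) (k : ℤ) (x : R3) :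
    HasDerivAt (fun s => GF ds c m k (Function.update x j s)) (GF ds c (m + eM j) k x) (x j) := by
  unfold GF
  by_cases h : k < 0 ∨ (ds k.toNat).i ≠ c
  · simp only [h, if_true]
    exact hasDerivAt_const _ _
  · simp only [h, if_false]
    exact (ds k.toNat).TM_deriv (hds _) m j x

theorem GLap_deriv (hds : ∀ k, (ds k).Valid) (c : Fin 3) (m : Fin 3 → ℕ) (j : Fin 3) (k : ℤ) (x : R3) :
    HasDerivAt (fun s => GLap ds c m k (Function.update x j s)) (GLap ds c (m + eM j) k x) (x j) := by
  unfold GLap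
  apply HasDerivAt.fun_sum
  intro j' _
  have h1 := GF_deriv hds c (m + eM j' + eM j') j k x
  have e : m + eM j' + eM j' + eM j = m + eM j + eM j' + eM j' := by abel
  rwa [e] at h1

theorem GF_periodic (hds : ∀ k, (ds k).Valid) (c : Fin 3) (m : Fin 3 → ℕ) (k : ℤ) (x : R3)
    (z : Fin 3 → ℤ) : GF ds c m k (fun i => x i + (z i : ℝ)) = GF ds c m k x := by
  unfold GF
  by_cases h : k < 0 ∨ (ds k.toNat).i ≠ c
  · simp only [h, if_true]
  · simp only [h, if_false]
    exact (ds k.toNat).TM_periodic (hds _) m x z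

theorem GLap_periodic (hds : ∀ k, (ds k).Valid) (c : Fin 3) (m : Fin 3 → ℕ) (k : ℤ) (x : R3)
    (z : Fin 3 → ℤ) : GLap ds c m k (fun i => x i + (z i : ℝ)) = GLap ds c m k x := by
  unfold GLap
  apply Finset.sum_congr rfl
  intro j _
  exact GF_periodic hds c _ k x z

theorem velocity_smooth (hds : ∀ k, (ds k).Valid) :
    ContDiff ℝ ∞ (fun q : ℝ × R3 => velocity ds q.1 q.2) := by
  rw [contDiff_pi]
  intro c
  exact one_smooth adm_prof (GF_smooth hds c 0)

theorem adm_nu (ν : ℝ) : Adm (fun τ => -ν * prof τ) := adm_const_mul adm_prof _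

theorem force_smooth (ν : ℝ) (hds : ∀ k, (ds k).Valid) :
    ContDiff ℝ ∞ (fun q : ℝ × R3 => forceF ν ds q.1 q.2) := by
  rw [contDiff_pi]
  intro c
  exact (one_smooth adm_prof.der (GF_smooth hds c 0)).add
    (one_smooth (adm_nu ν) (GLap_smooth hds c 0))

theorem velocity_periodic (hds : ∀ k, (ds k).Valid) (t : ℝ) : SpacePeriodic (velocity ds t) := by
  intro x z
  funext c
  unfold velocity one
  rw [GF_periodic hds]

theorem force_periodic (ν : ℝ) (hds : ∀ k, (ds k).Valid) (t : ℝ) : SpacePeriodic (forceF ν ds t) := by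
  intro x z
  funext c
  unfold forceF one
  rw [GF_periodic hds, GLap_periodic hds]

/-! ### Derivatives along coordinates -/

theorem pd_eq_of_hasDeriv {g : R3 → ℝ} (hg : Differentiable ℝ g) {j : Fin 3} {x : R3} {v : ℝ}
    (h : HasDerivAt (fun s => g (Function.update x j s)) v (x j)) : pd j g x = v := by
  have h1 : HasDerivAt (Function.update x j) (Pi.single j 1) (x j) := hasDerivAt_update x j (x j)
  have h3 : HasFDerivAt g (fderiv ℝ g x) (Function.update x j (x j)) := by
    rw [Function.update_eq_self]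
    exact (hg x).hasFDerivAt
  have h2 : HasDerivAt (fun s => g (Function.update x j s)) (fderiv ℝ g x (Pi.single j 1)) (x j) :=
    h3.comp_hasDerivAt (x j) h1
  exact h2.unique h

theorem pd_one {t : ℝ} {P P' : ℤ → R3 → ℝ} (a : ℝ → ℝ) (hP : ∀ k, ContDiff ℝ ∞ (P k)) {j : Fin 3}
    (hd : ∀ k x, HasDerivAt (fun s => P k (Function.update x j s)) (P' k x) (x j)) (x : R3) :
    pd j (fun y => one a P t y) x = one a P' t x := by
  apply pd_eq_of_hasDeriv
  · exact (contDiff_const.mul (hP _)).differentiable (by simp)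
  · exact one_hasDeriv_x a hd t x

theorem pd_velocity (hds : ∀ k, (ds k).Valid) (c j : Fin 3) (m : Fin 3 → ℕ) (t : ℝ) (x : R3) :
    pd j (fun y => one prof (GF ds c m) t y) x = one prof (GF ds c (m + eM j)) t x :=
  pd_one prof (GF_smooth hds c m) (GF_deriv hds c m j) x

theorem one_transport_term (hds : ∀ k, (ds k).Valid) (c j : Fin 3) (t : ℝ) (x : R3) :
    one prof (GF ds j 0) t x * one prof (GF ds c (0 + eM j)) t x = 0 := by
  unfold one GF
  by_cases h : ⌊t⌋ < 0
  · simp [h]
  by_cases h2 : (ds ⌊t⌋.toNat).i = j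
  · by_cases h3 : (ds ⌊t⌋.toNat).i = c
    · have h4 : (ds ⌊t⌋.toNat).TM (0 + eM j) x = 0 := by
        unfold Shear.TM
        rw [h2, add_eM_self]
        simp
      simp [h, h3, h4]
      subst h3
      simp_all
    · simp [h, h3]
  · simp [h, h2]

theorem one_add_sum (a : ℝ → ℝ) (P : Fin 3 → ℤ → R3 → ℝ) (t : ℝ) (x : R3) :
    ∑ j, one a (P j) t x = a (Int.fract t) * ∑ j, P j ⌊t⌋ x := by
  unfold one
  rw [Finset.mul_sum]

/-- The velocity field and zero pressure solve the system with force `forceF`. -/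
theorem velocity_isClassical (ν : ℝ) (hds : ∀ k, (ds k).Valid) {T : ℝ} (hT : 0 < T) :
    IsClassicalSolution ν T (forceF ν ds) (velocity ds) (fun _ _ => 0) := by
  have hsm := velocity_smooth hds
  have hslice : ∀ t, ContDiff ℝ ∞ (velocity ds t) := fun t =>
    hsm.comp (contDiff_const.prodMk contDiff_id)
  have hfd : ∀ {G : Type} [NormedAddCommGroup G] [NormedSpace ℝ G] {F : ℝ → R3 → G},
      ContDiff ℝ ∞ (fun q : ℝ × R3 => F q.1 q.2) →
      ContDiff ℝ ∞ (fun q : ℝ × R3 => fderiv ℝ (F q.1) q.2) := by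
    intro G _ _ F h
    have h2 : ContDiff ℝ ∞ (Function.uncurry (fun (q : ℝ × R3) (y : R3) => F q.1 y)) :=
      h.comp ((contDiff_fst.comp contDiff_fst).prodMk contDiff_snd)
    exact ContDiff.fderiv h2 contDiff_snd (by simp)
  have htimeH : ∀ (x : R3) (t : ℝ),
      HasDerivAt (fun s => velocity ds s x) (fun c => one (deriv prof) (GF ds c 0) t x) t := by
    intro x t
    rw [hasDerivAt_pi]
    intro c
    exact one_hasDeriv_t adm_prof _ t x
  have htimeW : ∀ (x : R3), ∀ t ∈ Icc 0 T,
      derivWithin (fun s => velocity ds s x) (Icc 0 T) t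
        = fun c => one (deriv prof) (GF ds c 0) t x := by
    intro x t ht
    exact (htimeH x t).hasDerivWithinAt.derivWithin (uniqueDiffOn_Icc hT t ht)
  have htimeC : ∀ (x : R3) (c : Fin 3), ∀ t ∈ Icc 0 T,
      derivWithin (fun s => velocity ds s x c) (Icc 0 T) t
        = one (deriv prof) (GF ds c 0) t x := by
    intro x c t ht
    exact (one_hasDeriv_t adm_prof _ t x).hasDerivWithinAt.derivWithin (uniqueDiffOn_Icc hT t ht)
  refine
    { periodic_u := fun t _ => velocity_periodic hds t
      periodic_p := fun t _ x k => rfl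
      contDiff_u := fun t _ => by exact_mod_cast contDiff_infty.1 (hslice t) 2
      contDiff_p := fun t _ => contDiff_const
      continuous_u := hsm.continuous.continuousOn
      continuous_Du := (hfd hsm).continuous.continuousOn
      continuous_D2u := (hfd (F := fun t => fderiv ℝ (velocity ds t)) (hfd hsm)).continuous.continuousOn
      continuous_p := continuous_const.continuousOn
      continuous_Dp := by
        simp only [fderiv_fun_const]
        exact continuous_const.continuousOn
      differentiable_time := fun x t _ => (htimeH x t).differentiableAt.differentiableWithinAt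
      continuous_time := ?_
      momentum := ?_
      divergence_free := ?_
      initial := ?_
      mean_zero := by simp }
  · have h1 : ContDiff ℝ ∞ (fun q : ℝ × R3 => (fun c => one (deriv prof) (GF ds c 0) q.1 q.2 : R3)) := by
      rw [contDiff_pi]
      intro c
      exact one_smooth adm_prof.der (GF_smooth hds c 0)
    refine h1.continuous.continuousOn.congr ?_
    rintro ⟨t, x⟩ ⟨ht, _⟩
    exact htimeW x t ht
  · intro t ht x c
    rw [htimeC x c t ht]
    have h2 : ∑ j, velocity ds t x j * pd j (fun y => velocity ds t y c) x = 0 := by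
      apply Finset.sum_eq_zero
      intro j _
      have : pd j (fun y => velocity ds t y c) x = one prof (GF ds c (0 + eM j)) t x :=
        pd_velocity hds c j 0 t x
      rw [this]
      exact one_transport_term hds c j t x
    have h3 : ∑ j, pd j (pd j (fun y => velocity ds t y c)) x = one prof (GLap ds c 0) t x := by
      have h4 : ∀ j, pd j (fun y => velocity ds t y c)
          = fun y => one prof (GF ds c (0 + eM j)) t y := fun j => by
        funext y
        exact pd_velocity hds c j 0 t y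
      have h5 : ∀ j, pd j (pd j (fun y => velocity ds t y c)) x
          = one prof (GF ds c (0 + eM j + eM j)) t x := fun j => by
        rw [h4 j]
        exact pd_velocity hds c j _ t x
      simp only [h5]
      rw [one_add_sum]
      rfl
    rw [h2, h3]
    simp only [pd, fderiv_fun_const, forceF, one]
    simp
    ring
  · intro t _ x
    have h2 : ∀ j, pd j (fun y => velocity ds t y j) x = one prof (GF ds j (0 + eM j)) t x :=
      fun j => pd_velocity hds j j 0 t x
    simp only [h2]
    apply Finset.sum_eq_zero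
    intro j _
    unfold one GF
    by_cases h : ⌊t⌋ < 0
    · simp [h]
    by_cases h3 : (ds ⌊t⌋.toNat).i = j
    · have h4 : (ds ⌊t⌋.toNat).TM (eM j) x = 0 := by
        unfold Shear.TM
        rw [h3]
        simp [eM]
      simp [h, h3, h4]
    · simp [h, h3]
  · intro x
    funext c
    simp only [velocity, one, Int.fract_zero, Pi.zero_apply]
    rw [prof_zero (Or.inl (by norm_num))]
    simp

theorem velocity_isGlobal (ν : ℝ) (hds : ∀ k, (ds k).Valid) :
    IsGlobalSmoothSolution ν (forceF ν ds) (velocity ds) (fun _ _ => 0) :=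
  ⟨velocity_smooth hds, contDiff_const, fun _ hT => velocity_isClassical ν hds hT⟩

theorem force_isSmooth (ν : ℝ) (hds : ∀ k, (ds k).Valid) : IsSmoothForce (forceF ν ds) :=
  ⟨force_smooth ν hds, force_periodic ν hds⟩

/-! ### Mixed derivatives of the force -/

/-- Two terms. -/
noncomputable def two (a₁ a₂ : ℝ → ℝ) (P Q : ℤ → R3 → ℝ) (t : ℝ) (x : R3) : ℝ :=
  one a₁ P t x + one a₂ Q t x

theorem two_dx {a₁ a₂ : ℝ → ℝ} {P Q : (Fin 3 → ℕ) → ℤ → R3 → ℝ}
    (hP : ∀ m j k x, HasDerivAt (fun s => P m k (Function.update x j s)) (P (m + eM j) k x) (x j))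
    (hQ : ∀ m j k x, HasDerivAt (fun s => Q m k (Function.update x j s)) (Q (m + eM j) k x) (x j))
    (m : Fin 3 → ℕ) (j : Fin 3) :
    dx j (two a₁ a₂ (P m) (Q m)) = two a₁ a₂ (P (m + eM j)) (Q (m + eM j)) := by
  funext t x
  exact ((one_hasDeriv_x a₁ (hP m j) t x).add (one_hasDeriv_x a₂ (hQ m j) t x)).deriv

theorem two_dx_iter {a₁ a₂ : ℝ → ℝ} {P Q : (Fin 3 → ℕ) → ℤ → R3 → ℝ}
    (hP : ∀ m j k x, HasDerivAt (fun s => P m k (Function.update x j s)) (P (m + eM j) k x) (x j))
    (hQ : ∀ m j k x, HasDerivAt (fun s => Q m k (Function.update x j s)) (Q (m + eM j) k x) (x j))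
    (j : Fin 3) (r : ℕ) (m : Fin 3 → ℕ) :
    (dx j)^[r] (two a₁ a₂ (P m) (Q m)) = two a₁ a₂ (P (m + r • eM j)) (Q (m + r • eM j)) := by
  induction r with
  | zero => simp
  | succ r ih =>
    rw [Function.iterate_succ_apply', ih, two_dx hP hQ]
    have : m + r • eM j + eM j = m + (r + 1) • eM j := by
      rw [add_smul, one_smul, add_assoc]
    rw [this]

theorem two_dt_iter {a₁ a₂ : ℝ → ℝ} (h₁ : Adm a₁) (h₂ : Adm a₂) (P Q : ℤ → R3 → ℝ) (n : ℕ) :
    (dt)^[n] (two a₁ a₂ P Q) = two (deriv^[n] a₁) (deriv^[n] a₂) P Q := by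
  induction n with
  | zero => rfl
  | succ n ih =>
    rw [Function.iterate_succ_apply', ih, Function.iterate_succ_apply', Function.iterate_succ_apply']
    funext t x
    exact ((one_hasDeriv_t (h₁.iter n) P t x).add (one_hasDeriv_t (h₂.iter n) Q t x)).deriv

theorem mIndex_eq (m₀ m₁ m₂ : ℕ) :
    (0 : Fin 3 → ℕ) + m₂ • eM 2 + m₁ • eM 1 + m₀ • eM 0 = ![m₀, m₁, m₂] := by
  funext j
  fin_cases j <;> simp [eM]

/-- All mixed derivatives of the force. -/
theorem force_mixed (ν : ℝ) (hds : ∀ k, (ds k).Valid) (c : Fin 3) (n m₀ m₁ m₂ : ℕ) :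
    mixedDeriv n m₀ m₁ m₂ (fun t x => forceF ν ds t x c)
      = two (deriv^[n] (deriv prof)) (deriv^[n] (fun τ => -ν * prof τ))
          (GF ds c ![m₀, m₁, m₂]) (GLap ds c ![m₀, m₁, m₂]) := by
  have hP := fun m j k x => GF_deriv (ds := ds) hds c m j k x
  have hQ := fun m j k x => GLap_deriv (ds := ds) hds c m j k x
  have e0 : (fun t x => forceF ν ds t x c)
      = two (deriv prof) (fun τ => -ν * prof τ) (GF ds c 0) (GLap ds c 0) := rfl
  unfold mixedDeriv
  rw [e0, two_dx_iter hP hQ 2, two_dx_iter hP hQ 1, two_dx_iter hP hQ 0,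
    two_dt_iter adm_prof.der (adm_nu ν), mIndex_eq]

end

end Vale.Agent.Lib.P113
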