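import Vale.Agent.Lib.P113.Bump

/-!
Shear slots: a velocity field that in each unit time slot is a single shear flow.
-/

namespace Vale.Agent.Lib.P113

open Set Filter Topology
open scoped ContDiff

/-- One time slot: a shear in direction `i`, with
`g x = ∑ n < nn, psi (N n) w (x p) * (α n + β n * saw (x l))`. -/
structure Shear where
  i : Fin 3
  p : Fin 3
  l : Fin 3
  w : ℝ
  nn : ℕ
  N : ℕ → ℝ
  α : ℕ → ℝ
  β : ℕ → ℝ

/-- Validity of the data of one slot. -/
structure Shear.Valid (d : Shear) : Prop where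
  hip : d.i ≠ d.p
  hil : d.i ≠ d.l
  hpl : d.p ≠ d.l
  hv : ∀ n < d.nn, PsiValid (d.N n) d.w

theorem fin3_cases (i p l j : Fin 3) (hip : i ≠ p) (hil : i ≠ l) (hpl : p ≠ l) :
    j = i ∨ j = p ∨ j = l := by
  revert i p l j; decide

/-- The first factor of an entry. -/
noncomputable def Shear.B (d : Shear) (n : ℕ) : ℝ → ℝ := psi (d.N n) d.w

/-- The second factor of an entry. -/
noncomputable def Shear.C (d : Shear) (n : ℕ) : ℝ → ℝ := fun s => d.α n + d.β n * saw s

/-- Space derivative of order `a` in `x p` and `b` in `x l`. -/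
noncomputable def Shear.tens (d : Shear) (a b : ℕ) (x : R3) : ℝ :=
  ∑ n ∈ Finset.range d.nn, deriv^[a] (d.B n) (x d.p) * deriv^[b] (d.C n) (x d.l)

/-- The space derivative of multi-order `m` of the shear profile `g`. -/
noncomputable def Shear.TM (d : Shear) (m : Fin 3 → ℕ) (x : R3) : ℝ :=
  if m d.i ≠ 0 then 0 else d.tens (m d.p) (m d.l) x

/-- The shear profile. -/
noncomputable def Shear.g (d : Shear) (x : R3) : ℝ := d.TM 0 x

/-- The unit multi-index. -/
def eM (j : Fin 3) : Fin 3 → ℕ := Pi.single j 1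

theorem Shear.B_smooth {d : Shear} (hd : d.Valid) {n : ℕ} (hn : n < d.nn) :
    ContDiff ℝ ∞ (d.B n) := psi_smooth (hd.hv n hn)

theorem Shear.C_smooth (d : Shear) (n : ℕ) : ContDiff ℝ ∞ (d.C n) :=
  contDiff_const.add (contDiff_const.mul saw_smooth)

theorem proj_smooth (j : Fin 3) : ContDiff ℝ ∞ (fun x : R3 => x j) := contDiff_apply ℝ ℝ j

theorem Shear.tens_smooth {d : Shear} (hd : d.Valid) (a b : ℕ) : ContDiff ℝ ∞ (d.tens a b) := by
  unfold Shear.tens
  apply ContDiff.sum
  intro n hn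
  exact ((smooth_iter_deriv (d.B_smooth hd (Finset.mem_range.1 hn)) a).comp (proj_smooth d.p)).mul
    ((smooth_iter_deriv (d.C_smooth n) b).comp (proj_smooth d.l))

theorem Shear.TM_smooth {d : Shear} (hd : d.Valid) (m : Fin 3 → ℕ) : ContDiff ℝ ∞ (d.TM m) := by
  unfold Shear.TM
  by_cases h : m d.i ≠ 0
  · simp only [h, if_true, ne_eq, not_false_eq_true]
    exact contDiff_const
  · simp only [h, if_false]
    exact d.tens_smooth hd _ _

theorem update_p {d : Shear} (hd : d.Valid) (x : R3) (v : ℝ) :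
    (Function.update x d.i v) d.p = x d.p := by
  simp [Function.update, hd.hip.symm]

theorem update_l {d : Shear} (hd : d.Valid) (x : R3) (v : ℝ) :
    (Function.update x d.i v) d.l = x d.l := by
  simp [Function.update, hd.hil.symm]

theorem Shear.tens_update {d : Shear} (hd : d.Valid) (a b : ℕ) (x : R3) (v : ℝ) :
    d.tens a b (Function.update x d.i v) = d.tens a b x := by
  unfold Shear.tens
  simp only [update_p hd, update_l hd]

theorem Shear.TM_update {d : Shear} (hd : d.Valid) (m : Fin 3 → ℕ) (x : R3) (v : ℝ) :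
    d.TM m (Function.update x d.i v) = d.TM m x := by
  unfold Shear.TM
  rw [d.tens_update hd]

theorem Shear.g_update {d : Shear} (hd : d.Valid) (x : R3) (v : ℝ) :
    d.g (Function.update x d.i v) = d.g x := d.TM_update hd 0 x v

theorem add_eM_self (m : Fin 3 → ℕ) (j : Fin 3) : (m + eM j) j = m j + 1 := by
  simp [eM]

theorem add_eM_other (m : Fin 3 → ℕ) {j k : Fin 3} (h : k ≠ j) : (m + eM j) k = m k := by
  simp [eM, h]

/-- The derivative of the tensor in the coordinate `p`. -/
theorem Shear.tens_deriv_p {d : Shear} (hd : d.Valid) (a b : ℕ) (x : R3) :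
    HasDerivAt (fun s => d.tens a b (Function.update x d.p s)) (d.tens (a + 1) b x) (x d.p) := by
  unfold Shear.tens
  have h : ∀ s, (Function.update x d.p s) d.l = x d.l := fun s => by
    simp [Function.update, hd.hpl.symm]
  simp only [Function.update_self, h]
  apply HasDerivAt.fun_sum
  intro n hn
  have h1 := (smooth_iter_deriv (d.B_smooth hd (Finset.mem_range.1 hn)) a).differentiable (by simp)
    (x d.p)
  have h2 := h1.hasDerivAt.mul_const (deriv^[b] (d.C n) (x d.l))
  rw [← Function.iterate_succ_apply' deriv a] at h2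
  exact h2

/-- The derivative of the tensor in the coordinate `l`. -/
theorem Shear.tens_deriv_l {d : Shear} (hd : d.Valid) (a b : ℕ) (x : R3) :
    HasDerivAt (fun s => d.tens a b (Function.update x d.l s)) (d.tens a (b + 1) x) (x d.l) := by
  unfold Shear.tens
  have h : ∀ s, (Function.update x d.l s) d.p = x d.p := fun s => by
    simp [Function.update, hd.hpl]
  simp only [Function.update_self, h]
  apply HasDerivAt.fun_sum
  intro n _
  have h1 := (smooth_iter_deriv (d.C_smooth n) b).differentiable (by simp) (x d.l)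
  have h2 := h1.hasDerivAt.const_mul (deriv^[a] (d.B n) (x d.p))
  rw [← Function.iterate_succ_apply' deriv b] at h2
  exact h2

/-- The derivative of `TM` along any coordinate. -/
theorem Shear.TM_deriv {d : Shear} (hd : d.Valid) (m : Fin 3 → ℕ) (j : Fin 3) (x : R3) :
    HasDerivAt (fun s => d.TM m (Function.update x j s)) (d.TM (m + eM j) x) (x j) := by
  rcases fin3_cases d.i d.p d.l j hd.hip hd.hil hd.hpl with rfl | rfl | rfl
  · have h1 : (fun s => d.TM m (Function.update x d.i s)) = fun _ => d.TM m x := by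
      funext s; exact d.TM_update hd m x s
    have h2 : d.TM (m + eM d.i) x = 0 := by
      unfold Shear.TM
      rw [add_eM_self]
      simp
    rw [h1, h2]
    exact hasDerivAt_const _ _
  · have hi : d.i ≠ d.p := hd.hip
    have hl : d.l ≠ d.p := hd.hpl.symm
    unfold Shear.TM
    rw [add_eM_other m hi, add_eM_self, add_eM_other m hl]
    by_cases h : m d.i ≠ 0
    · simp only [h, if_true, ne_eq, not_false_eq_true]
      exact hasDerivAt_const _ _
    · simp only [h, if_false]
      exact d.tens_deriv_p hd _ _ x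
  · have hi : d.i ≠ d.l := hd.hil
    have hp : d.p ≠ d.l := hd.hpl
    unfold Shear.TM
    rw [add_eM_other m hi, add_eM_self, add_eM_other m hp]
    by_cases h : m d.i ≠ 0
    · simp only [h, if_true, ne_eq, not_false_eq_true]
      exact hasDerivAt_const _ _
    · simp only [h, if_false]
      exact d.tens_deriv_l hd _ _ x

/-- Periodicity of the tensors. -/
theorem Shear.B_periodic {d : Shear} (hd : d.Valid) {n : ℕ} (hn : n < d.nn) (a : ℕ) (s : ℝ) (k : ℤ) :
    deriv^[a] (d.B n) (s + k) = deriv^[a] (d.B n) s := by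
  unfold Shear.B
  rw [psi_iter_deriv (hd.hv n hn), psi_iter_deriv (hd.hv n hn), cen_add_int]

theorem Shear.C_iter (d : Shear) (n b : ℕ) :
    deriv^[b] (d.C n) = fun s => (if b = 0 then d.α n else 0) + d.β n * deriv^[b] saw s := by
  induction b with
  | zero =>
    funext s
    simp [Shear.C]
  | succ b ih =>
    rw [Function.iterate_succ_apply', ih]
    funext s
    have h1 := (smooth_iter_deriv saw_smooth b).differentiable (by simp) s
    have h2 := (h1.hasDerivAt.const_mul (d.β n)).const_add (if b = 0 then d.α n else 0)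
    rw [h2.deriv, Function.iterate_succ_apply']
    simp

theorem Shear.C_periodic (d : Shear) (n b : ℕ) (s : ℝ) (k : ℤ) :
    deriv^[b] (d.C n) (s + k) = deriv^[b] (d.C n) s := by
  rw [d.C_iter]
  simp only [saw_iter_deriv, cen_add_int]

theorem Shear.tens_periodic {d : Shear} (hd : d.Valid) (a b : ℕ) (x : R3) (k : Fin 3 → ℤ) :
    d.tens a b (fun i => x i + (k i : ℝ)) = d.tens a b x := by
  unfold Shear.tens
  apply Finset.sum_congr rfl
  intro n hn
  rw [d.B_periodic hd (Finset.mem_range.1 hn), d.C_periodic]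

theorem Shear.TM_periodic {d : Shear} (hd : d.Valid) (m : Fin 3 → ℕ) (x : R3) (k : Fin 3 → ℤ) :
    d.TM m (fun i => x i + (k i : ℝ)) = d.TM m x := by
  unfold Shear.TM
  rw [d.tens_periodic hd]

/-! ### Time slots -/

/-- A time profile vanishing near the ends of the unit interval. -/
def Adm (a : ℝ → ℝ) : Prop :=
  ContDiff ℝ ∞ a ∧ ∀ τ, τ < 1 / 8 ∨ 7 / 8 < τ → a τ = 0

theorem adm_open : IsOpen {τ : ℝ | τ < 1 / 8 ∨ 7 / 8 < τ} :=
  (isOpen_lt continuous_id continuous_const).union (isOpen_lt continuous_const continuous_id)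

theorem Adm.der {a : ℝ → ℝ} (h : Adm a) : Adm (deriv a) :=
  ⟨(contDiff_infty_iff_deriv.1 h.1).2, iter_deriv_zero_of_open adm_open h.2 1⟩

theorem Adm.iter {a : ℝ → ℝ} (h : Adm a) (n : ℕ) : Adm (deriv^[n] a) := by
  induction n with
  | zero => exact h
  | succ n ih =>
    rw [Function.iterate_succ_apply']
    exact ih.der

theorem adm_prof : Adm prof := ⟨prof_smooth, fun _ h => prof_zero h⟩

theorem adm_const_mul {a : ℝ → ℝ} (h : Adm a) (c : ℝ) : Adm (fun τ => c * a τ) :=
  ⟨contDiff_const.mul h.1, fun τ hτ => by simp [h.2 τ hτ]⟩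

/-- One term: a time profile times a slot dependent function of space. -/
noncomputable def one (a : ℝ → ℝ) (P : ℤ → R3 → ℝ) (t : ℝ) (x : R3) : ℝ :=
  a (Int.fract t) * P ⌊t⌋ x

theorem one_local {a : ℝ → ℝ} (h : Adm a) (P : ℤ → R3 → ℝ) (t₀ t : ℝ) (ht : |t - t₀| < 1 / 8)
    (x : R3) : one a P t x = a (t - ⌊t₀⌋) * P ⌊t₀⌋ x := by
  unfold one
  set k := ⌊t₀⌋ with hk
  have h1 : (k : ℝ) ≤ t₀ := Int.floor_le _
  have h2 : t₀ < k + 1 := Int.lt_floor_add_one _
  obtain ⟨h3, h4⟩ := abs_lt.1 ht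
  by_cases c1 : (k : ℝ) ≤ t
  · by_cases c2 : t < k + 1
    · have e : ⌊t⌋ = k := Int.floor_eq_iff.2 ⟨c1, c2⟩
      have e2 : Int.fract t = t - k := by
        unfold Int.fract; rw [e]
      rw [e, e2]
    · have e : ⌊t⌋ = k + 1 := Int.floor_eq_iff.2 ⟨by push_cast; linarith, by push_cast; linarith⟩
      have e2 : Int.fract t = t - (k + 1) := by
        unfold Int.fract; rw [e]; push_cast; ring
      rw [e2, h.2 _ (Or.inl (by linarith)), h.2 _ (Or.inr (by linarith))]
      simp
  · have e : ⌊t⌋ = k - 1 := Int.floor_eq_iff.2 ⟨by push_cast; linarith, by push_cast; linarith⟩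
    have e2 : Int.fract t = t - (k - 1) := by
      unfold Int.fract; rw [e]; push_cast; ring
    rw [e2, h.2 _ (Or.inr (by linarith)), h.2 _ (Or.inl (by linarith))]
    simp

theorem eventually_near (t₀ : ℝ) : ∀ᶠ t in 𝓝 t₀, |t - t₀| < 1 / 8 := by
  have : Metric.ball t₀ (1 / 8) ∈ 𝓝 t₀ := Metric.ball_mem_nhds _ (by norm_num)
  filter_upwards [this] with t ht
  simpa [Metric.mem_ball, Real.dist_eq] using ht

theorem fract_eq_sub_floor (t : ℝ) : Int.fract t = t - ⌊t⌋ := rfl

theorem one_hasDeriv_t {a : ℝ → ℝ} (h : Adm a) (P : ℤ → R3 → ℝ) (t : ℝ) (x : R3) :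
    HasDerivAt (fun s => one a P s x) (one (deriv a) P t x) t := by
  have e1 : (fun s => one a P s x) =ᶠ[𝓝 t] fun s => a (s - ⌊t⌋) * P ⌊t⌋ x := by
    filter_upwards [eventually_near t] with s hs
    exact one_local h P t s hs x
  have e2 : HasDerivAt (fun s => a (s - (⌊t⌋ : ℝ))) (deriv a (t - ⌊t⌋)) t := by
    have h1 := (h.1.differentiable (by simp) (t - ⌊t⌋)).hasDerivAt
    exact h1.comp_sub_const t _
  have e3 := e2.mul_const (P ⌊t⌋ x)
  exact (e3.congr_of_eventuallyEq e1)

theorem one_iter_dt {a : ℝ → ℝ} (h : Adm a) (P : ℤ → R3 → ℝ) (n : ℕ) :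
    (dt)^[n] (one a P) = one (deriv^[n] a) P := by
  induction n generalizing a with
  | zero => rfl
  | succ n ih =>
    rw [Function.iterate_succ_apply]
    have e : dt (one a P) = one (deriv a) P := by
      funext t x
      exact (one_hasDeriv_t h P t x).deriv
    rw [e, ih h.der]
    rfl

theorem one_smooth {a : ℝ → ℝ} (h : Adm a) {P : ℤ → R3 → ℝ} (hP : ∀ k, ContDiff ℝ ∞ (P k)) :
    ContDiff ℝ ∞ (fun q : ℝ × R3 => one a P q.1 q.2) := by
  rw [contDiff_iff_contDiffAt]
  rintro ⟨t₀, x₀⟩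
  have e1 : (fun q : ℝ × R3 => one a P q.1 q.2) =ᶠ[𝓝 (t₀, x₀)]
      fun q => a (q.1 - ⌊t₀⌋) * P ⌊t₀⌋ q.2 := by
    have h0 : ∀ᶠ q : ℝ × R3 in 𝓝 (t₀, x₀), |q.1 - t₀| < 1 / 8 :=
      (continuous_fst.tendsto (t₀, x₀)).eventually (eventually_near t₀)
    filter_upwards [h0] with q hq
    exact one_local h P t₀ q.1 hq q.2
  have e2 : ContDiff ℝ ∞ (fun q : ℝ × R3 => a (q.1 - ⌊t₀⌋) * P ⌊t₀⌋ q.2) :=
    (h.1.comp (contDiff_fst.sub contDiff_const)).mul ((hP _).comp contDiff_snd)
  exact e2.contDiffAt.congr_of_eventuallyEq e1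

theorem one_hasDeriv_x (a : ℝ → ℝ) {P P' : ℤ → R3 → ℝ} {j : Fin 3}
    (hP : ∀ k x, HasDerivAt (fun s => P k (Function.update x j s)) (P' k x) (x j)) (t : ℝ) (x : R3) :
    HasDerivAt (fun s => one a P t (Function.update x j s)) (one a P' t x) (x j) :=
  (hP ⌊t⌋ x).const_mul _

end Vale.Agent.Lib.P113
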