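import Vale.Agent.Lib.P113.Tables

/-!
Geometry of the particle path: digit expansions, evaluation of the shear profiles on zones.
-/

namespace Vale.Agent.Lib.P113

open Machine

/-- The value of a digit expansion in base `B`. -/
noncomputable def num (B : ℝ) : List ℕ → ℝ
  | [] => 0
  | d :: L => ((d : ℝ) + num B L) / B

theorem num_nil (B : ℝ) : num B [] = 0 := rfl

theorem num_cons (B : ℝ) (d : ℕ) (L : List ℕ) : num B (d :: L) = ((d : ℝ) + num B L) / B := rfl

theorem num_nonneg {B : ℝ} (hB : 0 < B) (L : List ℕ) : 0 ≤ num B L := by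
  induction L with
  | nil => simp [num]
  | cons d L ih =>
    rw [num_cons]
    positivity

theorem num_le {B D : ℝ} (hB : B = 2 * D + 2) (hD : 0 ≤ D) {L : List ℕ}
    (hL : ∀ d ∈ L, (d : ℝ) ≤ D) : num B L ≤ 1 / 2 := by
  induction L with
  | nil => simp [num]
  | cons d L ih =>
    rw [num_cons, div_le_iff₀ (by linarith)]
    have h1 := ih (fun e he => hL e (by simp [he]))
    have h2 := hL d (by simp)
    linarith

theorem num_append {B : ℝ} (hB : B ≠ 0) (L L' : List ℕ) :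
    num B (L ++ L') = num B L + num B L' / B ^ L.length := by
  induction L with
  | nil => simp [num]
  | cons d L ih =>
    simp only [List.cons_append, num_cons, ih, List.length_cons]
    field_simp
    ring

theorem numN_append (B : ℕ) (L : List ℕ) (d : ℕ) : numN B (L ++ [d]) = numN B L * B + d := by
  simp [numN, List.foldl_append]

theorem numN_val {B : ℕ} (hB : 0 < B) (L : List ℕ) :
    (numN B L : ℝ) / (B : ℝ) ^ L.length = num (B : ℝ) L := by
  have hB' : (B : ℝ) ≠ 0 := by positivity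
  induction L using List.reverseRecOn with
  | nil => simp [numN, num]
  | append_singleton L d ih =>
    rw [num_append hB', ← ih, numN_append]
    simp only [List.length_append, List.length_cons, List.length_nil, num]
    push_cast
    field_simp
    ring

/-- Evaluation of a shear profile on a zone. -/
theorem g_eval (d : Shear) (x : R3) {n₀ : ℕ} (hn₀ : n₀ < d.nn) (hw : 0 < d.w)
    (h1 : d.w * d.N n₀ ≤ x d.p) (h2 : x d.p ≤ d.w * (d.N n₀ + 1 / 2))
    (h3 : -(1 / 4) ≤ x d.p) (h4 : x d.p ≤ 1 / 4)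
    (hsep : ∀ n < d.nn, n ≠ n₀ → d.N n + 1 ≤ d.N n₀ ∨ d.N n₀ + 1 ≤ d.N n)
    (hl1 : -(1 / 4) ≤ x d.l) (hl2 : x d.l ≤ 1 / 4) :
    d.g x = d.α n₀ + d.β n₀ * x d.l := by
  have hc : cen (x d.p) = x d.p := cen_of_small (by linarith) (by linarith)
  unfold Shear.g Shear.TM
  simp only [Pi.zero_apply, ne_eq, not_true_eq_false, if_false]
  unfold Shear.tens
  rw [Finset.sum_eq_single n₀]
  · simp only [Function.iterate_zero, id]
    unfold Shear.B Shear.C
    rw [psi_one hw (by rw [hc]; exact h1) (by rw [hc]; exact h2), saw_eq hl1 hl2]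
    ring
  · intro n hn hne
    simp only [Function.iterate_zero, id, Shear.B]
    rw [psi_zero_of_index hw (by rw [hc]; exact h1) (by rw [hc]; exact h2)
      (hsep n (Finset.mem_range.1 hn) hne), zero_mul]
  · intro h
    exact absurd (Finset.mem_range.2 hn₀) h

theorem sep_of_inj {f : ℕ → ℕ} {nn : ℕ} (hinj : ∀ m n, m < nn → n < nn → f m = f n → m = n)
    {n₀ : ℕ} (hn₀ : n₀ < nn) (n : ℕ) (hn : n < nn) (hne : n ≠ n₀) :
    ((f n : ℕ) : ℝ) + 1 ≤ (f n₀ : ℕ) ∨ ((f n₀ : ℕ) : ℝ) + 1 ≤ (f n : ℕ) := by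
  have h : f n ≠ f n₀ := fun h => hne (hinj _ _ hn hn₀ h)
  rcases lt_or_gt_of_ne h with h | h
  · left; exact_mod_cast h
  · right; exact_mod_cast h

theorem step0 {d : Shear} (hi : d.i = 0) (x y z : ℝ) :
    stepX d ![x, y, z] = ![x + d.g ![x, y, z], y, z] := by
  unfold stepX
  rw [hi]
  ext j
  fin_cases j <;> simp [Function.update]

theorem step1 {d : Shear} (hi : d.i = 1) (x y z : ℝ) :
    stepX d ![x, y, z] = ![x, y + d.g ![x, y, z], z] := by
  unfold stepX
  rw [hi]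
  ext j
  fin_cases j <;> simp [Function.update]

theorem step2 {d : Shear} (hi : d.i = 2) (x y z : ℝ) :
    stepX d ![x, y, z] = ![x, y, z + d.g ![x, y, z]] := by
  unfold stepX
  rw [hi]
  ext j
  fin_cases j <;> simp [Function.update]

/-- The shear of stage `j`. -/
noncomputable def stageS (M : Machine) (j : ℕ) : Shear where
  i := Fin.ofNat 3 (stageCode M j).1
  p := Fin.ofNat 3 (stageCode M j).2.1
  l := Fin.ofNat 3 (stageCode M j).2.2.1
  w := (stageCode M j).2.2.2.1.val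
  nn := (stageCode M j).2.2.2.2
  N := fun n => (stageEntry M j n).1.val
  α := fun n => (stageEntry M j n).2.1.val
  β := fun n => (stageEntry M j n).2.2.val

theorem shearOf_stage (M : Machine) (w : List ℕ) {k : ℕ} (hk : 3 ≤ k) :
    shearOf M w k = stageS M ((k - 3) % 13) := by
  have h : ¬ k < 3 := by omega
  unfold shearOf stageS slotCode slotEntry
  simp only [h, if_false]

section

variable {M : Machine}

theorem val_neg_quarter : (ratF 0 1 4).val = -(1 / 4) := by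
  rw [val_ratF _ _ (by norm_num)]; norm_num

theorem val_one : (ratF 1 0 1).val = 1 := by
  rw [val_ratF _ _ (by norm_num)]; norm_num

theorem val_zero : (ratF 0 0 1).val = 0 := by
  rw [val_ratF _ _ (by norm_num)]; norm_num

theorem chi_g (d : Shear) (hw : d.w = 1) (hnn : d.nn = 1) (hN : ∀ n, d.N n = -(1 / 4)) (x : R3)
    (hp : |x d.p| ≤ 1 / 4) (hl : |x d.l| ≤ 1 / 4) : d.g x = d.α 0 + d.β 0 * x d.l := by
  obtain ⟨h1, h2⟩ := abs_le.1 hp
  obtain ⟨h3, h4⟩ := abs_le.1 hl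
  apply g_eval d x (by rw [hnn]; norm_num) (by rw [hw]; norm_num)
  · rw [hw, hN]; linarith
  · rw [hw, hN]; linarith
  · exact h1
  · exact h2
  · intro n hn hne
    rw [hnn] at hn
    omega
  · exact h3
  · exact h4

theorem nB_pos_real (hM : M.Valid) : (0 : ℝ) < nB M := by
  have := nB_ge hM
  have h : 0 < nB M := by omega
  exact_mod_cast h

theorem nB_one_le (hM : M.Valid) : 1 ≤ nB M := by
  have := nB_ge hM
  omega

theorem nB_pos : 0 < nB M := by
  unfold nB; omega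

theorem nR_pos (hM : M.Valid) : 0 < nR M := by
  have := nB_ge hM
  unfold nR; positivity

theorem nB_sq_pos : 0 < 8 * nB M ^ 2 := by
  have : 0 < nB M := nB_pos
  positivity

theorem stage0 (x y z : ℝ) (hy : |y| ≤ 1 / 4) (hz : |z| ≤ 1 / 4) :
    stepX (stageS M 0) ![x, y, z] = ![x - z / nB M, y, z] := by
  rw [step0 rfl]
  have h := chi_g (stageS M 0) val_one rfl (fun _ => val_neg_quarter) ![x, y, z] hy hz
  have e1 : (stageS M 0).α 0 = 0 := val_zero
  have e2 : (stageS M 0).β 0 = -1 / nB M := by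
    change (ratF 0 1 (nB M)).val = _
    rw [val_ratF _ _ nB_pos]; norm_num
  have e3 : ![x, y, z] (stageS M 0).l = z := rfl
  rw [h, e1, e2, e3]
  have : x + (0 + -1 / (nB M : ℝ) * z) = x - z / nB M := by ring
  rw [this]

theorem stage1 (hM : M.Valid) (x y z : ℝ) (hy : |y| ≤ 1 / 4) (hx : |x| ≤ 1 / 4) :
    stepX (stageS M 1) ![x, y, z] = ![x, y, z + ((nB M : ℝ) - 1) * x] := by
  rw [step2 rfl]
  have h := chi_g (stageS M 1) val_one rfl (fun _ => val_neg_quarter) ![x, y, z] hy hx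
  have e1 : (stageS M 1).α 0 = 0 := val_zero
  have e2 : (stageS M 1).β 0 = (nB M : ℝ) - 1 := by
    change (ratF (nB M - 1) 0 1).val = _
    rw [val_ratF _ _ (by norm_num), Nat.cast_sub (nB_one_le hM)]; norm_num
  have e3 : ![x, y, z] (stageS M 1).l = x := rfl
  rw [h, e1, e2, e3, zero_add]

theorem stage2 (x y z : ℝ) (hy : |y| ≤ 1 / 4) (hz : |z| ≤ 1 / 4) :
    stepX (stageS M 2) ![x, y, z] = ![x + z, y, z] := by
  rw [step0 rfl]
  have h := chi_g (stageS M 2) val_one rfl (fun _ => val_neg_quarter) ![x, y, z] hy hz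
  have e1 : (stageS M 2).α 0 = 0 := val_zero
  have e2 : (stageS M 2).β 0 = 1 := val_one
  have e3 : ![x, y, z] (stageS M 2).l = z := rfl
  rw [h, e1, e2, e3, zero_add, one_mul]

theorem stage3 (hM : M.Valid) (x y z : ℝ) (hy : |y| ≤ 1 / 4) (hx : |x| ≤ 1 / 4) :
    stepX (stageS M 3) ![x, y, z] = ![x, y, z - ((nB M : ℝ) - 1) / nB M * x] := by
  rw [step2 rfl]
  have h := chi_g (stageS M 3) val_one rfl (fun _ => val_neg_quarter) ![x, y, z] hy hx
  have e1 : (stageS M 3).α 0 = 0 := val_zero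
  have e2 : (stageS M 3).β 0 = -(((nB M : ℝ) - 1) / nB M) := by
    change (ratF 0 (nB M - 1) (nB M)).val = _
    rw [val_ratF _ _ nB_pos, Nat.cast_sub (nB_one_le hM)]; push_cast; ring
  have e3 : ![x, y, z] (stageS M 3).l = x := rfl
  rw [h, e1, e2, e3]
  have : z + (0 + -(((nB M : ℝ) - 1) / nB M) * x) = z - ((nB M : ℝ) - 1) / nB M * x := by ring
  rw [this]

theorem nD_lt_nB_real : (2 : ℝ) * nD M + 2 = nB M := by
  unfold nB; push_cast; ring

theorem zoneH_small (hM : M.Valid) {N : ℕ} (hN : N + 1 ≤ nD M * nB M) {t : ℝ} (ht0 : 0 ≤ t)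
    (ht1 : t ≤ 1 / 2) :
    |((N : ℝ) + t) / (8 * (nB M : ℝ) ^ 2)| ≤ 1 / 4 := by
  have hB := nB_pos_real hM
  have hD : (2 : ℝ) * nD M + 2 = nB M := nD_lt_nB_real
  have hN' : (N : ℝ) + 1 ≤ nD M * nB M := by exact_mod_cast hN
  have hN0 : (0 : ℝ) ≤ N := Nat.cast_nonneg N
  rw [abs_of_nonneg (by positivity), div_le_iff₀ (by positivity)]
  nlinarith

/-- Evaluation on a zone of the history coordinate. -/
theorem zone_g (d : Shear) (hw : d.w = ((1 : ℕ) - (0 : ℕ) : ℝ) / ((8 * nB M ^ 2 : ℕ) : ℝ))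
    (hM : M.Valid)
    (hnn : d.nn = nD M * nK M * nK M) (hN : ∀ n, d.N n = (triNx M n : ℝ)) (x : R3) {n : ℕ}
    (hn : n < nD M * nK M * nK M) {t : ℝ} (ht0 : 0 ≤ t) (ht1 : t ≤ 1 / 2)
    (hz : x d.p = ((triNx M n : ℝ) + t) / (8 * (nB M : ℝ) ^ 2))
    (hl : |x d.l| ≤ 1 / 4) : d.g x = d.α n + d.β n * x d.l := by
  have hB := nB_pos_real hM
  have hw' : d.w = 1 / (8 * (nB M : ℝ) ^ 2) := by
    rw [hw]; push_cast; norm_num
  have hsm := zoneH_small hM (triNx_lt hM hn) ht0 ht1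
  rw [← hz] at hsm
  obtain ⟨h1, h2⟩ := abs_le.1 hsm
  obtain ⟨h3, h4⟩ := abs_le.1 hl
  apply g_eval d x (by rw [hnn]; exact hn) (by rw [hw']; positivity)
  · rw [hw', hN, hz]
    rw [div_mul_eq_mul_div, one_mul]
    apply div_le_div_of_nonneg_right _ (by positivity)
    linarith
  · rw [hw', hN, hz]
    rw [div_mul_eq_mul_div, one_mul]
    apply div_le_div_of_nonneg_right _ (by positivity)
    linarith
  · exact h1
  · exact h2
  · intro m hm hne
    rw [hN, hN]
    exact sep_of_inj (fun a b ha hb h => triNx_inj hM (by rwa [hnn] at ha) (by rwa [hnn] at hb) h)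
      (by rw [hnn]; exact hn) m hm hne
  · exact h3
  · exact h4

theorem bound_N0 {B D K N t R : ℝ} (hB : 128 ≤ B) (hD : 2 * D + 2 = B) (hKD : K ≤ D) (hK0 : 0 ≤ K)
    (hD0 : 0 ≤ D) (hN0 : 0 ≤ N) (ht0 : 0 ≤ t) (ht1 : t ≤ 1 / 2) (hN1 : N + 1 ≤ K * D * B)
    (hR : R = 64 * B ^ 3) : |(N + t) / (R * B)| ≤ 1 / 4 := by
  subst hR
  have hB0 : 0 < B := by linarith
  rw [abs_of_nonneg (by positivity), div_le_iff₀ (by positivity)]
  have h1 : K * D ≤ B * B := by nlinarith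
  have h2 : K * D * B ≤ B * B * B := mul_le_mul_of_nonneg_right h1 hB0.le
  have h3 : B * B * B ≤ 1 / 4 * (64 * B ^ 3 * B) := by
    have : 0 ≤ B ^ 3 := by positivity
    nlinarith
  nlinarith

theorem stage4 (hM : M.Valid) (x y z : ℝ) {h : ℕ} (hh : h < nD M) {t : ℝ} (ht0 : 0 ≤ t)
    (ht1 : t ≤ 1 / 2) (hz : z = ((h : ℝ) + t) / (8 * (nB M : ℝ) ^ 2)) (hy : |y| ≤ 1 / 4) :
    stepX (stageS M 4) ![x, y, z] = ![x + (nK M : ℝ) * h / nR M, y, z] := by
  have hB := nB_pos_real hM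
  have hb2 := nB_ge hM
  rw [step0 rfl]
  have hw' : (stageS M 4).w = 1 / (8 * (nB M : ℝ) ^ 2) := by
    change (ratF 1 0 (8 * nB M ^ 2)).val = _
    rw [val_ratF _ _ nB_sq_pos]; push_cast; norm_num
  have hN : ∀ n, (stageS M 4).N n = (n : ℝ) := by
    intro n
    change (ratF n 0 1).val = _
    rw [val_ratF _ _ (by norm_num)]; norm_num
  have hsm := zoneH_small (N := h) hM (by
    have : nD M * 1 ≤ nD M * nB M := Nat.mul_le_mul le_rfl (nB_one_le hM)
    omega) ht0 ht1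
  rw [← hz] at hsm
  obtain ⟨h1, h2⟩ := abs_le.1 hsm
  obtain ⟨h3, h4⟩ := abs_le.1 hy
  have hg := g_eval (stageS M 4) ![x, y, z] (n₀ := h) hh (by rw [hw']; positivity)
    (by
      rw [hw', hN]
      change _ ≤ z
      rw [hz, div_mul_eq_mul_div, one_mul]
      apply div_le_div_of_nonneg_right _ (by positivity)
      linarith)
    (by
      rw [hw', hN]
      change z ≤ _
      rw [hz, div_mul_eq_mul_div, one_mul]
      apply div_le_div_of_nonneg_right _ (by positivity)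
      linarith)
    h1 h2
    (by
      intro n hn hne
      rw [hN, hN]
      exact sep_of_inj (f := id) (fun a b _ _ h => h) hh n hn hne)
    h3 h4
  have e1 : (stageS M 4).α h = (nK M : ℝ) * h / nR M := by
    change (ratF (nK M * h) 0 (nR M)).val = _
    rw [val_ratF _ _ (nR_pos hM)]; push_cast; norm_num
  have e2 : (stageS M 4).β h = 0 := val_zero
  rw [hg, e1, e2]
  simp

theorem stage5 (hM : M.Valid) (x y z : ℝ) {n : ℕ} (hn : n < nD M * nK M * nK M) {t : ℝ}
    (ht0 : 0 ≤ t) (ht1 : t ≤ 1 / 2)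
    (hx : x = ((triN0 M n : ℝ) + t) / ((nR M : ℝ) * nB M)) (hy : |y| ≤ 1 / 4) :
    stepX (stageS M 5) ![x, y, z] = ![x, y, z + (triH' M n : ℝ) / (8 * nB M)] := by
  have hB := nB_pos_real hM
  have hb2 := nB_ge hM
  have hRB : 0 < nR M * nB M := Nat.mul_pos (nR_pos hM) nB_pos
  have hR : (0 : ℝ) < nR M := by exact_mod_cast nR_pos hM
  rw [step2 rfl]
  have hw' : (stageS M 5).w = 1 / ((nR M : ℝ) * nB M) := by
    change (ratF 1 0 (nR M * nB M)).val = _
    rw [val_ratF _ _ hRB]; push_cast; norm_num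
  have hN : ∀ n, (stageS M 5).N n = (triN0 M n : ℝ) := by
    intro n
    change (ratF (triN0 M n) 0 1).val = _
    rw [val_ratF _ _ (by norm_num)]; norm_num
  have hsm : |x| ≤ 1 / 4 := by
    have hN1 : ((triN0 M n : ℕ) : ℝ) + 1 ≤ nK M * nD M * nB M := by exact_mod_cast triN0_lt hM hn
    have hKD : (nK M : ℝ) ≤ nD M := by exact_mod_cast nK_le_nD hM
    have hD : (2 : ℝ) * nD M + 2 = nB M := nD_lt_nB_real
    have hD0 : (0 : ℝ) ≤ nD M := Nat.cast_nonneg _
    have hK0 : (0 : ℝ) ≤ nK M := Nat.cast_nonneg _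
    have hN0 : (0 : ℝ) ≤ (triN0 M n : ℕ) := Nat.cast_nonneg _
    have hRv : (nR M : ℝ) = 64 * (nB M : ℝ) ^ 3 := by unfold nR; push_cast; ring
    have h128 : (128 : ℝ) ≤ nB M := by exact_mod_cast hb2
    rw [hx]
    exact bound_N0 h128 hD hKD hK0 hD0 hN0 ht0 ht1 hN1 hRv
  obtain ⟨h1, h2⟩ := abs_le.1 hsm
  obtain ⟨h3, h4⟩ := abs_le.1 hy
  have hRB' : (0 : ℝ) < (nR M : ℝ) * nB M := mul_pos hR hB
  have hg := g_eval (stageS M 5) ![x, y, z] (n₀ := n) hn (by rw [hw']; exact one_div_pos.2 hRB')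
    (by
      rw [hw', hN]
      change _ ≤ x
      rw [hx, div_mul_eq_mul_div, one_mul]
      apply div_le_div_of_nonneg_right _ hRB'.le
      linarith)
    (by
      rw [hw', hN]
      change x ≤ _
      rw [hx, div_mul_eq_mul_div, one_mul]
      apply div_le_div_of_nonneg_right _ hRB'.le
      linarith)
    h1 h2
    (by
      intro m hm hne
      rw [hN, hN]
      exact sep_of_inj (fun a b _ _ h => triN0_inj hM h) hn m hm hne)
    h3 h4
  have e1 : (stageS M 5).α n = (triH' M n : ℝ) / (8 * nB M) := by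
    change (ratF (triH' M n) 0 (8 * nB M)).val = _
    rw [val_ratF _ _ (by have : 0 < nB M := nB_pos; omega)]; push_cast; norm_num
  have e2 : (stageS M 5).β n = 0 := val_zero
  rw [hg, e1, e2]
  simp

theorem hw_zone : ((ratF 1 0 (8 * nB M ^ 2)).val : ℝ)
    = ((1 : ℕ) - (0 : ℕ) : ℝ) / ((8 * nB M ^ 2 : ℕ) : ℝ) := val_ratF _ _ nB_sq_pos

theorem hN_zone (n : ℕ) : (ratF (triNx M n) 0 1).val = (triNx M n : ℝ) := by
  rw [val_ratF _ _ (by norm_num)]; norm_num

theorem stage6 (hM : M.Valid) (x y z : ℝ) {n : ℕ} (hn : n < nD M * nK M * nK M) {t : ℝ}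
    (ht0 : 0 ≤ t) (ht1 : t ≤ 1 / 2)
    (hz : z = ((triNx M n : ℝ) + t) / (8 * (nB M : ℝ) ^ 2)) (hy : |y| ≤ 1 / 4) :
    stepX (stageS M 6) ![x, y, z]
      = ![x - ((nK M : ℝ) * triH M n + triA M n) / nR M, y, z] := by
  rw [step0 rfl]
  have hg := zone_g (stageS M 6) hw_zone hM rfl hN_zone ![x, y, z] hn ht0 ht1 hz hy
  have e1 : (stageS M 6).α n = -((nK M : ℝ) * triH M n + triA M n) / nR M := by
    change (ratF 0 (nK M * triH M n + triA M n) (nR M)).val = _
    rw [val_ratF _ _ (nR_pos hM)]; push_cast; ring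
  have e2 : (stageS M 6).β n = 0 := val_zero
  rw [hg, e1, e2]
  have : x + (-((nK M : ℝ) * triH M n + triA M n) / nR M + 0 * ![x, y, z] (stageS M 6).l)
      = x - ((nK M : ℝ) * triH M n + triA M n) / nR M := by ring
  rw [this]

theorem stage7 (hM : M.Valid) (x y z : ℝ) {n : ℕ} (hn : n < nD M * nK M * nK M) {t : ℝ}
    (ht0 : 0 ≤ t) (ht1 : t ≤ 1 / 2)
    (hz : z = ((triNx M n : ℝ) + t) / (8 * (nB M : ℝ) ^ 2)) (hy : |y| ≤ 1 / 4) :
    stepX (stageS M 7) ![x, y, z] = ![x - (triG M n : ℝ) * y / nB M, y, z] := by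
  rw [step0 rfl]
  have hg := zone_g (stageS M 7) hw_zone hM rfl hN_zone ![x, y, z] hn ht0 ht1 hz hy
  have e1 : (stageS M 7).α n = 0 := val_zero
  have e2 : (stageS M 7).β n = -(triG M n : ℝ) / nB M := by
    change (ratF 0 (triG M n) (nB M)).val = _
    rw [val_ratF _ _ nB_pos]; push_cast; ring
  have e3 : ![x, y, z] (stageS M 7).l = y := rfl
  rw [hg, e1, e2, e3]
  have : x + (0 + -(triG M n : ℝ) / nB M * y) = x - (triG M n : ℝ) * y / nB M := by ring
  rw [this]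

theorem stage8 (hM : M.Valid) (x y z : ℝ) {n : ℕ} (hn : n < nD M * nK M * nK M) {t : ℝ}
    (ht0 : 0 ≤ t) (ht1 : t ≤ 1 / 2)
    (hz : z = ((triNx M n : ℝ) + t) / (8 * (nB M : ℝ) ^ 2)) (hx : |x| ≤ 1 / 4) :
    stepX (stageS M 8) ![x, y, z] = ![x, y + (triG M n : ℝ) * ((nB M : ℝ) - 1) * x, z] := by
  rw [step1 rfl]
  have hg := zone_g (stageS M 8) hw_zone hM rfl hN_zone ![x, y, z] hn ht0 ht1 hz hx
  have e1 : (stageS M 8).α n = 0 := val_zero
  have e2 : (stageS M 8).β n = (triG M n : ℝ) * ((nB M : ℝ) - 1) := by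
    change (ratF (triG M n * (nB M - 1)) 0 1).val = _
    rw [val_ratF _ _ (by norm_num)]; push_cast [Nat.cast_sub (nB_one_le hM)]; ring
  have e3 : ![x, y, z] (stageS M 8).l = x := rfl
  rw [hg, e1, e2, e3, zero_add]

theorem stage9 (hM : M.Valid) (x y z : ℝ) {n : ℕ} (hn : n < nD M * nK M * nK M) {t : ℝ}
    (ht0 : 0 ≤ t) (ht1 : t ≤ 1 / 2)
    (hz : z = ((triNx M n : ℝ) + t) / (8 * (nB M : ℝ) ^ 2)) (hy : |y| ≤ 1 / 4) :
    stepX (stageS M 9) ![x, y, z] = ![x + (triG M n : ℝ) * y, y, z] := by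
  rw [step0 rfl]
  have hg := zone_g (stageS M 9) hw_zone hM rfl hN_zone ![x, y, z] hn ht0 ht1 hz hy
  have e1 : (stageS M 9).α n = 0 := val_zero
  have e2 : (stageS M 9).β n = (triG M n : ℝ) := by
    change (ratF (triG M n) 0 1).val = _
    rw [val_ratF _ _ (by norm_num)]; norm_num
  have e3 : ![x, y, z] (stageS M 9).l = y := rfl
  rw [hg, e1, e2, e3, zero_add]

theorem stage10 (hM : M.Valid) (x y z : ℝ) {n : ℕ} (hn : n < nD M * nK M * nK M) {t : ℝ}
    (ht0 : 0 ≤ t) (ht1 : t ≤ 1 / 2)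
    (hz : z = ((triNx M n : ℝ) + t) / (8 * (nB M : ℝ) ^ 2)) (hx : |x| ≤ 1 / 4) :
    stepX (stageS M 10) ![x, y, z]
      = ![x, y - (triG M n : ℝ) * (((nB M : ℝ) - 1) / nB M) * x, z] := by
  rw [step1 rfl]
  have hg := zone_g (stageS M 10) hw_zone hM rfl hN_zone ![x, y, z] hn ht0 ht1 hz hx
  have e1 : (stageS M 10).α n = 0 := val_zero
  have e2 : (stageS M 10).β n = -((triG M n : ℝ) * (((nB M : ℝ) - 1) / nB M)) := by
    change (ratF 0 (triG M n * (nB M - 1)) (nB M)).val = _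
    rw [val_ratF _ _ nB_pos]; push_cast [Nat.cast_sub (nB_one_le hM)]; ring
  have e3 : ![x, y, z] (stageS M 10).l = x := rfl
  rw [hg, e1, e2, e3]
  have : y + (0 + -((triG M n : ℝ) * (((nB M : ℝ) - 1) / nB M)) * x)
      = y - (triG M n : ℝ) * (((nB M : ℝ) - 1) / nB M) * x := by ring
  rw [this]

theorem stage11 (hM : M.Valid) (x y z : ℝ) {n : ℕ} (hn : n < nD M * nK M * nK M) {t : ℝ}
    (ht0 : 0 ≤ t) (ht1 : t ≤ 1 / 2)
    (hz : z = ((triNx M n : ℝ) + t) / (8 * (nB M : ℝ) ^ 2)) (hy : |y| ≤ 1 / 4) :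
    stepX (stageS M 11) ![x, y, z]
      = ![x - (triG M n : ℝ) * triA' M n / nR M + (triBeta M n : ℝ) * y, y, z] := by
  rw [step0 rfl]
  have hg := zone_g (stageS M 11) hw_zone hM rfl hN_zone ![x, y, z] hn ht0 ht1 hz hy
  have e1 : (stageS M 11).α n = -((triG M n : ℝ) * triA' M n) / nR M := by
    change (ratF 0 (triG M n * triA' M n) (nR M)).val = _
    rw [val_ratF _ _ (nR_pos hM)]; push_cast; ring
  have e2 : (stageS M 11).β n = (triBeta M n : ℝ) := by
    change (ratF (triBeta M n) 0 1).val = _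
    rw [val_ratF _ _ (by norm_num)]; norm_num
  have e3 : ![x, y, z] (stageS M 11).l = y := rfl
  rw [hg, e1, e2, e3]
  have : x + (-((triG M n : ℝ) * triA' M n) / nR M + (triBeta M n : ℝ) * y)
      = x - (triG M n : ℝ) * triA' M n / nR M + (triBeta M n : ℝ) * y := by ring
  rw [this]

theorem stage12 (hM : M.Valid) (x y z : ℝ) {n : ℕ} (hn : n < nD M * nK M * nK M) {t : ℝ}
    (ht0 : 0 ≤ t) (ht1 : t ≤ 1 / 2)
    (hz : z = ((triNx M n : ℝ) + t) / (8 * (nB M : ℝ) ^ 2)) (hy : |y| ≤ 1 / 4) :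
    stepX (stageS M 12) ![x, y, z]
      = ![x + (if (triRule M n).1 = 0 then 3 / 8 else 0), y, z] := by
  rw [step0 rfl]
  have hg := zone_g (stageS M 12) hw_zone hM rfl hN_zone ![x, y, z] hn ht0 ht1 hz hy
  have e1 : (stageS M 12).α n = if (triRule M n).1 = 0 then 3 / 8 else 0 := by
    change (ratF (if (triRule M n).1 = 0 then 3 else 0) 0 8).val = _
    rw [val_ratF _ _ (by norm_num)]
    split_ifs <;> norm_num
  have e2 : (stageS M 12).β n = 0 := val_zero
  rw [hg, e1, e2]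
  simp

end

end Vale.Agent.Lib.P113
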