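import Vale.Agent.Lib.P113.Approx

/-!
All derivatives of the smooth step `Real.smoothTransition` at rational points are approximable,
uniformly in the order of the derivative.
On `(0, 1)` the step `B` satisfies `B' = B (1 - B) (x⁻² + (1 - x)⁻²)`, so every derivative is a
polynomial in `B`, `x⁻¹`, `(1 - x)⁻¹`, with coefficients obtained by a primitive recursion.
-/

namespace Vale.Agent.Lib.P113

open Real Filter Topology RatCode

/-- The smooth step. -/
noncomputable abbrev stepB : ℝ → ℝ := Real.smoothTransition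

/-- A monomial `(c₊ - c₋) L^a X^b Y^c`, written as `(c₊, c₋, a, b, c)`. -/
abbrev Mono := ℕ × ℕ × ℕ × ℕ × ℕ

/-- The value of a monomial. -/
noncomputable def evalMono (m : Mono) (L X Y : ℝ) : ℝ :=
  ((m.1 : ℝ) - (m.2.1 : ℝ)) * L ^ m.2.2.1 * X ^ m.2.2.2.1 * Y ^ m.2.2.2.2

/-- The value of a polynomial, given as a list of monomials. -/
noncomputable def evalPoly (P : List Mono) (L X Y : ℝ) : ℝ :=
  (P.map (fun m => evalMono m L X Y)).sum

/-- The derivative of a monomial along `L' = L (1 - L) (X² + Y²)`, `X' = - X²`, `Y' = Y²`. -/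
def derivMono (m : Mono) : List Mono :=
  [(m.1 * m.2.2.1, m.2.1 * m.2.2.1, m.2.2.1, m.2.2.2.1 + 2, m.2.2.2.2),
   (m.1 * m.2.2.1, m.2.1 * m.2.2.1, m.2.2.1, m.2.2.2.1, m.2.2.2.2 + 2),
   (m.2.1 * m.2.2.1, m.1 * m.2.2.1, m.2.2.1 + 1, m.2.2.2.1 + 2, m.2.2.2.2),
   (m.2.1 * m.2.2.1, m.1 * m.2.2.1, m.2.2.1 + 1, m.2.2.2.1, m.2.2.2.2 + 2),
   (m.2.1 * m.2.2.2.1, m.1 * m.2.2.2.1, m.2.2.1, m.2.2.2.1 + 1, m.2.2.2.2),
   (m.1 * m.2.2.2.2, m.2.1 * m.2.2.2.2, m.2.2.1, m.2.2.2.1, m.2.2.2.2 + 1)]

/-- The derivative of a polynomial. -/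
def derivPoly (P : List Mono) : List Mono := P.flatMap derivMono

/-- The polynomial of the derivative of order `n` of the step. -/
def jetPoly (n : ℕ) : List Mono := derivPoly^[n] [(1, 0, 1, 0, 0)]

theorem evalPoly_cons (m : Mono) (P : List Mono) (L X Y : ℝ) :
    evalPoly (m :: P) L X Y = evalMono m L X Y + evalPoly P L X Y := by
  simp [evalPoly]

theorem evalPoly_nil (L X Y : ℝ) : evalPoly [] L X Y = 0 := by
  simp [evalPoly]

theorem evalPoly_append (P Q : List Mono) (L X Y : ℝ) :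
    evalPoly (P ++ Q) L X Y = evalPoly P L X Y + evalPoly Q L X Y := by
  simp [evalPoly]

/-- The formula for the step inside the unit interval. -/
theorem stepB_eq {x : ℝ} (h0 : 0 < x) (h1 : x < 1) :
    stepB x = (1 + Real.exp (x⁻¹ - (1 - x)⁻¹))⁻¹ := by
  have hx : ¬ x ≤ 0 := not_le.mpr h0
  have hx' : ¬ (1 - x) ≤ 0 := by linarith
  unfold stepB Real.smoothTransition
  simp only [expNegInvGlue, hx, hx', if_false]
  have e1 : Real.exp (x⁻¹ - (1 - x)⁻¹) = Real.exp (-(1 - x)⁻¹) / Real.exp (-x⁻¹) := by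
    rw [← Real.exp_sub]; congr 1; ring
  rw [e1]
  have p1 := Real.exp_pos (-x⁻¹)
  have p2 := Real.exp_pos (-(1 - x)⁻¹)
  field_simp

theorem hasDerivAt_X {x : ℝ} (h0 : 0 < x) :
    HasDerivAt (fun y : ℝ => y⁻¹) (-(x⁻¹) ^ 2) x := by
  have d1 : HasDerivAt (fun y : ℝ => y⁻¹) (-(x ^ 2)⁻¹) x := hasDerivAt_inv h0.ne'
  exact d1.congr_deriv (by rw [inv_pow])

theorem hasDerivAt_Y {x : ℝ} (h1 : x < 1) :
    HasDerivAt (fun y : ℝ => (1 - y)⁻¹) (((1 - x)⁻¹) ^ 2) x := by
  have hx1 : 1 - x ≠ 0 := by linarith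
  have d0 : HasDerivAt (fun y : ℝ => 1 - y) (-1) x := (hasDerivAt_id x).const_sub 1
  have d : HasDerivAt (fun y : ℝ => (1 - y)⁻¹) (-(-1) / (1 - x) ^ 2) x := d0.inv hx1
  exact d.congr_deriv (by rw [inv_pow]; field_simp)

theorem hasDerivAt_stepB {x : ℝ} (h0 : 0 < x) (h1 : x < 1) :
    HasDerivAt stepB (stepB x * (1 - stepB x) * ((x⁻¹) ^ 2 + ((1 - x)⁻¹) ^ 2)) x := by
  have hx : x ≠ 0 := h0.ne'
  have hx1 : 1 - x ≠ 0 := by linarith
  have e : stepB =ᶠ[𝓝 x] fun y => (1 + Real.exp (y⁻¹ - (1 - y)⁻¹))⁻¹ := by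
    filter_upwards [Ioo_mem_nhds h0 h1] with y hy
    exact stepB_eq hy.1 hy.2
  refine HasDerivAt.congr_of_eventuallyEq ?_ e
  have d1 := hasDerivAt_X h0
  have d2 := hasDerivAt_Y h1
  have d3 : HasDerivAt (fun y : ℝ => y⁻¹ - (1 - y)⁻¹) (-(x⁻¹) ^ 2 - ((1 - x)⁻¹) ^ 2) x := d1.sub d2
  have d4 : HasDerivAt (fun y : ℝ => Real.exp (y⁻¹ - (1 - y)⁻¹))
      (Real.exp (x⁻¹ - (1 - x)⁻¹) * (-(x⁻¹) ^ 2 - ((1 - x)⁻¹) ^ 2)) x := d3.exp
  have d5 : HasDerivAt (fun y : ℝ => 1 + Real.exp (y⁻¹ - (1 - y)⁻¹))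
      (Real.exp (x⁻¹ - (1 - x)⁻¹) * (-(x⁻¹) ^ 2 - ((1 - x)⁻¹) ^ 2)) x := d4.const_add 1
  have hpos : 1 + Real.exp (x⁻¹ - (1 - x)⁻¹) ≠ 0 := by positivity
  have d6 : HasDerivAt (fun y : ℝ => (1 + Real.exp (y⁻¹ - (1 - y)⁻¹))⁻¹)
      (-(Real.exp (x⁻¹ - (1 - x)⁻¹) * (-(x⁻¹) ^ 2 - ((1 - x)⁻¹) ^ 2)) /
        (1 + Real.exp (x⁻¹ - (1 - x)⁻¹)) ^ 2) x := d5.inv hpos
  refine d6.congr_deriv ?_
  rw [stepB_eq h0 h1]
  generalize Real.exp (x⁻¹ - (1 - x)⁻¹) = E at hpos
  generalize x⁻¹ = X
  generalize (1 - x)⁻¹ = Y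
  field_simp
  ring

theorem hasDerivAt_evalMono (m : Mono) {x : ℝ} (h0 : 0 < x) (h1 : x < 1) :
    HasDerivAt (fun y => evalMono m (stepB y) y⁻¹ (1 - y)⁻¹)
      (evalPoly (derivMono m) (stepB x) x⁻¹ (1 - x)⁻¹) x := by
  obtain ⟨p, q, a, b, c⟩ := m
  have dL := hasDerivAt_stepB h0 h1
  have dX := hasDerivAt_X h0
  have dY := hasDerivAt_Y h1
  have d : HasDerivAt (fun y => ((p : ℝ) - q) * stepB y ^ a * (y⁻¹) ^ b * ((1 - y)⁻¹) ^ c) _ x :=
    (((dL.pow a).const_mul ((p : ℝ) - q)).mul (dX.pow b)).mul (dY.pow c)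
  refine d.congr_deriv ?_
  simp only [derivMono, evalPoly, evalMono, List.map_cons, List.map_nil, List.sum_cons,
    List.sum_nil, Pi.mul_apply, Pi.pow_apply]
  generalize stepB x = L
  generalize x⁻¹ = X
  generalize (1 - x)⁻¹ = Y
  rcases a with _ | a <;> rcases b with _ | b <;> rcases c with _ | c <;> simp <;> ring

theorem evalPoly_flatMap (P : List Mono) (L X Y : ℝ) :
    evalPoly (derivPoly P) L X Y = (P.map (fun m => evalPoly (derivMono m) L X Y)).sum := by
  induction P with
  | nil => simp [derivPoly, evalPoly]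
  | cons m P ih =>
    have : derivPoly (m :: P) = derivMono m ++ derivPoly P := by simp [derivPoly]
    rw [this, evalPoly_append, ih]
    simp

theorem hasDerivAt_evalPoly (P : List Mono) {x : ℝ} (h0 : 0 < x) (h1 : x < 1) :
    HasDerivAt (fun y => evalPoly P (stepB y) y⁻¹ (1 - y)⁻¹)
      (evalPoly (derivPoly P) (stepB x) x⁻¹ (1 - x)⁻¹) x := by
  induction P with
  | nil =>
    simpa [derivPoly, evalPoly] using hasDerivAt_const x (0 : ℝ)
  | cons m P ih =>
    have e : derivPoly (m :: P) = derivMono m ++ derivPoly P := by simp [derivPoly]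
    rw [e, evalPoly_append]
    have d : HasDerivAt (fun y => evalMono m (stepB y) y⁻¹ (1 - y)⁻¹ +
        evalPoly P (stepB y) y⁻¹ (1 - y)⁻¹) _ x := (hasDerivAt_evalMono m h0 h1).add ih
    exact d.congr_of_eventuallyEq (Eventually.of_forall (fun y => evalPoly_cons _ _ _ _ _))

theorem jetPoly_succ (n : ℕ) : jetPoly (n + 1) = derivPoly (jetPoly n) := by
  simp only [jetPoly, Function.iterate_succ_apply']

theorem iteratedDeriv_stepB_inside (n : ℕ) {x : ℝ} (h0 : 0 < x) (h1 : x < 1) :
    iteratedDeriv n stepB x = evalPoly (jetPoly n) (stepB x) x⁻¹ (1 - x)⁻¹ := by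
  induction n generalizing x with
  | zero => simp [jetPoly, evalPoly, evalMono]
  | succ n ih =>
    rw [iteratedDeriv_succ, jetPoly_succ]
    have e : iteratedDeriv n stepB =ᶠ[𝓝 x]
        fun y => evalPoly (jetPoly n) (stepB y) y⁻¹ (1 - y)⁻¹ := by
      filter_upwards [Ioo_mem_nhds h0 h1] with y hy
      exact ih hy.1 hy.2
    rw [e.deriv_eq]
    exact (hasDerivAt_evalPoly _ h0 h1).deriv

theorem contDiff_stepB : ContDiff ℝ (⊤ : ℕ∞) stepB := Real.smoothTransition.contDiff

theorem continuous_iteratedDeriv_stepB (n : ℕ) : Continuous (iteratedDeriv n stepB) :=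
  ContDiff.continuous_iteratedDeriv (n := (⊤ : ℕ∞)) n contDiff_stepB
    (by exact_mod_cast le_top)

theorem iteratedDeriv_stepB_left (n : ℕ) {x : ℝ} (h : x ≤ 0) : iteratedDeriv n stepB x = 0 := by
  have key : ∀ n : ℕ, ∀ y : ℝ, y < 0 → iteratedDeriv n stepB y = 0 := by
    intro n
    induction n with
    | zero =>
      intro y hy
      simpa using Real.smoothTransition.zero_of_nonpos hy.le
    | succ n ih =>
      intro y hy
      rw [iteratedDeriv_succ]
      have e : iteratedDeriv n stepB =ᶠ[𝓝 y] fun _ => (0 : ℝ) := by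
        filter_upwards [Iio_mem_nhds hy] with z hz
        exact ih z hz
      rw [e.deriv_eq]
      simp
  have hclosed : IsClosed {y : ℝ | iteratedDeriv n stepB y = 0} :=
    isClosed_eq (continuous_iteratedDeriv_stepB n) continuous_const
  have hsub : Set.Iio (0 : ℝ) ⊆ {y : ℝ | iteratedDeriv n stepB y = 0} := fun y hy => key n y hy
  have := hclosed.closure_subset_iff.mpr hsub
  rw [closure_Iio] at this
  exact this h

theorem iteratedDeriv_stepB_right (n : ℕ) {x : ℝ} (h : 1 ≤ x) :
    iteratedDeriv (n + 1) stepB x = 0 := by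
  have key : ∀ n : ℕ, ∀ y : ℝ, 1 < y → iteratedDeriv (n + 1) stepB y = 0 := by
    intro n
    induction n with
    | zero =>
      intro y hy
      rw [iteratedDeriv_succ]
      have e : iteratedDeriv 0 stepB =ᶠ[𝓝 y] fun _ => (1 : ℝ) := by
        filter_upwards [Ioi_mem_nhds hy] with z hz
        simpa using Real.smoothTransition.one_of_one_le (le_of_lt hz)
      rw [e.deriv_eq]
      simp
    | succ n ih =>
      intro y hy
      rw [iteratedDeriv_succ]
      have e : iteratedDeriv (n + 1) stepB =ᶠ[𝓝 y] fun _ => (0 : ℝ) := by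
        filter_upwards [Ioi_mem_nhds hy] with z hz
        exact ih z hz
      rw [e.deriv_eq]
      simp
  have hclosed : IsClosed {y : ℝ | iteratedDeriv (n + 1) stepB y = 0} :=
    isClosed_eq (continuous_iteratedDeriv_stepB (n + 1)) continuous_const
  have hsub : Set.Ioi (1 : ℝ) ⊆ {y : ℝ | iteratedDeriv (n + 1) stepB y = 0} :=
    fun y hy => key n y hy
  have := hclosed.closure_subset_iff.mpr hsub
  rw [closure_Ioi] at this
  exact this h

/-! ### Primitive recursion of the coefficients -/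

theorem primrec_derivMono : Primrec derivMono := by
  have p : Primrec (fun m : Mono => m.1) := Primrec.fst
  have q : Primrec (fun m : Mono => m.2.1) := Primrec.fst.comp Primrec.snd
  have a : Primrec (fun m : Mono => m.2.2.1) := Primrec.fst.comp (Primrec.snd.comp Primrec.snd)
  have b : Primrec (fun m : Mono => m.2.2.2.1) :=
    Primrec.fst.comp (Primrec.snd.comp (Primrec.snd.comp Primrec.snd))
  have c : Primrec (fun m : Mono => m.2.2.2.2) :=
    Primrec.snd.comp (Primrec.snd.comp (Primrec.snd.comp Primrec.snd))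
  have mk : ∀ {f1 f2 f3 f4 f5 : Mono → ℕ}, Primrec f1 → Primrec f2 → Primrec f3 → Primrec f4 →
      Primrec f5 → Primrec (fun m : Mono => ((f1 m, f2 m, f3 m, f4 m, f5 m) : Mono)) :=
    fun h1 h2 h3 h4 h5 => h1.pair (h2.pair (h3.pair (h4.pair h5)))
  have add2 : ∀ {f : Mono → ℕ}, Primrec f → Primrec (fun m => f m + 2) :=
    fun h => Primrec.succ.comp (Primrec.succ.comp h)
  have add1 : ∀ {f : Mono → ℕ}, Primrec f → Primrec (fun m => f m + 1) :=
    fun h => Primrec.succ.comp h
  have mul : ∀ {f g : Mono → ℕ}, Primrec f → Primrec g → Primrec (fun m => f m * g m) :=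
    fun h k => Primrec.nat_mul.comp h k
  unfold derivMono
  refine Primrec.list_cons.comp (mk (mul p a) (mul q a) a (add2 b) c) ?_
  refine Primrec.list_cons.comp (mk (mul p a) (mul q a) a b (add2 c)) ?_
  refine Primrec.list_cons.comp (mk (mul q a) (mul p a) (add1 a) (add2 b) c) ?_
  refine Primrec.list_cons.comp (mk (mul q a) (mul p a) (add1 a) b (add2 c)) ?_
  refine Primrec.list_cons.comp (mk (mul q b) (mul p b) a (add1 b) c) ?_
  refine Primrec.list_cons.comp (mk (mul p c) (mul q c) a b (add1 c)) ?_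
  exact Primrec.const []

theorem primrec_derivPoly : Primrec derivPoly :=
  Primrec.list_flatMap Primrec.id (primrec_derivMono.comp Primrec.snd)

theorem primrec_jetPoly : Primrec jetPoly :=
  Primrec.nat_iterate Primrec.id (Primrec.const _) (primrec_derivPoly.comp Primrec.snd)

/-! ### Approximation -/

/-- The code of `1 - q`. -/
def oneSub (q : RatCode) : RatCode := RatCode.add (1, 0, 0) (RatCode.neg q)

theorem val_oneSub (q : RatCode) : (oneSub q).val = 1 - q.val := by
  rw [oneSub, val_add, val_neg]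
  simp [RatCode.val]
  ring

theorem primrec_oneSub : Primrec oneSub :=
  primrec_add.comp (Primrec.const _) primrec_neg

/-- The code of `x⁻¹ - (1 - x)⁻¹`. -/
def expArg (q : RatCode) : RatCode :=
  RatCode.add (RatCode.inv q) (RatCode.neg (RatCode.inv (oneSub q)))

theorem primrec_expArg : Primrec expArg :=
  primrec_add.comp primrec_inv (primrec_neg.comp (primrec_inv.comp primrec_oneSub))

theorem val_expArg {q : RatCode} (h0 : 0 < q.val) (h1 : q.val < 1) :
    (expArg q).val = (q.val)⁻¹ - (1 - q.val)⁻¹ := by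
  rw [expArg, val_add, val_neg, val_inv q h0, val_inv _ (by rw [val_oneSub]; linarith),
    val_oneSub]
  ring

/-- The inner formula for the step, approximable for every code. -/
noncomputable def stepFormula (q : RatCode) : ℝ := (1 + Real.exp (expArg q).val)⁻¹

theorem approx_stepFormula : Approx stepFormula := by
  refine Approx.inv (f := fun q : RatCode => 1 + Real.exp (expArg q).val) ?_ ?_
  · exact Approx.one.add (approx_exp.comp primrec_expArg)
  · intro q
    have := Real.exp_pos (expArg q).val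
    linarith

/-- The approximable value of a derivative inside the unit interval. -/
noncomputable def innerJet (p : ℕ × RatCode) : ℝ :=
  evalPoly (jetPoly p.1) (stepFormula p.2) (RatCode.inv p.2).val (RatCode.inv (oneSub p.2)).val

theorem approx_innerJet : Approx innerJet := by
  have hm : Approx (fun x : (ℕ × RatCode) × Mono =>
      evalMono x.2 (stepFormula x.1.2) (RatCode.inv x.1.2).val (RatCode.inv (oneSub x.1.2)).val) := by
    have c0 : Approx (fun x : (ℕ × RatCode) × Mono => RatCode.val (x.2.1, x.2.2.1, 0)) := by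
      refine Approx.ofCode (h := fun x : (ℕ × RatCode) × Mono => (x.2.1, x.2.2.1, 0)) ?_
      exact (Primrec.fst.comp Primrec.snd).pair
        ((Primrec.fst.comp (Primrec.snd.comp Primrec.snd)).pair (Primrec.const 0))
    have q : Primrec (fun x : (ℕ × RatCode) × Mono => x.1.2) := Primrec.snd.comp Primrec.fst
    have a : Primrec (fun x : (ℕ × RatCode) × Mono => x.2.2.2.1) :=
      Primrec.fst.comp (Primrec.snd.comp (Primrec.snd.comp Primrec.snd))
    have b : Primrec (fun x : (ℕ × RatCode) × Mono => x.2.2.2.2.1) :=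
      Primrec.fst.comp (Primrec.snd.comp (Primrec.snd.comp (Primrec.snd.comp Primrec.snd)))
    have c : Primrec (fun x : (ℕ × RatCode) × Mono => x.2.2.2.2.2) :=
      Primrec.snd.comp (Primrec.snd.comp (Primrec.snd.comp (Primrec.snd.comp Primrec.snd)))
    have hL := (approx_stepFormula.comp q).pow a
    have hX := (Approx.ofCode (primrec_inv.comp q)).pow b
    have hY := (Approx.ofCode (primrec_inv.comp (primrec_oneSub.comp q))).pow c
    refine ((c0.mul hL).mul hX).mul hY |>.congr (fun x => ?_)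
    simp [evalMono, RatCode.val]
  have := Approx.listSum (L := fun p : ℕ × RatCode => jetPoly p.1)
    (primrec_jetPoly.comp Primrec.fst) hm
  exact this

/-- The derivative of every order of the step at every rational point. -/
theorem approx_jet : Approx (fun p : ℕ × RatCode => iteratedDeriv p.1 stepB p.2.val) := by
  have hq : Primrec (fun p : ℕ × RatCode => p.2) := Primrec.snd
  have hle0 : PrimrecPred (fun p : ℕ × RatCode => leB p.2 (0, 0, 0)) :=
    primrecRel_leB.comp hq (Primrec.const _)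
  have hge1 : PrimrecPred (fun p : ℕ × RatCode => leB (1, 0, 0) p.2) :=
    primrecRel_leB.comp (Primrec.const _) hq
  have hn0 : PrimrecPred (fun p : ℕ × RatCode => p.1 = 0) :=
    Primrec.eq.comp Primrec.fst (Primrec.const 0)
  have h := Approx.ite hle0 (Approx.zero (α := ℕ × RatCode))
    (Approx.ite hge1 (Approx.ite hn0 (Approx.one (α := ℕ × RatCode))
      (Approx.zero (α := ℕ × RatCode))) approx_innerJet)
  refine h.congr (fun p => ?_)
  obtain ⟨n, q⟩ := p
  simp only
  have v0 : RatCode.val (0, 0, 0) = 0 := by simp [RatCode.val]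
  have v1 : RatCode.val (1, 0, 0) = 1 := by simp [RatCode.val]
  by_cases c0 : leB q (0, 0, 0)
  · rw [if_pos c0]
    have : q.val ≤ 0 := by rw [← v0]; exact (leB_iff _ _).mp c0
    exact (iteratedDeriv_stepB_left n this).symm
  · rw [if_neg c0]
    have h0 : 0 < q.val := by
      rw [← v0]; exact not_le.mp (fun h => c0 ((leB_iff _ _).mpr h))
    by_cases c1 : leB (1, 0, 0) q
    · rw [if_pos c1]
      have : 1 ≤ q.val := by rw [← v1]; exact (leB_iff _ _).mp c1
      cases n with
      | zero => simp [Real.smoothTransition.one_of_one_le this]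
      | succ n =>
        rw [iteratedDeriv_stepB_right n this]
        simp
    · rw [if_neg c1]
      have h1 : q.val < 1 := by
        rw [← v1]; exact not_le.mp (fun h => c1 ((leB_iff _ _).mpr h))
      rw [iteratedDeriv_stepB_inside n h0 h1, innerJet]
      simp only
      rw [val_inv q h0, val_inv _ (by rw [val_oneSub]; linarith), val_oneSub]
      rw [stepB_eq h0 h1, stepFormula, val_expArg h0 h1]

end Vale.Agent.Lib.P113
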