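import Vale.Agent.Lib.P113.Defs

namespace Vale.Agent.Lib.P113

open MeasureTheory Set
open scoped ContDiff Topology

section pdLemmas

lemma continuous_pd {g : R3 → ℝ} (hg : ContDiff ℝ 1 g) (j : Fin 3) : Continuous (pd j g) :=
  (hg.continuous_fderiv (by norm_num)).clm_apply continuous_const

lemma contDiff_pd {g : R3 → ℝ} (hg : ContDiff ℝ 2 g) (j : Fin 3) : ContDiff ℝ 1 (pd j g) := by
  have h : ContDiff ℝ 1 (fderiv ℝ g) := hg.fderiv_right (by norm_num)
  exact h.clm_apply contDiff_const

lemma differentiableAt_of_one {g : R3 → ℝ} (hg : ContDiff ℝ 1 g) (x : R3) :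
    DifferentiableAt ℝ g x := (hg.differentiable (by norm_num)) x

lemma SpacePeriodic.pd {g : R3 → ℝ} (hg : SpacePeriodic g) (j : Fin 3) :
    SpacePeriodic (pd j g) := by
  intro x k
  have h : g = fun y => g (y + fun i => (k i : ℝ)) := by
    funext y
    exact (hg y k).symm
  unfold Vale.Agent.Lib.P113.pd
  conv_rhs => rw [h]
  rw [fderiv_comp_add_right]
  rfl

lemma pd_add {g h : R3 → ℝ} {x : R3} (hg : DifferentiableAt ℝ g x) (hh : DifferentiableAt ℝ h x)
    (j : Fin 3) : pd j (fun y => g y + h y) x = pd j g x + pd j h x := by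
  unfold Vale.Agent.Lib.P113.pd
  rw [fderiv_fun_add hg hh]
  rfl

lemma pd_sub {g h : R3 → ℝ} {x : R3} (hg : DifferentiableAt ℝ g x) (hh : DifferentiableAt ℝ h x)
    (j : Fin 3) : pd j (fun y => g y - h y) x = pd j g x - pd j h x := by
  unfold Vale.Agent.Lib.P113.pd
  rw [fderiv_fun_sub hg hh]
  rfl

lemma pd_mul {g h : R3 → ℝ} {x : R3} (hg : DifferentiableAt ℝ g x) (hh : DifferentiableAt ℝ h x)
    (j : Fin 3) : pd j (fun y => g y * h y) x = pd j g x * h x + g x * pd j h x := by
  unfold Vale.Agent.Lib.P113.pd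
  rw [fderiv_fun_mul hg hh]
  simp only [_root_.add_apply, _root_.smul_apply, smul_eq_mul]
  ring

lemma pd_sum {ι : Type*} (s : Finset ι) {g : ι → R3 → ℝ} {x : R3}
    (hg : ∀ i ∈ s, DifferentiableAt ℝ (g i) x) (j : Fin 3) :
    pd j (fun y => ∑ i ∈ s, g i y) x = ∑ i ∈ s, pd j (g i) x := by
  unfold Vale.Agent.Lib.P113.pd
  rw [fderiv_fun_sum hg]
  simp

end pdLemmas

/-- Divergence theorem on the periodic cube: the divergence of a periodic `C¹` field has mean zero. -/
lemma integral_div_periodic (F : Fin 3 → R3 → ℝ) (hF : ∀ i, ContDiff ℝ 1 (F i))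
    (hper : ∀ i, SpacePeriodic (F i)) :
    ∫ x in Icc (0 : R3) 1, ∑ i, pd i (F i) x = 0 := by
  have hle : (0 : R3) ≤ 1 := zero_le_one
  have hint : IntegrableOn (fun x => ∑ i, fderiv ℝ (F i) x (Pi.single i 1))
      (Icc (0 : R3) 1) := by
    apply Continuous.integrableOn_Icc
    exact continuous_finsetSum _ (fun i _ => continuous_pd (hF i) i)
  have H := integral_divergence_of_hasFDerivAt_off_countable' (0 : R3) 1 hle F
    (fun i x => fderiv ℝ (F i) x) ∅ countable_empty
    (fun i => (hF i).continuous.continuousOn)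
    (fun x _ i => (differentiableAt_of_one (hF i) x).hasFDerivAt) hint
  have hz : ∀ i : Fin 3,
      (∫ x in Icc ((0 : R3) ∘ i.succAbove) ((1 : R3) ∘ i.succAbove),
          F i (i.insertNth ((1 : R3) i) x)) -
        ∫ x in Icc ((0 : R3) ∘ i.succAbove) ((1 : R3) ∘ i.succAbove),
          F i (i.insertNth ((0 : R3) i) x) = 0 := by
    intro i
    have : ∀ x : Fin 2 → ℝ, F i (i.insertNth ((1 : R3) i) x) = F i (i.insertNth ((0 : R3) i) x) := by
      intro x
      have h2 := hper i (i.insertNth ((0 : R3) i) x) (Pi.single i 1)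
      rw [← h2]
      congr 1
      funext j
      rcases eq_or_ne j i with rfl | hj
      · simp
      · obtain ⟨m, rfl⟩ := Fin.exists_succAbove_eq hj
        simp
    simp only [this, sub_self]
  simp only [pd]
  rw [H]
  exact Finset.sum_eq_zero (fun i _ => hz i)

section energy

variable {A : Fin 3 → R3 → ℝ} {b : Fin 3 → R3 → ℝ} {c : Fin 3 → Fin 3 → R3 → ℝ} {π : R3 → ℝ}
  {dot : Fin 3 → R3 → ℝ} {ν M : ℝ}

lemma energy_rate_le (hν : 0 ≤ ν)
    (hA : ∀ i, ContDiff ℝ 2 (A i)) (hb : ∀ i, ContDiff ℝ 1 (b i)) (hπ : ContDiff ℝ 1 π)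
    (hAp : ∀ i, SpacePeriodic (A i)) (hbp : ∀ i, SpacePeriodic (b i)) (hπp : SpacePeriodic π)
    (divA : ∀ x, ∑ j, pd j (A j) x = 0) (divb : ∀ x, ∑ j, pd j (b j) x = 0)
    (heq : ∀ x i, dot i x + ∑ j, b j x * pd j (A i) x + ∑ j, A j x * c i j x
        = - pd i π x + ν * ∑ j, pd j (pd j (A i)) x)
    (hdot : ∀ i, Continuous (dot i))
    (hbound : ∀ x ∈ Icc (0 : R3) 1, ∀ i j, |c i j x| ≤ M) :
    ∫ x in Icc (0 : R3) 1, ∑ i, A i x * dot i x ≤
      3 * M * ∫ x in Icc (0 : R3) 1, ∑ i, (A i x) ^ 2 := by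
  have hA1 : ∀ i, ContDiff ℝ 1 (A i) := fun i => (hA i).of_le (by norm_num)
  have hdA : ∀ i j, ContDiff ℝ 1 (pd j (A i)) := fun i j => contDiff_pd (hA i) j
  have dA : ∀ i x, DifferentiableAt ℝ (A i) x := fun i x => differentiableAt_of_one (hA1 i) x
  have db : ∀ i x, DifferentiableAt ℝ (b i) x := fun i x => differentiableAt_of_one (hb i) x
  have dπ : ∀ x, DifferentiableAt ℝ π x := fun x => differentiableAt_of_one hπ x
  have ddA : ∀ i j x, DifferentiableAt ℝ (pd j (A i)) x :=
    fun i j x => differentiableAt_of_one (hdA i j) x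
  -- the three vector fields
  let F1 : Fin 3 → R3 → ℝ := fun j x => π x * A j x
  let S : R3 → ℝ := fun x => ∑ i, A i x * A i x
  let F2 : Fin 3 → R3 → ℝ := fun j x => S x * b j x
  let F3 : Fin 3 → R3 → ℝ := fun j x => ∑ i, A i x * pd j (A i) x
  have hS : ContDiff ℝ 1 S := ContDiff.sum (fun i _ => (hA1 i).mul (hA1 i))
  have dS : ∀ x, DifferentiableAt ℝ S x := fun x => differentiableAt_of_one hS x
  have hF1 : ∀ j, ContDiff ℝ 1 (F1 j) := fun j => hπ.mul (hA1 j)
  have hF2 : ∀ j, ContDiff ℝ 1 (F2 j) := fun j => hS.mul (hb j)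
  have hF3 : ∀ j, ContDiff ℝ 1 (F3 j) := fun j => ContDiff.sum (fun i _ => (hA1 i).mul (hdA i j))
  have pF1 : ∀ j, SpacePeriodic (F1 j) := by
    intro j x k
    simp only [F1, hπp x k, hAp j x k]
  have pS : SpacePeriodic S := by
    intro x k
    simp only [S, hAp _ x k]
  have pF2 : ∀ j, SpacePeriodic (F2 j) := by
    intro j x k
    simp only [F2, pS x k, hbp j x k]
  have pF3 : ∀ j, SpacePeriodic (F3 j) := by
    intro j x k
    simp only [F3, hAp _ x k, ((hAp _).pd j) x k]
  have I1 := integral_div_periodic F1 hF1 pF1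
  have I2 := integral_div_periodic F2 hF2 pF2
  have I3 := integral_div_periodic F3 hF3 pF3
  -- the pointwise divergence identities
  have D1 : ∀ x, ∑ j, pd j (F1 j) x = ∑ j, A j x * pd j π x := by
    intro x
    have : ∀ j, pd j (F1 j) x = A j x * pd j π x + π x * pd j (A j) x := by
      intro j
      have := pd_mul (dπ x) (dA j x) j
      simp only [F1]
      rw [this]; ring
    simp only [this, Finset.sum_add_distrib, ← Finset.mul_sum, divA x, mul_zero, add_zero]
  have dSj : ∀ j x, pd j S x = ∑ i, 2 * (A i x * pd j (A i) x) := by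
    intro j x
    have h1 : pd j S x = ∑ i, pd j (fun y => A i y * A i y) x :=
      pd_sum Finset.univ (fun i _ => (dA i x).mul (dA i x)) j
    rw [h1]
    refine Finset.sum_congr rfl (fun i _ => ?_)
    rw [pd_mul (dA i x) (dA i x) j]
    ring
  have D2 : ∀ x, ∑ j, pd j (F2 j) x = ∑ j, ∑ i, 2 * (A i x * (b j x * pd j (A i) x)) := by
    intro x
    have : ∀ j, pd j (F2 j) x = (∑ i, 2 * (A i x * (b j x * pd j (A i) x))) + S x * pd j (b j) x := by
      intro j
      have := pd_mul (dS x) (db j x) j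
      simp only [F2]
      rw [this, dSj, Finset.sum_mul]
      congr 1
      refine Finset.sum_congr rfl (fun i _ => ?_)
      ring
    simp only [this, Finset.sum_add_distrib, ← Finset.mul_sum, divb x, mul_zero, add_zero]
  have D3 : ∀ x, ∑ j, pd j (F3 j) x =
      ∑ j, ∑ i, (pd j (A i) x * pd j (A i) x + A i x * pd j (pd j (A i)) x) := by
    intro x
    refine Finset.sum_congr rfl (fun j _ => ?_)
    have h1 : pd j (F3 j) x = ∑ i, pd j (fun y => A i y * pd j (A i) y) x :=
      pd_sum Finset.univ (fun i _ => (dA i x).mul (ddA i j x)) j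
    rw [h1]
    refine Finset.sum_congr rfl (fun i _ => ?_)
    rw [pd_mul (dA i x) (ddA i j x) j]
  -- continuity, hence integrability
  have cS : Continuous (fun x => ∑ i, (A i x) ^ 2) :=
    continuous_finsetSum _ (fun i _ => ((hA1 i).continuous).pow 2)
  have cD : ∀ F : Fin 3 → R3 → ℝ, (∀ j, ContDiff ℝ 1 (F j)) →
      Continuous (fun x => ∑ j, pd j (F j) x) :=
    fun F hF => continuous_finsetSum _ (fun j _ => continuous_pd (hF j) j)
  have iD : ∀ F : Fin 3 → R3 → ℝ, (∀ j, ContDiff ℝ 1 (F j)) →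
      IntegrableOn (fun x => ∑ j, pd j (F j) x) (Icc (0 : R3) 1) :=
    fun F hF => (cD F hF).integrableOn_Icc
  have iS : IntegrableOn (fun x => ∑ i, (A i x) ^ 2) (Icc (0 : R3) 1) := cS.integrableOn_Icc
  have iL : IntegrableOn (fun x => ∑ i, A i x * dot i x) (Icc (0 : R3) 1) := by
    apply Continuous.integrableOn_Icc
    exact continuous_finsetSum _ (fun i _ => (hA1 i).continuous.mul (hdot i))
  -- the pointwise inequality
  have key : ∀ x ∈ Icc (0 : R3) 1, ∑ i, A i x * dot i x ≤
      - (1 / 2) * (∑ j, pd j (F2 j) x) - (∑ j, pd j (F1 j) x) + ν * (∑ j, pd j (F3 j) x)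
        + 3 * M * ∑ i, (A i x) ^ 2 := by
    intro x hx
    rw [D1, D2, D3]
    have hdot_eq : ∀ i, dot i x = - ∑ j, b j x * pd j (A i) x - ∑ j, A j x * c i j x
        - pd i π x + ν * ∑ j, pd j (pd j (A i)) x := by
      intro i
      linarith [heq x i]
    have hsq : 0 ≤ ν * ∑ j, ∑ i, pd j (A i) x * pd j (A i) x :=
      mul_nonneg hν (Finset.sum_nonneg (fun j _ => Finset.sum_nonneg
        (fun i _ => mul_self_nonneg _)))
    have hcub : ∀ i j, - (A i x * (A j x * c i j x)) ≤ M * ((A i x) ^ 2 + (A j x) ^ 2) / 2 := by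
      intro i j
      have h1 : |c i j x| ≤ M := hbound x hx i j
      have h2 : - c i j x ≤ M := (neg_le_abs _).trans h1
      have h3 : c i j x ≤ M := (le_abs_self _).trans h1
      nlinarith [sq_nonneg (A i x - A j x), sq_nonneg (A i x + A j x), sq_nonneg (A i x),
        sq_nonneg (A j x), mul_nonneg (sq_nonneg (A i x - A j x)) (sub_nonneg.mpr h2),
        mul_nonneg (sq_nonneg (A i x + A j x)) (sub_nonneg.mpr h3)]
    simp only [hdot_eq, Fin.sum_univ_three] at *
    have c00 := hcub 0 0
    have c01 := hcub 0 1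
    have c02 := hcub 0 2
    have c10 := hcub 1 0
    have c11 := hcub 1 1
    have c12 := hcub 1 2
    have c20 := hcub 2 0
    have c21 := hcub 2 1
    have c22 := hcub 2 2
    nlinarith [hsq, c00, c01, c02, c10, c11, c12, c20, c21, c22]
  -- integrate
  have hmono := setIntegral_mono_on iL
    (g := fun x => - (1 / 2) * (∑ j, pd j (F2 j) x) - (∑ j, pd j (F1 j) x)
        + ν * (∑ j, pd j (F3 j) x) + 3 * M * ∑ i, (A i x) ^ 2)
    ?_ measurableSet_Icc key
  · refine hmono.trans (le_of_eq ?_)
    rw [integral_add, integral_add, integral_sub, integral_const_mul, integral_const_mul,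
      integral_const_mul, I1, I2, I3]
    · ring
    · exact (iD F2 hF2).const_mul _
    · exact iD F1 hF1
    · exact ((iD F2 hF2).const_mul _).sub (iD F1 hF1)
    · exact (iD F3 hF3).const_mul _
    · exact (((iD F2 hF2).const_mul _).sub (iD F1 hF1)).add ((iD F3 hF3).const_mul _)
    · exact iS.const_mul _
  · exact ((((iD F2 hF2).const_mul _).sub (iD F1 hF1)).add ((iD F3 hF3).const_mul _)).add
      (iS.const_mul _)

end energy

section classical

variable {ν T : ℝ} {f u : ℝ → R3 → R3} {p : ℝ → R3 → ℝ}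

lemma IsClassicalSolution.deriv_comp (h : IsClassicalSolution ν T f u p) (hT : 0 < T)
    (x : R3) (i : Fin 3) {s : ℝ} (hs : s ∈ Icc 0 T) :
    derivWithin (fun r => u r x i) (Icc 0 T) s = derivWithin (fun r => u r x) (Icc 0 T) s i := by
  have hd := (h.differentiable_time x s hs).hasDerivWithinAt
  have hi := hasDerivWithinAt_pi.1 hd i
  exact hi.derivWithin (uniqueDiffOn_Icc hT s hs)

lemma IsClassicalSolution.hasDerivWithinAt_comp (h : IsClassicalSolution ν T f u p)
    (x : R3) (i : Fin 3) {s : ℝ} (hs : s ∈ Icc 0 T) :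
    HasDerivWithinAt (fun r => u r x i) (derivWithin (fun r => u r x) (Icc 0 T) s i) (Icc 0 T) s :=
  hasDerivWithinAt_pi.1 (h.differentiable_time x s hs).hasDerivWithinAt i

lemma IsClassicalSolution.contDiff_comp (h : IsClassicalSolution ν T f u p)
    {s : ℝ} (hs : s ∈ Icc 0 T) (i : Fin 3) : ContDiff ℝ 2 (fun x => u s x i) :=
  contDiff_pi.1 (h.contDiff_u s hs) i

lemma IsClassicalSolution.periodic_comp (h : IsClassicalSolution ν T f u p)
    {s : ℝ} (hs : s ∈ Icc 0 T) (i : Fin 3) : SpacePeriodic (fun x => u s x i) := by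
  intro x k
  simp only [h.periodic_u s hs x k]

lemma IsClassicalSolution.pd_comp (h : IsClassicalSolution ν T f u p)
    {s : ℝ} (hs : s ∈ Icc 0 T) (i j : Fin 3) (x : R3) :
    pd j (fun y => u s y i) x = fderiv ℝ (u s) x (Pi.single j 1) i := by
  have hd : HasFDerivAt (u s) (fderiv ℝ (u s) x) x :=
    (((h.contDiff_u s hs).differentiable (by norm_num)) x).hasFDerivAt
  have hi := hasFDerivAt_pi'.1 hd i
  unfold Vale.Agent.Lib.P113.pd
  rw [hi.fderiv]
  rfl

/-- A uniform bound on the space derivatives of a classical solution on the compact cube. -/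
lemma IsClassicalSolution.exists_bound_pd (h : IsClassicalSolution ν T f u p) :
    ∃ M : ℝ, 0 ≤ M ∧ ∀ s ∈ Icc (0 : ℝ) T, ∀ x ∈ Icc (0 : R3) 1, ∀ i j,
      |pd j (fun y => u s y i) x| ≤ M := by
  have hK : IsCompact (Icc (0 : ℝ) T ×ˢ Icc (0 : R3) 1) := isCompact_Icc.prod isCompact_Icc
  have hc := h.continuous_Du.mono (prod_mono_right (subset_univ (Icc (0 : R3) 1)))
  obtain ⟨C, hC⟩ := hK.exists_bound_of_continuousOn hc
  refine ⟨max C 0, le_max_right _ _, ?_⟩
  intro s hs x hx i j
  rw [h.pd_comp hs i j x]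
  have h1 := hC (s, x) ⟨hs, hx⟩
  have h2 : ‖fderiv ℝ (u s) x (Pi.single j 1) i‖ ≤ ‖fderiv ℝ (u s) x (Pi.single j 1)‖ :=
    norm_le_pi_norm _ i
  have h3 := (fderiv ℝ (u s) x).le_opNorm (Pi.single j 1)
  have h4 : ‖(Pi.single j 1 : R3)‖ = 1 := by
    rw [Pi.norm_single]; simp
  rw [h4, mul_one] at h3
  have h5 : |fderiv ℝ (u s) x (Pi.single j 1) i| = ‖fderiv ℝ (u s) x (Pi.single j 1) i‖ := rfl
  rw [h5]
  exact (h2.trans (h3.trans h1)).trans (le_max_left _ _)

end classical

section difference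

variable {ν T : ℝ} {f u v : ℝ → R3 → R3} {p q : ℝ → R3 → ℝ}

lemma energy_step (hν : 0 ≤ ν) (hT : 0 < T) (h1 : IsClassicalSolution ν T f u p)
    (h2 : IsClassicalSolution ν T f v q) {M : ℝ}
    (hM : ∀ s ∈ Icc (0 : ℝ) T, ∀ x ∈ Icc (0 : R3) 1, ∀ i j, |pd j (fun y => u s y i) x| ≤ M)
    {s : ℝ} (hs : s ∈ Icc (0 : ℝ) T) :
    ∫ x in Icc (0 : R3) 1, ∑ i, (v s x i - u s x i) *
        (derivWithin (fun r => v r x i) (Icc 0 T) s - derivWithin (fun r => u r x i) (Icc 0 T) s) ≤
      3 * M * ∫ x in Icc (0 : R3) 1, ∑ i, (v s x i - u s x i) ^ 2 := by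
  have hv2 := h2.contDiff_comp hs
  have hu2 := h1.contDiff_comp hs
  have dv : ∀ i x, DifferentiableAt ℝ (fun y => v s y i) x :=
    fun i x => differentiableAt_of_one ((hv2 i).of_le (by norm_num)) x
  have du : ∀ i x, DifferentiableAt ℝ (fun y => u s y i) x :=
    fun i x => differentiableAt_of_one ((hu2 i).of_le (by norm_num)) x
  have ddv : ∀ i j x, DifferentiableAt ℝ (pd j (fun y => v s y i)) x :=
    fun i j x => differentiableAt_of_one (contDiff_pd (hv2 i) j) x
  have ddu : ∀ i j x, DifferentiableAt ℝ (pd j (fun y => u s y i)) x :=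
    fun i j x => differentiableAt_of_one (contDiff_pd (hu2 i) j) x
  have hpsub : ∀ i j x, pd j (fun y => v s y i - u s y i) x =
      pd j (fun y => v s y i) x - pd j (fun y => u s y i) x :=
    fun i j x => pd_sub (dv i x) (du i x) j
  have hpsub2 : ∀ i j x, pd j (pd j (fun y => v s y i - u s y i)) x =
      pd j (pd j (fun y => v s y i)) x - pd j (pd j (fun y => u s y i)) x := by
    intro i j x
    have : pd j (fun y => v s y i - u s y i) =
        fun y => pd j (fun y => v s y i) y - pd j (fun y => u s y i) y := by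
      funext y
      exact hpsub i j y
    rw [this]
    exact pd_sub (ddv i j x) (ddu i j x) j
  have dq : ∀ x, DifferentiableAt ℝ (q s) x :=
    fun x => differentiableAt_of_one (h2.contDiff_p s hs) x
  have dp : ∀ x, DifferentiableAt ℝ (p s) x :=
    fun x => differentiableAt_of_one (h1.contDiff_p s hs) x
  have cdot : ∀ {w : ℝ → R3 → R3} {r : ℝ → R3 → ℝ}, IsClassicalSolution ν T f w r → ∀ i,
      Continuous (fun x => derivWithin (fun r => w r x i) (Icc 0 T) s) := by
    intro w r h i
    have e : (fun x => derivWithin (fun r => w r x i) (Icc 0 T) s) =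
        fun x => derivWithin (fun r => w r x) (Icc 0 T) s i := by
      funext x
      exact h.deriv_comp hT x i hs
    rw [e]
    have hc := h.continuous_time.comp_continuous (f := fun x : R3 => (s, x))
      (by fun_prop) (fun x => ⟨hs, mem_univ x⟩)
    exact (continuous_apply i).comp hc
  refine energy_rate_le (A := fun i x => v s x i - u s x i) (b := fun i x => v s x i)
    (c := fun i j x => pd j (fun y => u s y i) x) (π := fun x => q s x - p s x)
    (dot := fun i x => derivWithin (fun r => v r x i) (Icc 0 T) s -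
      derivWithin (fun r => u r x i) (Icc 0 T) s) hν
    (fun i => (hv2 i).sub (hu2 i)) (fun i => (hv2 i).of_le (by norm_num))
    ((h2.contDiff_p s hs).sub (h1.contDiff_p s hs))
    ?_ (fun i => h2.periodic_comp hs i) ?_ ?_ ?_ ?_
    (fun i => (cdot h2 i).sub (cdot h1 i)) (fun x hx i j => hM s hs x hx i j)
  · intro i x k
    simp only [h2.periodic_u s hs x k, h1.periodic_u s hs x k]
  · intro x k
    simp only [h2.periodic_p s hs x k, h1.periodic_p s hs x k]
  · intro x
    have e1 := h2.divergence_free s hs x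
    have e2 := h1.divergence_free s hs x
    simp only [hpsub, Finset.sum_sub_distrib, e1, e2, sub_zero]
  · exact fun x => h2.divergence_free s hs x
  · intro x i
    have hvm := h2.momentum s hs x i
    have hum := h1.momentum s hs x i
    have hpi : pd i (fun x => q s x - p s x) x = pd i (q s) x - pd i (p s) x :=
      pd_sub (dq x) (dp x) i
    simp only [hpsub, hpsub2, hpi]
    simp only [Fin.sum_univ_three] at hvm hum ⊢
    linear_combination hvm - hum

end difference

section gronwall

variable {ν T : ℝ} {f u v : ℝ → R3 → R3} {p q : ℝ → R3 → ℝ}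

lemma energy_eq_zero (hν : 0 ≤ ν) (hT : 0 < T) (h1 : IsClassicalSolution ν T f u p)
    (h2 : IsClassicalSolution ν T f v q) {s : ℝ} (hs : s ∈ Icc (0 : ℝ) T) :
    ∫ x in Icc (0 : R3) 1, ∑ i, (v s x i - u s x i) ^ 2 = 0 := by
  obtain ⟨M, hM0, hM⟩ := h1.exists_bound_pd
  set μ : Measure R3 := volume.restrict (Icc (0 : R3) 1) with hμ
  let G : ℝ → R3 → ℝ := fun r x => ∑ i, (v r x i - u r x i) ^ 2
  let D : ℝ → R3 → R3 := fun r x => derivWithin (fun a => v a x) (Icc 0 T) r -
    derivWithin (fun a => u a x) (Icc 0 T) r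
  let G' : ℝ → R3 → ℝ := fun r x => ∑ i, 2 * ((v r x i - u r x i) * D r x i)
  have hK : IsCompact (Icc (0 : ℝ) T ×ˢ Icc (0 : R3) 1) := isCompact_Icc.prod isCompact_Icc
  have hsub : Icc (0 : ℝ) T ×ˢ Icc (0 : R3) 1 ⊆ Icc (0 : ℝ) T ×ˢ univ :=
    prod_mono_right (subset_univ _)
  have cw : ContinuousOn (fun a : ℝ × R3 => v a.1 a.2 - u a.1 a.2) (Icc (0 : ℝ) T ×ˢ univ) :=
    h2.continuous_u.sub h1.continuous_u
  have cD : ContinuousOn (fun a : ℝ × R3 => D a.1 a.2) (Icc (0 : ℝ) T ×ˢ univ) :=
    h2.continuous_time.sub h1.continuous_time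
  have cG : ContinuousOn (fun a : ℝ × R3 => G a.1 a.2) (Icc (0 : ℝ) T ×ˢ univ) := by
    refine continuousOn_finsetSum _ (fun i _ => ?_)
    exact ((continuous_apply i).comp_continuousOn cw).pow 2
  have cG' : ContinuousOn (fun a : ℝ × R3 => G' a.1 a.2) (Icc (0 : ℝ) T ×ˢ univ) := by
    refine continuousOn_finsetSum _ (fun i _ => ?_)
    exact continuousOn_const.mul (((continuous_apply i).comp_continuousOn cw).mul
      ((continuous_apply i).comp_continuousOn cD))
  obtain ⟨B0, hB0⟩ := hK.exists_bound_of_continuousOn (cG.mono hsub)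
  obtain ⟨B1, hB1⟩ := hK.exists_bound_of_continuousOn (cG'.mono hsub)
  -- slices in space are continuous
  have slice : ∀ {g : ℝ → R3 → ℝ}, ContinuousOn (fun a : ℝ × R3 => g a.1 a.2)
      (Icc (0 : ℝ) T ×ˢ univ) → ∀ r ∈ Icc (0 : ℝ) T, Continuous (g r) := by
    intro g hg r hr
    exact hg.comp_continuous (f := fun x : R3 => (r, x)) (by fun_prop) (fun x => ⟨hr, mem_univ x⟩)
  have int_of_cont : ∀ {g : R3 → ℝ}, Continuous g → Integrable g μ := by
    intro g hg
    exact hg.integrableOn_Icc
  have hμfin : IsFiniteMeasure μ := ⟨by simpa [hμ] using isCompact_Icc.measure_lt_top⟩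
  let E : ℝ → ℝ := fun r => ∫ x, G r x ∂μ
  -- continuity of the energy
  have cE : ContinuousOn E (Icc (0 : ℝ) T) := by
    refine continuousOn_of_dominated (bound := fun _ => B0) ?_ ?_ (integrable_const _) ?_
    · intro r hr
      exact (slice cG r hr).aestronglyMeasurable
    · intro r hr
      exact ae_restrict_of_forall_mem measurableSet_Icc (fun x hx => hB0 (r, x) ⟨hr, hx⟩)
    · refine Filter.Eventually.of_forall (fun x => ?_)
      exact cG.comp (f := fun r : ℝ => (r, x)) (by fun_prop) (fun r hr => ⟨hr, mem_univ x⟩)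
  -- the derivative of the integrand in time
  have dG : ∀ x, ∀ r ∈ Ioo (0 : ℝ) T, HasDerivAt (fun a => G a x) (G' r x) r := by
    intro x r hr
    have hr' : r ∈ Icc (0 : ℝ) T := Ioo_subset_Icc_self hr
    have hn : Icc (0 : ℝ) T ∈ 𝓝 r := Icc_mem_nhds hr.1 hr.2
    have hi : ∀ i, HasDerivAt (fun a => v a x i - u a x i) (D r x i) r := fun i =>
      ((h2.hasDerivWithinAt_comp x i hr').hasDerivAt hn).sub
        ((h1.hasDerivWithinAt_comp x i hr').hasDerivAt hn)
    have h3 := (((hi 0).pow 2).add ((hi 1).pow 2)).add ((hi 2).pow 2)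
    have e : (fun a => G a x) = (fun a => v a x 0 - u a x 0) ^ 2 +
        (fun a => v a x 1 - u a x 1) ^ 2 + (fun a => v a x 2 - u a x 2) ^ 2 := by
      funext a
      simp [G, Fin.sum_univ_three]
    rw [e]
    refine h3.congr_deriv ?_
    simp only [G', Fin.sum_univ_three]
    norm_num
    ring
  -- the derivative of the energy
  have dE : ∀ r ∈ Ioo (0 : ℝ) T, HasDerivAt E (∫ x, G' r x ∂μ) r := by
    intro r hr
    have hr' : r ∈ Icc (0 : ℝ) T := Ioo_subset_Icc_self hr
    refine (hasDerivAt_integral_of_dominated_loc_of_deriv_le (μ := μ) (F := G) (F' := G')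
      (s := Ioo (0 : ℝ) T) (bound := fun _ => B1) (Ioo_mem_nhds hr.1 hr.2) ?_ ?_ ?_ ?_ ?_ ?_).2
    · filter_upwards [Ioo_mem_nhds hr.1 hr.2] with a ha
      exact (slice cG a (Ioo_subset_Icc_self ha)).aestronglyMeasurable
    · exact int_of_cont (slice cG r hr')
    · exact (slice cG' r hr').aestronglyMeasurable
    · exact ae_restrict_of_forall_mem measurableSet_Icc
        (fun x hx a ha => hB1 (a, x) ⟨Ioo_subset_Icc_self ha, hx⟩)
    · exact integrable_const _
    · exact Filter.Eventually.of_forall (fun x a ha => dG x a ha)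
  -- the differential inequality
  have hineq : ∀ r ∈ Icc (0 : ℝ) T, ∫ x, G' r x ∂μ ≤ 6 * M * E r := by
    intro r hr
    have hstep := energy_step hν hT h1 h2 hM hr
    have e1 : ∀ x, G' r x = 2 * ∑ i, (v r x i - u r x i) *
        (derivWithin (fun a => v a x i) (Icc 0 T) r - derivWithin (fun a => u a x i) (Icc 0 T) r) := by
      intro x
      simp only [G', D, Finset.mul_sum, h2.deriv_comp hT x _ hr, h1.deriv_comp hT x _ hr,
        Pi.sub_apply]
    simp only [e1]
    rw [integral_const_mul]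
    have : E r = ∫ x in Icc (0 : R3) 1, ∑ i, (v r x i - u r x i) ^ 2 := rfl
    rw [this]
    linarith [hstep]
  -- Gronwall
  let g : ℝ → ℝ := fun r => E r * Real.exp (-(6 * M) * r)
  have cg : ContinuousOn g (Icc (0 : ℝ) T) :=
    cE.mul (Real.continuous_exp.comp (continuous_const.mul continuous_id)).continuousOn
  have dg : ∀ r ∈ Ioo (0 : ℝ) T, HasDerivAt g
      ((∫ x, G' r x ∂μ) * Real.exp (-(6 * M) * r) +
        E r * (Real.exp (-(6 * M) * r) * (-(6 * M)))) r := by
    intro r hr
    have h3 : HasDerivAt (fun a : ℝ => Real.exp (-(6 * M) * a))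
        (Real.exp (-(6 * M) * r) * (-(6 * M))) r := by
      have h4 : HasDerivAt (fun a : ℝ => -(6 * M) * a) (-(6 * M)) r := by
        simpa using (hasDerivAt_id r).const_mul (-(6 * M))
      exact h4.exp
    exact (dE r hr).mul h3
  have anti : AntitoneOn g (Icc (0 : ℝ) T) := by
    refine antitoneOn_of_deriv_nonpos (convex_Icc 0 T) cg ?_ ?_
    · rw [interior_Icc]
      exact fun r hr => (dg r hr).differentiableAt.differentiableWithinAt
    · rw [interior_Icc]
      intro r hr
      rw [(dg r hr).deriv]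
      have h5 := hineq r (Ioo_subset_Icc_self hr)
      have h6 := Real.exp_pos (-(6 * M) * r)
      nlinarith [mul_le_mul_of_nonneg_right h5 h6.le]
  have hE0 : E 0 = 0 := by
    have : ∀ x, G 0 x = 0 := by
      intro x
      simp [G, h1.initial x, h2.initial x]
    simp [E, this]
  have hE_nonneg : 0 ≤ E s := by
    apply integral_nonneg
    intro x
    exact Finset.sum_nonneg (fun i _ => sq_nonneg _)
  have h0 : (0 : ℝ) ∈ Icc (0 : ℝ) T := ⟨le_rfl, hT.le⟩
  have hle := anti h0 hs hs.1
  have hg0 : g 0 = 0 := by simp [g, hE0]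
  rw [hg0] at hle
  have hexp := Real.exp_pos (-(6 * M) * s)
  have hEle : E s ≤ 0 := by
    by_contra hcon
    have hcon' : 0 < E s := not_le.mp hcon
    have := mul_pos hcon' hexp
    simp only [g] at hle
    linarith
  exact le_antisymm hEle hE_nonneg

end gronwall

section final

variable {ν T : ℝ} {f u v : ℝ → R3 → R3} {p q : ℝ → R3 → ℝ}

/-- A continuous nonnegative periodic function with zero integral on the cube vanishes. -/
lemma eq_zero_of_integral_eq_zero {G : R3 → ℝ} (hc : Continuous G) (h0 : ∀ x, 0 ≤ G x)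
    (hp : SpacePeriodic G) (hI : ∫ x in Icc (0 : R3) 1, G x = 0) (x : R3) : G x = 0 := by
  have hint : IntegrableOn G (Icc (0 : R3) 1) := hc.integrableOn_Icc
  have hae : G =ᵐ[volume.restrict (Icc (0 : R3) 1)] 0 :=
    (integral_eq_zero_iff_of_nonneg_ae (Filter.Eventually.of_forall h0) hint).1 hI
  let U : Set R3 := Set.pi univ (fun _ => Ioo (0 : ℝ) 1)
  have hUo : IsOpen U := isOpen_set_pi finite_univ (fun _ _ => isOpen_Ioo)
  have hUQ : U ⊆ Icc (0 : R3) 1 := by
    intro y hy
    constructor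
    · intro i
      exact (hy i (mem_univ i)).1.le
    · intro i
      exact (hy i (mem_univ i)).2.le
  have hae2 : G =ᵐ[volume.restrict U] 0 := ae_restrict_of_ae_restrict_of_subset hUQ hae
  have hon : EqOn G 0 U :=
    Measure.eqOn_open_of_ae_eq hae2 hUo hc.continuousOn continuousOn_const
  have hcl : EqOn G 0 (closure U) := hon.closure hc continuous_const
  have hQ : Icc (0 : R3) 1 ⊆ closure U := by
    intro y hy
    have hU : closure U = Set.pi univ (fun _ => closure (Ioo (0 : ℝ) 1)) :=
      closure_pi_set _ _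
    rw [hU, closure_Ioo zero_ne_one]
    intro i _
    exact ⟨hy.1 i, hy.2 i⟩
  let k : Fin 3 → ℤ := fun i => -⌊x i⌋
  have hy : (fun i => x i + (k i : ℝ)) ∈ Icc (0 : R3) 1 := by
    constructor
    · intro i
      simp only [k, Int.cast_neg, Pi.zero_apply]
      linarith [Int.floor_le (x i)]
    · intro i
      simp only [k, Int.cast_neg, Pi.one_apply]
      linarith [Int.lt_floor_add_one (x i)]
  have := hcl (hQ hy)
  rw [hp x k] at this
  simpa using this

theorem classical_unique (hν : 0 ≤ ν) (hT : 0 < T) (h1 : IsClassicalSolution ν T f u p)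
    (h2 : IsClassicalSolution ν T f v q) :
    ∀ t ∈ Icc 0 T, ∀ x, v t x = u t x ∧ q t x = p t x := by
  -- the velocities agree
  have hvu : ∀ s ∈ Icc (0 : ℝ) T, ∀ x, v s x = u s x := by
    intro s hs x
    have hE := energy_eq_zero hν hT h1 h2 hs
    have hcG : Continuous (fun x => ∑ i, (v s x i - u s x i) ^ 2) := by
      refine continuous_finsetSum _ (fun i _ => ?_)
      exact (((h2.contDiff_comp hs i).continuous).sub ((h1.contDiff_comp hs i).continuous)).pow 2
    have hpG : SpacePeriodic (fun x => ∑ i, (v s x i - u s x i) ^ 2) := by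
      intro y k
      simp only [h2.periodic_u s hs y k, h1.periodic_u s hs y k]
    have hz := eq_zero_of_integral_eq_zero hcG
      (fun y => Finset.sum_nonneg (fun i _ => sq_nonneg _)) hpG hE x
    have hz2 := (Finset.sum_eq_zero_iff_of_nonneg (fun i _ => sq_nonneg _)).1 hz
    funext i
    have := hz2 i (Finset.mem_univ i)
    nlinarith [sq_nonneg (v s x i - u s x i), pow_eq_zero_iff (two_ne_zero) |>.1 this]
  intro t ht x
  refine ⟨hvu t ht x, ?_⟩
  have hfun : v t = u t := funext (hvu t ht)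
  -- the pressure gradients agree
  have hgrad : ∀ y i, pd i (q t) y = pd i (p t) y := by
    intro y i
    have hvm := h2.momentum t ht y i
    have hum := h1.momentum t ht y i
    have hd : derivWithin (fun s => v s y i) (Icc 0 T) t =
        derivWithin (fun s => u s y i) (Icc 0 T) t :=
      derivWithin_congr (fun s hs => by simp only [hvu s hs y]) (by simp only [hvu t ht y])
    rw [hd, hfun] at hvm
    linarith
  have dq : Differentiable ℝ (q t) := (h2.contDiff_p t ht).differentiable (by norm_num)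
  have dp : Differentiable ℝ (p t) := (h1.contDiff_p t ht).differentiable (by norm_num)
  have hfd : ∀ y, fderiv ℝ (fun z => q t z - p t z) y = 0 := by
    intro y
    rw [fderiv_fun_sub (dq y) (dp y)]
    apply ContinuousLinearMap.coe_injective
    apply LinearMap.pi_ext
    intro j a
    have hs : (Pi.single j a : R3) = a • Pi.single j 1 := by
      funext m
      by_cases hm : m = j
      · subst hm; simp
      · simp [Pi.single_eq_of_ne hm]
    have h3 := hgrad y j
    unfold Vale.Agent.Lib.P113.pd at h3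
    simp [hs, h3]
  have hconst := is_const_of_fderiv_eq_zero (dq.sub dp) hfd
  have hcq : Continuous (q t) := (h2.contDiff_p t ht).continuous
  have hcp : Continuous (p t) := (h1.contDiff_p t ht).continuous
  have hmean : ∫ y in Icc (0 : R3) 1, (q t y - p t y) = 0 := by
    rw [integral_sub hcq.integrableOn_Icc hcp.integrableOn_Icc, h2.mean_zero t ht,
      h1.mean_zero t ht, sub_zero]
  have hval : ∀ y, q t y - p t y = q t x - p t x := fun y => hconst y x
  simp only [hval] at hmean
  rw [setIntegral_const] at hmean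
  have hvol : (volume.real (Icc (0 : R3) 1)) = 1 := by
    simp [Measure.real, Real.volume_Icc_pi_toReal (zero_le_one : (0 : R3) ≤ 1)]
  rw [hvol, one_smul] at hmean
  linarith

end final

end Vale.Agent.Lib.P113
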