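import Vale.Agent.Lib.P113.Sim
import Vale.Agent.Lib.P113.Unique

/-!
Assembly of the statement on halting detection from the parts.
-/

namespace Vale.Agent.Lib.P113

open Machine Set

theorem GF_congr {ds ds' : ℕ → Shear} {k k' : ℤ} (hk : 0 ≤ k) (hk' : 0 ≤ k')
    (h : ds k.toNat = ds' k'.toNat) (c : Fin 3) (m : Fin 3 → ℕ) (x : R3) :
    GF ds c m k x = GF ds' c m k' x := by
  unfold GF
  have h1 : ¬ k < 0 := not_lt.2 hk
  have h2 : ¬ k' < 0 := not_lt.2 hk'
  simp only [h1, h2, false_or, h]

theorem force_congr (ν : ℝ) {ds ds' : ℕ → Shear} {t t' : ℝ} (hf : Int.fract t = Int.fract t')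
    (hk : 0 ≤ ⌊t⌋) (hk' : 0 ≤ ⌊t'⌋) (h : ds ⌊t⌋.toNat = ds' ⌊t'⌋.toNat) (x : R3) :
    forceF ν ds t x = forceF ν ds' t' x := by
  funext c
  unfold forceF one GLap
  rw [hf]
  simp only [GF_congr hk hk' h]

theorem floor_nonneg_of {t : ℝ} (ht : 3 ≤ t) : 3 ≤ ⌊t⌋ := by
  apply Int.le_floor.2
  exact_mod_cast ht

theorem toNat_ge {t : ℝ} (ht : 3 ≤ t) : 3 ≤ ⌊t⌋.toNat := by
  have := floor_nonneg_of ht
  omega

/-- The force compiled from a machine and an input. -/
noncomputable def forceOf (ν : ℝ) (M : Machine) (w : List ℕ) : ℝ → R3 → R3 :=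
  forceF ν (shearOf M w)

theorem forceOf_periodic (ν : ℝ) (M : Machine) (w : List ℕ) {t : ℝ} (ht : t ≥ 3) (x : R3) :
    forceOf ν M w (t + 13) x = forceOf ν M w t x := by
  have h1 : Int.fract (t + 13) = Int.fract t := by
    simp
  have h2 : ⌊t + 13⌋ = ⌊t⌋ + 13 := by
    simp
  have h3 := floor_nonneg_of ht
  apply force_congr ν h1 (by omega) (by omega)
  rw [h2, shearOf_stage M w (by omega), shearOf_stage M w (by omega)]
  congr 1
  omega

theorem forceOf_indep (ν : ℝ) (M : Machine) (w w' : List ℕ) {t : ℝ} (ht : t ≥ 3) (x : R3) :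
    forceOf ν M w t x = forceOf ν M w' t x := by
  have h3 := floor_nonneg_of ht
  apply force_congr ν rfl (by omega) (by omega)
  rw [shearOf_stage M w (by omega), shearOf_stage M w' (by omega)]

/-- The statement follows from the effectivity of the compiled forces. -/
theorem halting_detection_of_effective (ν : ℝ) (hν : 0 < ν)
    (hE : ∃ compile : Machine × List ℕ → Nat.Partrec.Code, Computable compile ∧
      ∀ M w, M.Valid → Computes (compile (M, w)) (forceF ν (shearOf M w))) :
    HaltingDetection ν := by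
  obtain ⟨compile, hcomp, hc⟩ := hE
  refine ⟨![0, 0, 0], targetO, 3, compile, forceOf ν, targetO_open, targetO_periodic, by norm_num,
    hcomp, ?_⟩
  intro M hM
  refine ⟨⟨13, by norm_num, fun w _ t ht x => forceOf_periodic ν M w ht x⟩,
    fun w w' _ _ t ht x => forceOf_indep ν M w w' ht x, ?_⟩
  intro w hw
  have hds := shearOf_valid hM w
  refine ⟨force_isSmooth ν hds, hc M w hM, velocity (shearOf M w), fun _ _ => 0,
    pathX (shearOf M w) ![0, 0, 0], velocity_isGlobal ν hds, ?_, path_isTrajectory _ hds _, ?_,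
    path_iff hM hw⟩
  · intro T hT v q h
    exact classical_unique hν.le hT (velocity_isClassical ν hds hT) h
  · intro Y hY t ht
    exact path_unique _ hds _ hY ht

end Vale.Agent.Lib.P113
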