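import Vale.Agent.Lib.P113.Field

/-!
The path of a particle in the field made of shear slots.
-/

namespace Vale.Agent.Lib.P113

open Set Filter Topology
open scoped ContDiff

/-- The effect of one slot on a point. -/
noncomputable def stepX (d : Shear) (x : R3) : R3 :=
  Function.update x d.i (x d.i + d.g x)

/-- The positions at integer times. -/
noncomputable def orbit (ds : ℕ → Shear) (a : R3) : ℕ → R3
  | 0 => a
  | k + 1 => stepX (ds k) (orbit ds a k)

/-- The position inside slot `k`, at the time parameter `s`. -/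
noncomputable def xLoc (ds : ℕ → Shear) (a : R3) (k : ℕ) (s : ℝ) : R3 :=
  Function.update (orbit ds a k) (ds k).i
    (orbit ds a k (ds k).i + theta (s - k) * (ds k).g (orbit ds a k))

/-- The path. -/
noncomputable def pathX (ds : ℕ → Shear) (a : R3) (t : ℝ) : R3 :=
  xLoc ds a ⌊t⌋₊ t

theorem xLoc_start (ds : ℕ → Shear) (a : R3) (k : ℕ) {s : ℝ} (h : s ≤ k + 1 / 4) :
    xLoc ds a k s = orbit ds a k := by
  unfold xLoc
  rw [theta_zero (by linarith)]
  simp

theorem xLoc_end (ds : ℕ → Shear) (a : R3) (k : ℕ) {s : ℝ} (h : k + 1 / 2 ≤ s) :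
    xLoc ds a k s = orbit ds a (k + 1) := by
  unfold xLoc
  rw [theta_one (by linarith)]
  simp [orbit, stepX]

/-- Near `t ≥ 0` and for times `s ≥ 0` the path stays in the formula of the slot of `t`. -/
theorem path_local (ds : ℕ → Shear) (a : R3) {t s : ℝ} (ht : 0 ≤ t) (hs : 0 ≤ s)
    (hst : |s - t| < 1 / 8) : pathX ds a s = xLoc ds a ⌊t⌋₊ s := by
  unfold pathX
  set k := ⌊t⌋₊ with hk
  have h1 : (k : ℝ) ≤ t := Nat.floor_le ht
  have h2 : t < k + 1 := Nat.lt_floor_add_one t
  obtain ⟨h3, h4⟩ := abs_lt.1 hst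
  by_cases c1 : (k : ℝ) ≤ s
  · by_cases c2 : s < k + 1
    · have e : ⌊s⌋₊ = k := (Nat.floor_eq_iff hs).2 ⟨c1, c2⟩
      rw [e]
    · have e : ⌊s⌋₊ = k + 1 := (Nat.floor_eq_iff hs).2 ⟨by push_cast; linarith, by push_cast; linarith⟩
      rw [e, xLoc_start ds a (k + 1) (by push_cast; linarith), xLoc_end ds a k (by linarith)]
  · have hk0 : 0 < k := by
      by_contra h0
      have : k = 0 := by omega
      rw [this] at c1
      simp at c1
      linarith
    obtain ⟨r, hr⟩ := Nat.exists_eq_succ_of_ne_zero hk0.ne'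
    have hrc : (k : ℝ) = r + 1 := by rw [hr]; push_cast; ring
    have e : ⌊s⌋₊ = r := (Nat.floor_eq_iff hs).2 ⟨by linarith, by linarith⟩
    rw [e, xLoc_end ds a r (by linarith), xLoc_start ds a k (by linarith), hr]

theorem path_eq_loc (ds : ℕ → Shear) (a : R3) (k : ℕ) {s : ℝ} (h1 : (k : ℝ) ≤ s)
    (h2 : s ≤ k + 1) : pathX ds a s = xLoc ds a k s := by
  have hs : 0 ≤ s := le_trans (Nat.cast_nonneg k) h1
  by_cases c : s < k + 1
  · unfold pathX
    rw [(Nat.floor_eq_iff hs).2 ⟨h1, c⟩]
  · have hs' : s = k + 1 := le_antisymm h2 (not_lt.1 c)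
    unfold pathX
    have e : ⌊s⌋₊ = k + 1 := (Nat.floor_eq_iff hs).2 ⟨by push_cast; linarith, by push_cast; linarith⟩
    rw [e, xLoc_start ds a (k + 1) (by push_cast; linarith), xLoc_end ds a k (by linarith)]

theorem path_zero (ds : ℕ → Shear) (a : R3) : pathX ds a 0 = a := by
  have := path_eq_loc ds a 0 (s := 0) (by simp) (by simp)
  rw [this, xLoc_start ds a 0 (by norm_num)]
  rfl

theorem path_nat (ds : ℕ → Shear) (a : R3) (k : ℕ) : pathX ds a k = orbit ds a k := by
  rw [path_eq_loc ds a k le_rfl (by linarith), xLoc_start ds a k (by linarith)]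

theorem xLoc_hasDeriv (ds : ℕ → Shear) (a : R3) (k : ℕ) (t : ℝ) :
    HasDerivAt (xLoc ds a k) (Function.update (0 : R3) (ds k).i
      (prof (t - k) * (ds k).g (orbit ds a k))) t := by
  rw [hasDerivAt_pi]
  intro c
  by_cases hc : c = (ds k).i
  · subst hc
    simp only [xLoc, Function.update_self]
    have h1 : HasDerivAt (fun s : ℝ => theta (s - k)) (prof (t - k)) t :=
      (theta_hasDeriv (t - k)).comp_sub_const t _
    exact (h1.mul_const _).const_add _
  · simp only [xLoc, Function.update_of_ne hc]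
    simpa using hasDerivAt_const t (orbit ds a k c)

theorem GF_zero_slot (ds : ℕ → Shear) (c : Fin 3) (k : ℕ) (x : R3) :
    GF ds c 0 (k : ℤ) x = if (ds k).i = c then (ds k).g x else 0 := by
  unfold GF
  have h : ¬ ((k : ℤ) < 0) := by omega
  have h2 : (k : ℤ).toNat = k := by simp
  simp only [h, false_or, h2, ne_eq]
  by_cases h3 : (ds k).i = c
  · simp [h3, Shear.g]
  · simp [h3]

theorem floor_cast_eq {t : ℝ} (ht : 0 ≤ t) : ⌊t⌋ = ((⌊t⌋₊ : ℕ) : ℤ) :=
  (Int.natCast_floor_eq_floor ht).symm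

theorem fract_eq_of_nonneg {t : ℝ} (ht : 0 ≤ t) : Int.fract t = t - (⌊t⌋₊ : ℝ) := by
  unfold Int.fract
  rw [floor_cast_eq ht]
  simp

/-- The velocity at a point in the current slot. -/
theorem velocity_apply (ds : ℕ → Shear) {t : ℝ} (ht : 0 ≤ t) (x : R3) (c : Fin 3) :
    velocity ds t x c = prof (t - (⌊t⌋₊ : ℝ)) *
      (if (ds ⌊t⌋₊).i = c then (ds ⌊t⌋₊).g x else 0) := by
  unfold velocity one
  rw [fract_eq_of_nonneg ht, floor_cast_eq ht, GF_zero_slot]

/-- The path solves the equation of motion. -/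
theorem path_isTrajectory (ds : ℕ → Shear) (hds : ∀ k, (ds k).Valid) (a : R3) :
    IsTrajectory (velocity ds) a (pathX ds a) := by
  refine ⟨path_zero ds a, fun t ht => ?_⟩
  set k := ⌊t⌋₊ with hk
  have h1 := (xLoc_hasDeriv ds a k t).hasDerivWithinAt (s := Ici 0)
  have e1 : pathX ds a =ᶠ[𝓝[Ici 0] t] xLoc ds a k := by
    have h3 : ∀ᶠ s in 𝓝[Ici 0] t, |s - t| < 1 / 8 :=
      nhdsWithin_le_nhds (eventually_near t)
    filter_upwards [h3, self_mem_nhdsWithin] with s hs hs2
    exact path_local ds a ht hs2 hs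
  have e2 : pathX ds a t = xLoc ds a k t := path_local ds a ht ht (by simp)
  have h4 := h1.congr_of_eventuallyEq e1 e2
  have h5 : velocity ds t (pathX ds a t)
      = Function.update (0 : R3) (ds k).i (prof (t - k) * (ds k).g (orbit ds a k)) := by
    funext c
    rw [velocity_apply ds ht, ← hk, e2]
    by_cases hc : c = (ds k).i
    · subst hc
      have : (ds k).g (xLoc ds a k t) = (ds k).g (orbit ds a k) := (ds k).g_update (hds k) _ _
      simp [this]
    · have hc' : ¬ (ds k).i = c := fun h => hc h.symm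
      simp [hc', Function.update_of_ne hc]
  rw [h5]
  exact h4

/-- Uniqueness inside one slot. -/
theorem slot_aux (ds : ℕ → Shear) (hds : ∀ k, (ds k).Valid) (a : R3) {Y : ℝ → R3}
    (hY : IsTrajectory (velocity ds) a Y) (hcont : ContinuousOn Y (Ici 0)) (k : ℕ)
    (h0 : Y k = pathX ds a k) : ∀ s ∈ Icc (k : ℝ) (k + 1), Y s = pathX ds a s := by
  rw [path_nat] at h0
  set o := orbit ds a k with ho
  set i := (ds k).i with hi
  have hsub : Icc (k : ℝ) (k + 1) ⊆ Ici 0 := fun s hs =>
    le_trans (Nat.cast_nonneg k) hs.1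
  have hfl : ∀ x ∈ Ico (k : ℝ) (k + 1), ⌊x⌋₊ = k := fun x hx =>
    (Nat.floor_eq_iff (le_trans (Nat.cast_nonneg k) hx.1)).2 hx
  have hder : ∀ x ∈ Ico (k : ℝ) (k + 1), ∀ c : Fin 3,
      HasDerivWithinAt (fun s => Y s c)
        (prof (x - k) * (if i = c then (ds k).g (Y x) else 0)) (Ici x) x := by
    intro x hx c
    have hx0 : 0 ≤ x := le_trans (Nat.cast_nonneg k) hx.1
    have h1 := (hY.2 x hx0).mono (Ici_subset_Ici.2 hx0)
    have h2 := hasDerivWithinAt_pi.1 h1 c
    rw [velocity_apply ds hx0, hfl x hx] at h2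
    exact h2
  have hCont : ∀ c : Fin 3, ContinuousOn (fun s => Y s c) (Icc (k : ℝ) (k + 1)) := fun c =>
    (continuous_apply c).comp_continuousOn (hcont.mono hsub)
  have hother : ∀ c, c ≠ i → ∀ s ∈ Icc (k : ℝ) (k + 1), Y s c = o c := by
    intro c hc s hs
    have h1 := constant_of_has_deriv_right_zero (hCont c) (fun x hx => by
      have h2 := hder x hx c
      simpa [hc.symm] using h2) s hs
    rw [h1, h0]
  have hYform : ∀ s ∈ Icc (k : ℝ) (k + 1), Y s = Function.update o i (Y s i) := by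
    intro s hs
    funext c
    by_cases hc : c = i
    · subst hc; simp
    · rw [Function.update_of_ne hc]
      exact hother c hc s hs
  have hg : ∀ s ∈ Icc (k : ℝ) (k + 1), (ds k).g (Y s) = (ds k).g o := by
    intro s hs
    rw [hYform s hs]
    exact (ds k).g_update (hds k) _ _
  have hmain : ∀ s ∈ Icc (k : ℝ) (k + 1),
      Y s i - theta (s - k) * (ds k).g o = Y k i - theta ((k : ℝ) - k) * (ds k).g o := by
    intro s hs
    have hc2 : ContinuousOn (fun s => Y s i - theta (s - k) * (ds k).g o) (Icc (k : ℝ) (k + 1)) :=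
      (hCont i).sub (((theta_smooth.continuous.comp (continuous_id.sub continuous_const)).mul
        continuous_const).continuousOn)
    exact constant_of_has_deriv_right_zero hc2 (fun x hx => by
      have h2 := hder x hx i
      simp only [if_true, hg x (Ico_subset_Icc_self hx)] at h2
      have h3 : HasDerivAt (fun s : ℝ => theta (s - k) * (ds k).g o)
          (prof (x - k) * (ds k).g o) x :=
        ((theta_hasDeriv (x - k)).comp_sub_const x _).mul_const _
      have h4 : HasDerivWithinAt (fun s => Y s i - theta (s - k) * (ds k).g o)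
          (prof (x - k) * (ds k).g o - prof (x - k) * (ds k).g o) (Ici x) x :=
        h2.sub h3.hasDerivWithinAt
      simpa using h4) s hs
  intro s hs
  rw [path_eq_loc ds a k hs.1 hs.2]
  have h5 := hmain s hs
  have h6 : theta ((k : ℝ) - k) = 0 := theta_zero (by simp)
  rw [h6, zero_mul, sub_zero, h0] at h5
  have e3 : Y s i = o i + theta (s - k) * (ds k).g o := by linarith
  have e := hYform s hs
  rw [e3] at e
  rw [e]
  rfl

/-- The equation of motion determines the path. -/
theorem path_unique (ds : ℕ → Shear) (hds : ∀ k, (ds k).Valid) (a : R3) {Y : ℝ → R3}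
    (hY : IsTrajectory (velocity ds) a Y) {t : ℝ} (ht : 0 ≤ t) : Y t = pathX ds a t := by
  have hcont : ContinuousOn Y (Ici 0) := fun s hs => (hY.2 s hs).continuousWithinAt
  have key : ∀ k : ℕ, ∀ s ∈ Icc (k : ℝ) (k + 1), Y s = pathX ds a s := by
    intro k
    induction k with
    | zero =>
      exact_mod_cast slot_aux ds hds a hY hcont 0 (by
        simpa [hY.1] using (path_zero ds a).symm)
    | succ k ih =>
      have h1 := ih (k + 1) ⟨by linarith, le_rfl⟩
      have h2 := slot_aux ds hds a hY hcont (k + 1) (by push_cast; exact h1)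
      intro s hs
      exact h2 s hs
  have h0 := key ⌊t⌋₊ t ⟨Nat.floor_le ht, (Nat.lt_floor_add_one t).le⟩
  exact h0

end Vale.Agent.Lib.P113
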