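import Vale.Agent.Lib.P113.Schedule

/-!
Smoothness, periodicity and all derivatives of the profiles and of the time profile.
The basic device: a smooth function on `ℝ` which vanishes on `(-∞, l]` and on `[e, ∞)` with
`0 < l`, `e < 1` gives a smooth periodic function through the fractional part.
-/

namespace Vale.Agent.Lib.P113

open Set Filter Topology
open scoped ContDiff

/-- Flatness: smooth, zero on `(-∞, l]` and on `[e, ∞)`. -/
structure Flat (l e : ℝ) (G : ℝ → ℝ) : Prop where
  smooth : ContDiff ℝ ∞ G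
  left : ∀ x, x ≤ l → G x = 0
  right : ∀ x, e ≤ x → G x = 0

theorem Flat.deriv {l e : ℝ} {G : ℝ → ℝ} (h : Flat l e G) : Flat l e (deriv G) := by
  have hd : ContDiff ℝ ∞ (_root_.deriv G) :=
    (contDiff_infty_iff_deriv.mp h.smooth).2
  refine ⟨hd, ?_, ?_⟩
  · have key : ∀ y, y < l → _root_.deriv G y = 0 := by
      intro y hy
      have e' : G =ᶠ[𝓝 y] fun _ => (0 : ℝ) := by
        filter_upwards [Iio_mem_nhds hy] with z hz
        exact h.left z (le_of_lt hz)
      rw [e'.deriv_eq]; simp
    have hclosed : IsClosed {y : ℝ | _root_.deriv G y = 0} :=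
      isClosed_eq hd.continuous continuous_const
    have hsub : Iio l ⊆ {y : ℝ | _root_.deriv G y = 0} := fun y hy => key y hy
    have := hclosed.closure_subset_iff.mpr hsub
    rw [closure_Iio] at this
    exact fun x hx => this hx
  · have key : ∀ y, e < y → _root_.deriv G y = 0 := by
      intro y hy
      have e' : G =ᶠ[𝓝 y] fun _ => (0 : ℝ) := by
        filter_upwards [Ioi_mem_nhds hy] with z hz
        exact h.right z (le_of_lt hz)
      rw [e'.deriv_eq]; simp
    have hclosed : IsClosed {y : ℝ | _root_.deriv G y = 0} :=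
      isClosed_eq hd.continuous continuous_const
    have hsub : Ioi e ⊆ {y : ℝ | _root_.deriv G y = 0} := fun y hy => key y hy
    have := hclosed.closure_subset_iff.mpr hsub
    rw [closure_Ioi] at this
    exact fun x hx => this hx

theorem Flat.differentiable {l e : ℝ} {G : ℝ → ℝ} (h : Flat l e G) : Differentiable ℝ G :=
  h.smooth.differentiable (by simp)

/-- Near an integer, the composition with the fractional part vanishes. -/
theorem Flat.eventually_zero_at_int {l e : ℝ} {G : ℝ → ℝ} (h : Flat l e G) (hl : 0 < l)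
    (he : e < 1) (n : ℤ) : ∀ᶠ z in 𝓝 (n : ℝ), G (Int.fract z) = 0 := by
  obtain ⟨δ, hδ, h1, h2, h3⟩ : ∃ δ : ℝ, 0 < δ ∧ δ ≤ l ∧ δ ≤ 1 - e ∧ δ ≤ 1 :=
    ⟨min (min l (1 - e)) 1, lt_min (lt_min hl (by linarith)) one_pos,
      (min_le_left _ _).trans (min_le_left _ _), (min_le_left _ _).trans (min_le_right _ _),
      min_le_right _ _⟩
  have hm : Ioo ((n : ℝ) - δ) (n + δ) ∈ 𝓝 (n : ℝ) :=
    Ioo_mem_nhds (by linarith) (by linarith)
  filter_upwards [hm] with z hz
  by_cases hzn : (n : ℝ) ≤ z
  · apply h.left
    have hf : ⌊z⌋ = n := by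
      rw [Int.floor_eq_iff]
      constructor
      · exact hzn
      · have := hz.2; linarith
    rw [Int.fract, hf]
    have := hz.2; linarith
  · apply h.right
    have hzn' : z < n := not_le.mp hzn
    have hf : ⌊z⌋ = n - 1 := by
      rw [Int.floor_eq_iff]
      push_cast
      constructor
      · have := hz.1; linarith
      · linarith
    rw [Int.fract, hf]
    push_cast
    have := hz.1; linarith

/-- Derivative of the composition with the fractional part. -/
theorem Flat.hasDerivAt_comp_fract {l e : ℝ} {G : ℝ → ℝ} (h : Flat l e G) (hl : 0 < l)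
    (he : e < 1) (y : ℝ) :
    HasDerivAt (fun z => G (Int.fract z)) (_root_.deriv G (Int.fract y)) y := by
  by_cases hy : Int.fract y = 0
  · -- an integer
    obtain ⟨n, hn⟩ : ∃ n : ℤ, y = n := by
      refine ⟨⌊y⌋, ?_⟩
      have := Int.fract_add_floor y
      rw [hy, zero_add] at this
      exact this.symm
    have h0 : _root_.deriv G (Int.fract y) = 0 := by
      rw [hy]; exact h.deriv.left 0 hl.le
    rw [h0]
    have ev := h.eventually_zero_at_int hl he n
    rw [← hn] at ev
    exact (hasDerivAt_const y (0 : ℝ)).congr_of_eventuallyEq ev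
  · -- not an integer: the fractional part is locally a translation
    have hpos : 0 < Int.fract y := lt_of_le_of_ne (Int.fract_nonneg y) (Ne.symm hy)
    have hfl : (⌊y⌋ : ℝ) < y := by
      have := Int.fract_add_floor y; linarith
    have hfu : y < ⌊y⌋ + 1 := Int.lt_floor_add_one y
    have hm : Ioo (⌊y⌋ : ℝ) (⌊y⌋ + 1) ∈ 𝓝 y := Ioo_mem_nhds hfl hfu
    have ev : (fun z => G (Int.fract z)) =ᶠ[𝓝 y] fun z => G (z - ⌊y⌋) := by
      filter_upwards [hm] with z hz
      have hf : ⌊z⌋ = ⌊y⌋ := by
        rw [Int.floor_eq_iff]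
        exact ⟨hz.1.le, hz.2⟩
      rw [Int.fract, hf]
    have hG : HasDerivAt G (_root_.deriv G (y - ⌊y⌋)) (y - ⌊y⌋) :=
      (h.differentiable _).hasDerivAt
    have hcomp : HasDerivAt (fun z => G (z - ⌊y⌋)) (_root_.deriv G (y - ⌊y⌋)) y := by
      have := hG.comp_sub_const y (⌊y⌋ : ℝ)
      simpa using this
    have : Int.fract y = y - ⌊y⌋ := rfl
    rw [this]
    exact hcomp.congr_of_eventuallyEq ev

theorem Flat.deriv_comp_fract {l e : ℝ} {G : ℝ → ℝ} (h : Flat l e G) (hl : 0 < l) (he : e < 1) :
    _root_.deriv (fun z => G (Int.fract z)) = fun y => _root_.deriv G (Int.fract y) :=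
  funext fun y => (h.hasDerivAt_comp_fract hl he y).deriv

theorem Flat.contDiff_comp_fract_nat {l e : ℝ} {G : ℝ → ℝ} (h : Flat l e G) (hl : 0 < l)
    (he : e < 1) (m : ℕ) : ContDiff ℝ m (fun z => G (Int.fract z)) := by
  induction m generalizing G with
  | zero =>
    have hd : Differentiable ℝ (fun z => G (Int.fract z)) :=
      fun y => (h.hasDerivAt_comp_fract hl he y).differentiableAt
    simpa using hd.continuous
  | succ m ih =>
    have hcast : ((m + 1 : ℕ) : WithTop ℕ∞) = (m : WithTop ℕ∞) + 1 := by push_cast; rfl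
    rw [hcast, contDiff_succ_iff_deriv]
    refine ⟨fun y => (h.hasDerivAt_comp_fract hl he y).differentiableAt, by simp, ?_⟩
    rw [h.deriv_comp_fract hl he]
    exact ih h.deriv

theorem Flat.contDiff_comp_fract {l e : ℝ} {G : ℝ → ℝ} (h : Flat l e G) (hl : 0 < l)
    (he : e < 1) : ContDiff ℝ ∞ (fun z => G (Int.fract z)) := by
  rw [contDiff_infty]
  intro m
  exact h.contDiff_comp_fract_nat hl he m

/-- Iterated derivatives of a flat function. -/
theorem Flat.iteratedDeriv_flat {l e : ℝ} {G : ℝ → ℝ} (h : Flat l e G) (m : ℕ) :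
    Flat l e (iteratedDeriv m G) := by
  induction m with
  | zero => simpa using h
  | succ m ih =>
    rw [iteratedDeriv_succ]
    exact ih.deriv

theorem Flat.iteratedDeriv_comp_fract {l e : ℝ} {G : ℝ → ℝ} (h : Flat l e G) (hl : 0 < l)
    (he : e < 1) (m : ℕ) :
    iteratedDeriv m (fun z => G (Int.fract z)) = fun y => iteratedDeriv m G (Int.fract y) := by
  induction m with
  | zero => simp
  | succ m ih =>
    rw [iteratedDeriv_succ, ih, (h.iteratedDeriv_flat m).deriv_comp_fract hl he]
    funext y
    rw [iteratedDeriv_succ]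

/-! ### The step and the time profile -/

theorem contDiff_stepB' : ContDiff ℝ ∞ stepB := contDiff_stepB

theorem contDiff_iteratedDeriv_stepB (a : ℕ) : ContDiff ℝ ∞ (iteratedDeriv a stepB) := by
  induction a with
  | zero => simpa using contDiff_stepB'
  | succ a ih =>
    rw [iteratedDeriv_succ]
    exact (contDiff_infty_iff_deriv.mp ih).2

theorem differentiable_iteratedDeriv_stepB (a : ℕ) : Differentiable ℝ (iteratedDeriv a stepB) :=
  (contDiff_iteratedDeriv_stepB a).differentiable (by simp)

theorem hasDerivAt_iteratedDeriv_stepB (a : ℕ) (x : ℝ) :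
    HasDerivAt (iteratedDeriv a stepB) (iteratedDeriv (a + 1) stepB x) x := by
  rw [iteratedDeriv_succ]
  exact (differentiable_iteratedDeriv_stepB a x).hasDerivAt

/-- The function of the slot variable behind `tauJet`. -/
noncomputable def tauBase (a : ℕ) (θ : ℝ) : ℝ := 3 ^ a * iteratedDeriv a stepB (3 * θ - 1)

theorem hasDerivAt_tauBase (a : ℕ) (θ : ℝ) : HasDerivAt (tauBase a) (tauBase (a + 1) θ) θ := by
  have h1 : HasDerivAt (fun θ : ℝ => 3 * θ - 1) 3 θ := by
    simpa using ((hasDerivAt_id θ).const_mul (3 : ℝ)).sub_const 1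
  have h2 := (hasDerivAt_iteratedDeriv_stepB a (3 * θ - 1)).comp θ h1
  have h3 := h2.const_mul ((3 : ℝ) ^ a)
  refine HasDerivAt.congr_deriv h3 ?_
  simp only [tauBase]
  ring

theorem deriv_tauBase (a : ℕ) : deriv (tauBase a) = tauBase (a + 1) :=
  funext fun θ => (hasDerivAt_tauBase a θ).deriv

theorem flat_tauBase (a : ℕ) : Flat (1 / 3) (2 / 3) (tauBase (a + 1)) := by
  refine ⟨?_, fun x hx => ?_, fun x hx => ?_⟩
  · have h : ContDiff ℝ ∞ (fun θ : ℝ => 3 * θ - 1) := by fun_prop
    exact contDiff_const.mul ((contDiff_iteratedDeriv_stepB (a + 1)).comp h)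
  · simp only [tauBase]
    rw [iteratedDeriv_stepB_left (a + 1) (by linarith)]
    simp
  · simp only [tauBase]
    rw [iteratedDeriv_stepB_right a (by linarith)]
    simp

theorem tauJet_eq (a : ℕ) (t : ℝ) : tauJet a t = tauBase a (Int.fract t) := rfl

/-- The derivative of the time profiles. -/
theorem hasDerivAt_tauJet (a : ℕ) (t : ℝ) : HasDerivAt (tauJet (a + 1)) (tauJet (a + 2) t) t := by
  have h := (flat_tauBase a).hasDerivAt_comp_fract (by norm_num) (by norm_num) t
  rw [deriv_tauBase] at h
  exact h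

theorem contDiff_tauJet (a : ℕ) : ContDiff ℝ ∞ (tauJet (a + 1)) :=
  (flat_tauBase a).contDiff_comp_fract (by norm_num) (by norm_num)

theorem tauJet_zero_of_not_mem (a : ℕ) {t : ℝ}
    (h : Int.fract t ≤ 1 / 3 ∨ 2 / 3 ≤ Int.fract t) : tauJet (a + 1) t = 0 := by
  rcases h with h | h
  · exact (flat_tauBase a).left _ h
  · exact (flat_tauBase a).right _ h

theorem tauJet_add_nat (a P : ℕ) (t : ℝ) : tauJet a (t + P) = tauJet a t := by
  simp only [tauJet]
  rw [Int.fract_add_natCast]

/-- Near `t₀`, a nonzero value of a time profile is in the slot of `t₀`. -/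
theorem slot_local (t₀ : ℝ) : ∀ᶠ y in 𝓝 t₀, (∀ a : ℕ, tauJet (a + 1) y = 0) ∨ ⌊y⌋₊ = ⌊t₀⌋₊ := by
  by_cases hy : Int.fract t₀ = 0
  · obtain ⟨n, hn⟩ : ∃ n : ℤ, t₀ = n := by
      refine ⟨⌊t₀⌋, ?_⟩
      have := Int.fract_add_floor t₀
      rw [hy, zero_add] at this
      exact this.symm
    have hm : Ioo ((n : ℝ) - 1 / 3) (n + 1 / 3) ∈ 𝓝 t₀ := by
      rw [hn]; exact Ioo_mem_nhds (by linarith) (by linarith)
    filter_upwards [hm] with z hz
    left
    intro a
    apply tauJet_zero_of_not_mem
    by_cases hzn : (n : ℝ) ≤ z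
    · left
      have hf : ⌊z⌋ = n := by
        rw [Int.floor_eq_iff]
        exact ⟨hzn, by have := hz.2; linarith⟩
      rw [Int.fract, hf]
      have := hz.2; linarith
    · right
      have hzn' : z < n := not_le.mp hzn
      have hf : ⌊z⌋ = n - 1 := by
        rw [Int.floor_eq_iff]
        push_cast
        exact ⟨by have := hz.1; linarith, by linarith⟩
      rw [Int.fract, hf]
      push_cast
      have := hz.1; linarith
  · have hpos : 0 < Int.fract t₀ := lt_of_le_of_ne (Int.fract_nonneg t₀) (Ne.symm hy)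
    have hfl : (⌊t₀⌋ : ℝ) < t₀ := by
      have := Int.fract_add_floor t₀; linarith
    have hfu : t₀ < ⌊t₀⌋ + 1 := Int.lt_floor_add_one t₀
    have hm : Ioo (⌊t₀⌋ : ℝ) (⌊t₀⌋ + 1) ∈ 𝓝 t₀ := Ioo_mem_nhds hfl hfu
    filter_upwards [hm] with z hz
    right
    have hf : ⌊z⌋ = ⌊t₀⌋ := by
      rw [Int.floor_eq_iff]
      exact ⟨hz.1.le, hz.2⟩
    rw [← Int.floor_toNat, ← Int.floor_toNat, hf]

/-! ### Rho -/

theorem rho_zero_of_le {s : ℝ} (h : s ≤ 1 / 3) : rho s = 0 :=
  Real.smoothTransition.zero_of_nonpos (by linarith)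

theorem rho_one_of_le {s : ℝ} (h : 2 / 3 ≤ s) : rho s = 1 :=
  Real.smoothTransition.one_of_one_le (by linarith)

theorem hasDerivAt_rho (s : ℝ) : HasDerivAt rho (tauBase 1 s) s := by
  have h1 : HasDerivAt (fun θ : ℝ => 3 * θ - 1) 3 s := by
    simpa using ((hasDerivAt_id s).const_mul (3 : ℝ)).sub_const 1
  have h2 : HasDerivAt stepB (iteratedDeriv 1 stepB (3 * s - 1)) (3 * s - 1) := by
    have := hasDerivAt_iteratedDeriv_stepB 0 (3 * s - 1)
    simpa using this
  have h3 := h2.comp s h1
  refine HasDerivAt.congr_deriv h3 ?_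
  simp only [tauBase]
  ring

theorem continuous_rho : Continuous rho := by
  unfold rho
  exact Real.smoothTransition.continuous.comp (by fun_prop)

theorem rho_mem_Icc (s : ℝ) : rho s ∈ Icc (0 : ℝ) 1 :=
  ⟨Real.smoothTransition.nonneg _, Real.smoothTransition.le_one _⟩

/-! ### The windows and the profiles -/

/-- The window as a sum of two translated steps: derivatives. -/
noncomputable def stepShift (c d : ℝ) (x : ℝ) : ℝ := stepB ((x - c) / d)

theorem iteratedDeriv_stepShift (c d : ℝ) (m : ℕ) :
    iteratedDeriv m (stepShift c d) =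
      fun x => (1 / d) ^ m * iteratedDeriv m stepB ((x - c) / d) := by
  induction m with
  | zero => funext x; simp [stepShift]
  | succ m ih =>
    rw [iteratedDeriv_succ, ih]
    funext x
    have h1 : HasDerivAt (fun x : ℝ => (x - c) / d) (1 / d) x := by
      simpa using ((hasDerivAt_id x).sub_const c).div_const d
    have h2 := (hasDerivAt_iteratedDeriv_stepB m ((x - c) / d)).comp x h1
    have h3 := h2.const_mul ((1 / d) ^ m)
    have h4 := h3.deriv
    simp only [Function.comp_def] at h4
    rw [h4, pow_succ]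
    ring

theorem contDiff_stepShift (c d : ℝ) : ContDiff ℝ ∞ (stepShift c d) := by
  have h : ContDiff ℝ ∞ (fun x : ℝ => (x - c) / d) := by fun_prop
  exact contDiff_stepB'.comp h

/-- The `m`-th derivative of the raw window. -/
noncomputable def windowJet (l r d : ℝ) (m : ℕ) (y : ℝ) : ℝ :=
  (1 / d) ^ m * iteratedDeriv m stepB ((y - l) / d) -
    (1 / d) ^ m * iteratedDeriv m stepB ((y - r) / d)

theorem rawWindow_eq (l r d : ℝ) : rawWindow l r d = fun y => stepShift l d y - stepShift r d y :=
  rfl

theorem contDiff_rawWindow (l r d : ℝ) : ContDiff ℝ ∞ (rawWindow l r d) := by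
  rw [rawWindow_eq]
  exact (contDiff_stepShift l d).sub (contDiff_stepShift r d)

theorem iteratedDeriv_rawWindow (l r d : ℝ) (m : ℕ) :
    iteratedDeriv m (rawWindow l r d) = windowJet l r d m := by
  funext y
  rw [rawWindow_eq]
  have h1 : ContDiffAt ℝ m (stepShift l d) y :=
    ((contDiff_stepShift l d).of_le (by exact_mod_cast le_top)).contDiffAt
  have h2 : ContDiffAt ℝ m (stepShift r d) y :=
    ((contDiff_stepShift r d).of_le (by exact_mod_cast le_top)).contDiffAt
  have := iteratedDeriv_sub (n := m) (x := y) h1 h2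
  have h3 : iteratedDeriv m (fun y => stepShift l d y - stepShift r d y) y =
      iteratedDeriv m (stepShift l d - stepShift r d) y := rfl
  rw [h3, this, iteratedDeriv_stepShift, iteratedDeriv_stepShift]
  rfl

/-- The `m`-th derivative of the linear function times the raw window. -/
noncomputable def linJet (l r d c : ℝ) (m : ℕ) (y : ℝ) : ℝ :=
  (y - c) * windowJet l r d m y + m * windowJet l r d (m - 1) y

theorem hasDerivAt_windowJet (l r d : ℝ) (m : ℕ) (y : ℝ) :
    HasDerivAt (windowJet l r d m) (windowJet l r d (m + 1) y) y := by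
  have h := ((contDiff_rawWindow l r d).of_le (m := (m + 1 : ℕ)) (by exact_mod_cast le_top))
  have hd : Differentiable ℝ (iteratedDeriv m (rawWindow l r d)) :=
    h.differentiable_iteratedDeriv m (by exact_mod_cast Nat.lt_succ_self m)
  have := (hd y).hasDerivAt
  rw [← iteratedDeriv_succ] at this
  rw [iteratedDeriv_rawWindow, iteratedDeriv_rawWindow] at this
  exact this

theorem iteratedDeriv_linWindow (l r d c : ℝ) (m : ℕ) :
    iteratedDeriv m (fun y => (y - c) * rawWindow l r d y) = linJet l r d c m := by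
  induction m with
  | zero =>
    funext y
    simp only [iteratedDeriv_zero, linJet, Nat.cast_zero, zero_mul, add_zero, windowJet]
    simp [rawWindow]
  | succ m ih =>
    rw [iteratedDeriv_succ, ih]
    funext y
    have h1 : HasDerivAt (fun y : ℝ => y - c) 1 y := (hasDerivAt_id y).sub_const c
    have h2 := h1.mul (hasDerivAt_windowJet l r d m y)
    cases m with
    | zero =>
      have h3 : HasDerivAt (linJet l r d c 0) (1 * windowJet l r d 0 y +
          (y - c) * windowJet l r d 1 y) y := by
        refine h2.congr_of_eventuallyEq (Eventually.of_forall fun z => ?_)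
        simp [linJet]
      rw [h3.deriv]
      simp [linJet]
      ring
    | succ m =>
      have h4 := (hasDerivAt_windowJet l r d m y).const_mul (((m + 1 : ℕ) : ℝ))
      have h3 := h2.add h4
      have h5 : HasDerivAt (linJet l r d c (m + 1)) _ y :=
        h3.congr_of_eventuallyEq (Eventually.of_forall fun z => by
          simp [linJet])
      rw [h5.deriv]
      simp only [linJet, Nat.add_sub_cancel]
      push_cast
      ring

/-- The profile before composing with the fractional part. -/
noncomputable def profBase (P : ProfCode) (y : ℝ) : ℝ :=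
  if P.1 = 1 then rawWindow P.2.1.val P.2.2.1.val P.2.2.2.1.val y
  else (y - P.2.2.2.2.val) * rawWindow P.2.1.val P.2.2.1.val P.2.2.2.1.val y

theorem rawWindow_left {l r d y : ℝ} (hd : 0 < d) (hlr : l ≤ r) (hy : y ≤ l) :
    rawWindow l r d y = 0 := by
  have h1 : (y - l) / d ≤ 0 := div_nonpos_of_nonpos_of_nonneg (by linarith) hd.le
  have h2 : (y - r) / d ≤ 0 := div_nonpos_of_nonpos_of_nonneg (by linarith) hd.le
  have e1 : stepB ((y - l) / d) = 0 := Real.smoothTransition.zero_of_nonpos h1
  have e2 : stepB ((y - r) / d) = 0 := Real.smoothTransition.zero_of_nonpos h2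
  rw [rawWindow, e1, e2, sub_zero]

theorem rawWindow_right {l r d y : ℝ} (hd : 0 < d) (hlr : l ≤ r) (hy : r + d ≤ y) :
    rawWindow l r d y = 0 := by
  have h1 : 1 ≤ (y - l) / d := by rw [le_div_iff₀ hd]; linarith
  have h2 : 1 ≤ (y - r) / d := by rw [le_div_iff₀ hd]; linarith
  have e1 : stepB ((y - l) / d) = 1 := Real.smoothTransition.one_of_one_le h1
  have e2 : stepB ((y - r) / d) = 1 := Real.smoothTransition.one_of_one_le h2
  rw [rawWindow, e1, e2, sub_self]

theorem flat_profBase {P : ProfCode} (hd : 0 < P.2.2.2.1.val) (hlr : P.2.1.val ≤ P.2.2.1.val) :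
    Flat P.2.1.val (P.2.2.1.val + P.2.2.2.1.val) (profBase P) := by
  refine ⟨?_, fun x hx => ?_, fun x hx => ?_⟩
  · unfold profBase
    by_cases h : P.1 = 1
    · simpa [h] using contDiff_rawWindow _ _ _
    · simp only [h, if_false]
      exact (contDiff_id.sub contDiff_const).mul (contDiff_rawWindow _ _ _)
  · unfold profBase
    rw [rawWindow_left hd hlr hx]
    simp
  · unfold profBase
    rw [rawWindow_right hd hlr hx]
    simp

theorem prof_eq_of_ne {P : ProfCode} (h0 : P.1 ≠ 0) (y : ℝ) :
    prof P y = profBase P (Int.fract y) := by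
  unfold prof profBase
  simp only [h0, if_false]

/-- Jets of the profile at its fractional position. -/
noncomputable def profJet (P : ProfCode) (m : ℕ) (y' : ℝ) : ℝ :=
  if P.1 = 0 then (if m = 0 then 1 else 0)
  else if P.1 = 1 then windowJet P.2.1.val P.2.2.1.val P.2.2.2.1.val m y'
  else linJet P.2.1.val P.2.2.1.val P.2.2.2.1.val P.2.2.2.2.val m y'

theorem iteratedDeriv_profBase (P : ProfCode) (m : ℕ) (h0 : P.1 ≠ 0) :
    iteratedDeriv m (profBase P) = profJet P m := by
  unfold profBase profJet
  by_cases h : P.1 = 1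
  · simp only [h, if_true, one_ne_zero, if_false]
    exact iteratedDeriv_rawWindow _ _ _ _
  · simp only [h, if_false, h0]
    exact iteratedDeriv_linWindow _ _ _ _ _

/-- The derivatives of a profile. -/
theorem iteratedDeriv_prof {P : ProfCode} (hP : ProfValid P) (m : ℕ) (y : ℝ) :
    iteratedDeriv m (prof P) y = profJet P m (Int.fract y) := by
  by_cases h0 : P.1 = 0
  · have hc : prof P = fun _ => 1 := by
      funext z; simp [prof, h0]
    rw [hc]
    cases m with
    | zero => simp [profJet, h0]
    | succ m =>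
      simp only [profJet, h0, if_true, Nat.succ_ne_zero, if_false]
      rw [iteratedDeriv_succ']
      simp
  · rcases hP with hP | ⟨hd, hl, hr, hlr⟩
    · exact absurd hP h0
    · have hfl := flat_profBase hd hlr
      have hc : prof P = fun z => profBase P (Int.fract z) := funext (prof_eq_of_ne h0)
      rw [hc, hfl.iteratedDeriv_comp_fract hl hr, iteratedDeriv_profBase P m h0]

theorem contDiff_prof {P : ProfCode} (hP : ProfValid P) : ContDiff ℝ ∞ (prof P) := by
  by_cases h0 : P.1 = 0
  · have hc : prof P = fun _ => 1 := by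
      funext z; simp [prof, h0]
    rw [hc]
    exact contDiff_const
  · rcases hP with hP | ⟨hd, hl, hr, hlr⟩
    · exact absurd hP h0
    · have hc : prof P = fun z => profBase P (Int.fract z) := funext (prof_eq_of_ne h0)
      rw [hc]
      exact (flat_profBase hd hlr).contDiff_comp_fract hl hr

theorem prof_add_int (P : ProfCode) (y : ℝ) (k : ℤ) : prof P (y + k) = prof P y := by
  unfold prof
  rw [Int.fract_add_intCast]

end Vale.Agent.Lib.P113
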