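import Vale.Agent.Lib.P113.Geom

/-!
One period of the particle path: thirteen stages simulate one step of the queue machine.
-/

namespace Vale.Agent.Lib.P113

open Machine

/-- The point which encodes a queue and a history. -/
noncomputable def encV (M : Machine) (q hist : List ℕ) : R3 :=
  ![num (nB M) q / nR M, 1 / ((nR M : ℝ) * (nB M : ℝ) ^ q.length), num (nB M) hist / 8]

theorem orbit_step {ds : ℕ → Shear} {a : R3} {k : ℕ} {x y : R3} {d : Shear}
    (hd : ds k = d) (h : orbit ds a k = x) (hs : stepX d x = y) : orbit ds a (k + 1) = y := by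
  change stepX (ds k) (orbit ds a k) = y
  rw [hd, h, hs]

section

variable {M : Machine}

theorem algA1 {B x z : ℝ} (hB : B ≠ 0) : x - z / B + (z + (B - 1) * (x - z / B)) = B * x := by
  field_simp
  ring

theorem algA2 {B x z : ℝ} (hB : B ≠ 0) :
    z + (B - 1) * (x - z / B) - (B - 1) / B * (B * x) = z / B := by
  field_simp
  ring

theorem boundA1 {B x z : ℝ} (hB : 128 ≤ B) (hx : |x| ≤ 1 / (64 * B)) (hz : |z| ≤ 1 / 16) :
    |x - z / B| ≤ 1 / 4 := by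
  have hB0 : 0 < B := by linarith
  have h1 : |z / B| ≤ 1 / 16 := by
    rw [abs_div, abs_of_pos hB0, div_le_iff₀ hB0]
    nlinarith
  have h2 : |x| ≤ 1 / 16 := by
    refine hx.trans ?_
    rw [div_le_iff₀ (by positivity)]
    nlinarith
  calc |x - z / B| ≤ |x| + |z / B| := abs_sub _ _
    _ ≤ 1 / 4 := by linarith

theorem boundA2 {B x z : ℝ} (hB : 128 ≤ B) (hx : |x| ≤ 1 / (64 * B)) (hz : |z| ≤ 1 / 16) :
    |z + (B - 1) * (x - z / B)| ≤ 1 / 4 := by
  have hB0 : 0 < B := by linarith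
  have e : z + (B - 1) * (x - z / B) = z / B + (B - 1) * x := by
    field_simp
    ring
  have h1 : |z / B| ≤ 1 / 16 := by
    rw [abs_div, abs_of_pos hB0, div_le_iff₀ hB0]
    nlinarith
  have h2 : |(B - 1) * x| ≤ 1 / 16 := by
    rw [abs_mul, abs_of_pos (by linarith : 0 < B - 1)]
    have : (B - 1) * |x| ≤ (B - 1) * (1 / (64 * B)) :=
      mul_le_mul_of_nonneg_left hx (by linarith)
    refine this.trans ?_
    rw [mul_one_div, div_le_iff₀ (by positivity)]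
    nlinarith
  rw [e]
  calc |z / B + (B - 1) * x| ≤ |z / B| + |(B - 1) * x| := abs_add_le _ _
    _ ≤ 1 / 4 := by linarith

theorem boundA3 {B x : ℝ} (hB : 128 ≤ B) (hx : |x| ≤ 1 / (64 * B)) : |B * x| ≤ 1 / 4 := by
  have hB0 : 0 < B := by linarith
  rw [abs_mul, abs_of_pos hB0]
  have : B * |x| ≤ B * (1 / (64 * B)) := mul_le_mul_of_nonneg_left hx hB0.le
  refine this.trans ?_
  rw [mul_one_div, div_le_iff₀ (by positivity)]
  nlinarith

theorem small_of_le {B x : ℝ} (hB : 128 ≤ B) (hx : |x| ≤ 1 / (64 * B)) : |x| ≤ 1 / 4 := by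
  refine hx.trans ?_
  rw [div_le_iff₀ (by positivity)]
  nlinarith

/-- The four stages which multiply `x` by `B` and divide `z` by `B`. -/
theorem runA (hM : M.Valid) {ds : ℕ → Shear} {a : R3} {k : ℕ} (h0 : ds k = stageS M 0)
    (h1 : ds (k + 1) = stageS M 1) (h2 : ds (k + 2) = stageS M 2) (h3 : ds (k + 3) = stageS M 3)
    {x y z : ℝ} (hO : orbit ds a k = ![x, y, z]) (hy : |y| ≤ 1 / 4)
    (hx : |x| ≤ 1 / (64 * (nB M : ℝ))) (hz : |z| ≤ 1 / 16) :
    |orbit ds a (k + 1) 0| ≤ 1 / 4 ∧ |orbit ds a (k + 2) 0| ≤ 1 / 4 ∧ |orbit ds a (k + 3) 0| ≤ 1 / 4 ∧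
      orbit ds a (k + 4) = ![(nB M : ℝ) * x, y, z / nB M] := by
  have hB : (128 : ℝ) ≤ nB M := by exact_mod_cast nB_ge hM
  have hB0 : (nB M : ℝ) ≠ 0 := by linarith
  have hz' : |z| ≤ 1 / 4 := by linarith
  have b1 := boundA1 hB hx hz
  have b2 := boundA2 hB hx hz
  have b3 := boundA3 hB hx
  have e1 : orbit ds a (k + 1) = _ := orbit_step h0 hO (stage0 x y z hy hz')
  have e2 : orbit ds a (k + 2) = _ := orbit_step h1 e1 (stage1 hM _ y z hy b1)
  have e3 : orbit ds a (k + 3) = _ := orbit_step h2 e2 (stage2 _ y _ hy b2)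
  rw [algA1 hB0] at e3
  have e4 : orbit ds a (k + 4) = _ := orbit_step h3 e3 (stage3 hM _ y _ hy b3)
  rw [algA2 hB0] at e4
  refine ⟨?_, ?_, ?_, e4⟩
  · rw [e1]; exact b1
  · rw [e2]; exact b1
  · rw [e3]; exact b3

/-- The four stages of the growth of the queue. -/
theorem runC (hM : M.Valid) {ds : ℕ → Shear} {a : R3} {k : ℕ} (h0 : ds k = stageS M 7)
    (h1 : ds (k + 1) = stageS M 8) (h2 : ds (k + 2) = stageS M 9) (h3 : ds (k + 3) = stageS M 10)
    {x y z : ℝ} (hO : orbit ds a k = ![x, y, z]) (hy : |y| ≤ 1 / 16)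
    (hx : |x| ≤ 1 / (64 * (nB M : ℝ))) {n : ℕ} (hn : n < nD M * nK M * nK M) {t : ℝ}
    (ht0 : 0 ≤ t) (ht1 : t ≤ 1 / 2)
    (hz : z = ((triNx M n : ℝ) + t) / (8 * (nB M : ℝ) ^ 2)) (hG : triG M n = 1) :
    |orbit ds a (k + 1) 0| ≤ 1 / 4 ∧ |orbit ds a (k + 2) 0| ≤ 1 / 4 ∧ |orbit ds a (k + 3) 0| ≤ 1 / 4 ∧
      orbit ds a (k + 4) = ![(nB M : ℝ) * x, y / nB M, z] := by
  have hB : (128 : ℝ) ≤ nB M := by exact_mod_cast nB_ge hM
  have hB0 : (nB M : ℝ) ≠ 0 := by linarith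
  have hy' : |y| ≤ 1 / 4 := by linarith
  have b1 := boundA1 hB hx hy
  have b2 := boundA2 hB hx hy
  have b3 := boundA3 hB hx
  have hG' : (triG M n : ℝ) = 1 := by rw [hG]; norm_num
  have e1 : orbit ds a (k + 1) = _ := orbit_step h0 hO (stage7 hM x y z hn ht0 ht1 hz hy')
  rw [hG', one_mul] at e1
  have e2 : orbit ds a (k + 2) = _ := orbit_step h1 e1 (stage8 hM _ y z hn ht0 ht1 hz b1)
  rw [hG', one_mul] at e2
  have e3 : orbit ds a (k + 3) = _ := orbit_step h2 e2 (stage9 hM _ _ z hn ht0 ht1 hz b2)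
  rw [hG', one_mul, algA1 hB0] at e3
  have e4 : orbit ds a (k + 4) = _ := orbit_step h3 e3 (stage10 hM _ _ z hn ht0 ht1 hz b3)
  rw [hG', one_mul, algA2 hB0] at e4
  refine ⟨?_, ?_, ?_, e4⟩
  · rw [e1]; exact b1
  · rw [e2]; exact b1
  · rw [e3]; exact b3

/-- Without growth the stages `C` do nothing. -/
theorem runC0 (hM : M.Valid) {ds : ℕ → Shear} {a : R3} {k : ℕ} (h0 : ds k = stageS M 7)
    (h1 : ds (k + 1) = stageS M 8) (h2 : ds (k + 2) = stageS M 9) (h3 : ds (k + 3) = stageS M 10)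
    {x y z : ℝ} (hO : orbit ds a k = ![x, y, z]) (hy : |y| ≤ 1 / 4)
    (hx : |x| ≤ 1 / 4) {n : ℕ} (hn : n < nD M * nK M * nK M) {t : ℝ}
    (ht0 : 0 ≤ t) (ht1 : t ≤ 1 / 2)
    (hz : z = ((triNx M n : ℝ) + t) / (8 * (nB M : ℝ) ^ 2)) (hG : triG M n = 0) :
    |orbit ds a (k + 1) 0| ≤ 1 / 4 ∧ |orbit ds a (k + 2) 0| ≤ 1 / 4 ∧ |orbit ds a (k + 3) 0| ≤ 1 / 4 ∧
      orbit ds a (k + 4) = ![x, y, z] := by
  have hG' : (triG M n : ℝ) = 0 := by rw [hG]; norm_num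
  have e1 : orbit ds a (k + 1) = _ := orbit_step h0 hO (stage7 hM x y z hn ht0 ht1 hz hy)
  rw [hG'] at e1
  simp only [zero_mul, zero_div, sub_zero] at e1
  have e2 : orbit ds a (k + 2) = _ := orbit_step h1 e1 (stage8 hM _ y z hn ht0 ht1 hz hx)
  rw [hG'] at e2
  simp only [zero_mul, add_zero] at e2
  have e3 : orbit ds a (k + 3) = _ := orbit_step h2 e2 (stage9 hM _ _ z hn ht0 ht1 hz hy)
  rw [hG'] at e3
  simp only [zero_mul, add_zero] at e3
  have e4 : orbit ds a (k + 4) = _ := orbit_step h3 e3 (stage10 hM _ _ z hn ht0 ht1 hz hx)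
  rw [hG'] at e4
  simp only [zero_mul, sub_zero] at e4
  refine ⟨?_, ?_, ?_, e4⟩
  · rw [e1]; exact hx
  · rw [e2]; exact hx
  · rw [e3]; exact hx

theorem bound_R {B R v : ℝ} (hB : 128 ≤ B) (hR : R = 64 * B ^ 3) (hv0 : 0 ≤ v) (hv : v ≤ B * B) :
    |v / R| ≤ 1 / (64 * B) := by
  subst hR
  have hB0 : 0 < B := by linarith
  rw [abs_of_nonneg (by positivity), div_le_div_iff₀ (by positivity) (by positivity)]
  have h3 : 0 < B ^ 3 := by positivity
  have h4 : B * B * (64 * B) = 1 * (64 * B ^ 3) := by ring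
  nlinarith

theorem alg_x1 {B R a a' t Ke : ℝ} (hB : B ≠ 0) (hR : R ≠ 0) :
    (a + (a' + t) / B) / R + Ke / R = (((Ke + a) * B + a') + t) / (R * B) := by
  field_simp
  ring

theorem alg_z1 {B h' e u : ℝ} (hB : B ≠ 0) :
    (e + u) / (8 * B ^ 2) + h' / (8 * B) = ((h' * B + e) + u) / (8 * B ^ 2) := by
  field_simp
  ring

theorem alg_x2 {B R a a' t Ke : ℝ} (hB : B ≠ 0) (hR : R ≠ 0) :
    (((Ke + a) * B + a') + t) / (R * B) - (Ke + a) / R = ((a' + t) / B) / R := by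
  field_simp
  ring

theorem alg_z0 {B e u : ℝ} (hB : B ≠ 0) : ((e + u) / B / 8) / B = (e + u) / (8 * B ^ 2) := by
  field_simp

theorem alg_z2 {B h' e u : ℝ} (hB : B ≠ 0) :
    (h' + (e + u) / B) / B / 8 = ((h' * B + e) + u) / (8 * B ^ 2) := by
  field_simp
  ring

theorem alg_x0 {B R v : ℝ} (hB : B ≠ 0) : B * ((v / B) / R) = v / R := by
  by_cases hR : R = 0
  · simp [hR]
  · field_simp

theorem alg_G0 {B R a' t d : ℝ} {m : ℕ} (hB : B ≠ 0) (hR : R ≠ 0) :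
    ((a' + t) / B) / R + d * (1 / (R * B ^ (m + 2)))
      = ((a' + (t + ((d + 0) / B) / B ^ m)) / B) / R := by
  field_simp
  ring

theorem alg_G1 {B R a' t d1 d2 d3 : ℝ} {m : ℕ} (hB : B ≠ 0) (hR : R ≠ 0) :
    (a' + t) / R - a' / R + (d1 * B ^ 2 + d2 * B + d3) * (1 / (R * B ^ (m + 2)) / B)
      = (t + ((d1 + (d2 + (d3 + 0) / B) / B) / B) / B ^ m) / R := by
  field_simp
  ring

theorem eps_small {B R : ℝ} (hB : 128 ≤ B) (hR : R = 64 * B ^ 3) (m : ℕ) :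
    |1 / (R * B ^ m)| ≤ 1 / 64 := by
  subst hR
  have hB0 : 0 < B := by linarith
  have h1 : 1 ≤ B ^ m := one_le_pow₀ (by linarith)
  have h3 : 1 ≤ B ^ 3 := one_le_pow₀ (by linarith)
  have h2 : 64 ≤ 64 * B ^ 3 * B ^ m := by nlinarith [mul_le_mul h3 h1 (by norm_num) (by positivity)]
  rw [abs_of_nonneg (by positivity), div_le_div_iff₀ (by positivity) (by norm_num)]
  linarith

theorem num_div_small {B R x : ℝ} (hB : 128 ≤ B) (hR : R = 64 * B ^ 3) (h0 : 0 ≤ x) (h1 : x ≤ 1 / 2) :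
    |x / R| ≤ 1 / 4 := by
  subst hR
  have hB0 : 0 < B := by linarith
  have h3 : 1 ≤ B ^ 3 := one_le_pow₀ (by linarith)
  rw [abs_of_nonneg (by positivity), div_le_iff₀ (by positivity)]
  nlinarith

/-- The next queue. -/
def qNext (M : Machine) (n a' : ℕ) (rest : List ℕ) : List ℕ :=
  if triG M n = 1 then
    rest ++ [(triRule M n).2.2.1, (triRule M n).2.2.2.1, (triRule M n).2.2.2.2]
  else a' :: rest ++ [(triRule M n).2.2.1]

theorem bound_v {B K a a' t : ℝ} (hB : 128 ≤ B) (hK : K ≤ B / 2) (ha0 : 0 ≤ a) (ha : a + 1 ≤ K)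
    (ha0' : 0 ≤ a') (ha' : a' + 1 ≤ K) (ht0 : 0 ≤ t) (ht1 : t ≤ 1 / 2) :
    0 ≤ a + (a' + t) / B ∧ a + (a' + t) / B ≤ B ∧ (a' + t) / B ≤ 1 / 2 := by
  have hB0 : 0 < B := by linarith
  have h1 : (a' + t) / B ≤ 1 / 2 := by
    rw [div_le_iff₀ hB0]; linarith
  exact ⟨by positivity, by linarith, h1⟩

theorem real_bounds (hM : M.Valid) :
    (128 : ℝ) ≤ nB M ∧ (0 : ℝ) < nB M ∧ (nR M : ℝ) = 64 * (nB M : ℝ) ^ 3 ∧ (0 : ℝ) < nR M ∧
      (2 : ℝ) * nD M + 2 = nB M ∧ (0 : ℝ) ≤ nD M ∧ (nK M : ℝ) ≤ nD M ∧ (0 : ℝ) ≤ nK M := by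
  have hB128 : (128 : ℝ) ≤ nB M := by exact_mod_cast nB_ge hM
  refine ⟨hB128, by linarith, by unfold nR; push_cast; ring, by exact_mod_cast nR_pos hM,
    nD_lt_nB_real, Nat.cast_nonneg _, by exact_mod_cast nK_le_nD hM, Nat.cast_nonneg _⟩

theorem num_digits (hM : M.Valid) {L : List ℕ} (hL : ∀ d ∈ L, d < nD M) :
    0 ≤ num (nB M) L ∧ num (nB M) L ≤ 1 / 2 := by
  obtain ⟨_, hB00, _, _, hD, hD0, _, _⟩ := real_bounds hM
  refine ⟨num_nonneg hB00 L, num_le hD.symm hD0 (fun d hd => ?_)⟩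
  exact_mod_cast (hL d hd).le

theorem bound_z0 {B h u : ℝ} (hB : 128 ≤ B) (h0 : 0 ≤ h) (hh : h + 1 ≤ B / 2) (hu0 : 0 ≤ u)
    (hu1 : u ≤ 1 / 2) : |((h + u) / B) / 8| ≤ 1 / 16 := by
  have hB00 : 0 < B := by linarith
  rw [abs_of_nonneg (by positivity), div_le_iff₀ (by norm_num)]
  have : (h + u) / B ≤ 1 / 2 := by
    rw [div_le_iff₀ hB00]; linarith
  linarith

theorem bound_x0 {B R v : ℝ} (hB : 128 ≤ B) (hR : R = 64 * B ^ 3) (hv0 : 0 ≤ v) (hvB : v ≤ B) :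
    |(v / B) / R| ≤ 1 / (64 * B) := by
  have hB00 : 0 < B := by linarith
  apply bound_R hB hR (div_nonneg hv0 hB00.le)
  rw [div_le_iff₀ hB00]
  have : B ≤ B * B := by nlinarith
  have : B * B ≤ B * B * B := by nlinarith
  linarith

theorem bound_x4 {B R v : ℝ} (hB : 128 ≤ B) (hR : R = 64 * B ^ 3) (hv0 : 0 ≤ v) (hvB : v ≤ B) :
    |v / R| ≤ 1 / 4 := by
  have : B ≤ B * B := by nlinarith
  exact small_of_le hB (bound_R hB hR hv0 (by linarith))

/-- The first seven stages of a period. -/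
theorem run_AB (hM : M.Valid) {ds : ℕ → Shear} {a0 : R3} {k : ℕ}
    (hds : ∀ j < 13, ds (k + j) = stageS M j) {a a' h : ℕ} {rest hs : List ℕ}
    (ha : a < nK M) (ha' : a' < nK M) (hrest : ∀ d ∈ rest, d < nK M) (hh : h < nD M)
    (hhs : ∀ d ∈ hs, d < nD M) {n : ℕ} (hn : n = triIndex M h a a')
    (hO : orbit ds a0 k = encV M (a :: a' :: rest) (h :: hs)) :
    (∀ j ≤ 6, |orbit ds a0 (k + j) 0| ≤ 1 / 4) ∧
    orbit ds a0 (k + 7) = ![(((a' : ℝ) + num (nB M) rest) / nB M) / nR M,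
      1 / ((nR M : ℝ) * (nB M : ℝ) ^ (rest.length + 2)),
      ((triNx M n : ℝ) + num (nB M) hs) / (8 * (nB M : ℝ) ^ 2)] := by
  have hnlt : n < nD M * nK M * nK M := by rw [hn]; exact triIndex_lt hM hh ha ha'
  have eH : triH M n = h := by rw [hn]; exact triIndex_H hM ha ha'
  have eA : triA M n = a := by rw [hn]; exact triIndex_A hM ha ha'
  have eA' : triA' M n = a' := by rw [hn]; exact triIndex_A' ha'
  obtain ⟨hB128, hB00, hRv, hR00, hD, hD0, hKD, hK0⟩ := real_bounds hM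
  have hB0 : (nB M : ℝ) ≠ 0 := hB00.ne'
  have hR0 : (nR M : ℝ) ≠ 0 := hR00.ne'
  obtain ⟨ht0, ht1⟩ := num_digits hM (L := rest) (fun d hd => by
    have := hrest d hd
    have := nK_le_nD hM
    omega)
  obtain ⟨hu0, hu1⟩ := num_digits hM hhs
  have ra : (a : ℝ) + 1 ≤ nK M := by exact_mod_cast ha
  have ra' : (a' : ℝ) + 1 ≤ nK M := by exact_mod_cast ha'
  have rh : (h : ℝ) + 1 ≤ nD M := by exact_mod_cast hh
  have ra0 : (0 : ℝ) ≤ a := Nat.cast_nonneg _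
  have ra0' : (0 : ℝ) ≤ a' := Nat.cast_nonneg _
  have rh0 : (0 : ℝ) ≤ h := Nat.cast_nonneg _
  have hKB : (nK M : ℝ) ≤ (nB M : ℝ) / 2 := by linarith
  generalize ht : num (nB M) rest = t at ht0 ht1
  generalize hu : num (nB M) hs = u at hu0 hu1
  obtain ⟨hv0, hvB, hv1⟩ := bound_v hB128 hKB ra0 ra ra0' ra' ht0 ht1
  generalize hE : 1 / ((nR M : ℝ) * (nB M : ℝ) ^ (rest.length + 2)) = E
  have hEs : |E| ≤ 1 / 64 := by rw [← hE]; exact eps_small hB128 hRv _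
  have hO0 : orbit ds a0 k = ![(((a : ℝ) + ((a' : ℝ) + t) / nB M) / nB M) / nR M, E,
      (((h : ℝ) + u) / nB M) / 8] := by
    rw [hO, ← ht, ← hu, ← hE]
    rfl
  -- the stages `A`
  generalize hv : (a : ℝ) + ((a' : ℝ) + t) / nB M = v at hv0 hvB hO0
  have hx0 : |(v / nB M) / (nR M : ℝ)| ≤ 1 / (64 * (nB M : ℝ)) := bound_x0 hB128 hRv hv0 hvB
  have hz0 : |(((h : ℝ) + u) / nB M) / 8| ≤ 1 / 16 :=
    bound_z0 hB128 rh0 (by linarith) hu0 hu1
  have hE4 : |E| ≤ 1 / 4 := by linarith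
  obtain ⟨b1, b2, b3, O4⟩ := runA hM (hds 0 (by norm_num)) (hds 1 (by norm_num))
    (hds 2 (by norm_num)) (hds 3 (by norm_num)) hO0 hE4 hx0 hz0
  rw [alg_x0 hB0, alg_z0 hB0] at O4
  -- the stages `B`
  have O5 : orbit ds a0 (k + 5) = _ := orbit_step (hds 4 (by norm_num)) O4
    (stage4 hM _ E _ hh hu0 hu1 rfl hE4)
  have cN0 : (triN0 M n : ℝ) = ((nK M : ℝ) * h + a) * nB M + a' := by
    unfold triN0
    rw [eH, eA, eA']
    push_cast
    ring
  have cNx : (triNx M n : ℝ) = (triH' M n : ℝ) * nB M + h := by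
    unfold triNx
    rw [eH]
    push_cast
    ring
  have hx5 : v / nR M + (nK M : ℝ) * h / nR M = ((triN0 M n : ℝ) + t) / ((nR M : ℝ) * nB M) := by
    rw [cN0, ← hv, alg_x1 hB0 hR0]
  rw [hx5] at O5
  have O6 : orbit ds a0 (k + 6) = _ := orbit_step (hds 5 (by norm_num)) O5
    (stage5 hM _ E _ hnlt ht0 ht1 rfl hE4)
  rw [alg_z1 hB0, ← cNx] at O6
  have O7 : orbit ds a0 (k + 7) = _ := orbit_step (hds 6 (by norm_num)) O6
    (stage6 hM _ E _ hnlt hu0 hu1 rfl hE4)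
  have hx7 : ((triN0 M n : ℝ) + t) / ((nR M : ℝ) * nB M)
      - ((nK M : ℝ) * triH M n + triA M n) / nR M = (((a' : ℝ) + t) / nB M) / nR M := by
    rw [cN0, eH, eA, alg_x2 hB0 hR0]
  rw [hx7] at O7
  have hx5s : |((triN0 M n : ℝ) + t) / ((nR M : ℝ) * nB M)| ≤ 1 / 4 := by
    have hN1 : ((triN0 M n : ℕ) : ℝ) + 1 ≤ nK M * nD M * nB M := by exact_mod_cast triN0_lt hM hnlt
    exact bound_N0 hB128 hD hKD hK0 hD0 (Nat.cast_nonneg _) ht0 ht1 hN1 hRv
  have hx4s : |v / (nR M : ℝ)| ≤ 1 / 4 := bound_x4 hB128 hRv hv0 hvB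
  refine ⟨?_, O7⟩
  intro j hj
  have hx0' : |(v / nB M) / (nR M : ℝ)| ≤ 1 / 4 := small_of_le hB128 hx0
  interval_cases j
  · change |orbit ds a0 k 0| ≤ 1 / 4
    rw [hO0]
    exact hx0'
  · exact b1
  · exact b2
  · exact b3
  · rw [O4]; exact hx4s
  · rw [O5]; exact hx5s
  · rw [O6]; exact hx5s

theorem bound_x7 {B R a' t K : ℝ} (hB : 128 ≤ B) (hR : R = 64 * B ^ 3) (ha0 : 0 ≤ a')
    (ha : a' + 1 ≤ K) (hK : K ≤ B / 2) (ht0 : 0 ≤ t) (ht1 : t ≤ 1 / 2) :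
    |((a' + t) / B) / R| ≤ 1 / (64 * B) ∧ |(a' + t) / R| ≤ 1 / 4 := by
  have hB00 : 0 < B := by linarith
  exact ⟨bound_x0 hB hR (by positivity) (by linarith),
    bound_x4 hB hR (by positivity) (by linarith)⟩

theorem bound_E5 {B E : ℝ} (hB : 128 ≤ B) (hE : |E| ≤ 1 / 64) : |E / B| ≤ 1 / 4 := by
  have hB00 : 0 < B := by linarith
  rw [abs_div, abs_of_pos hB00, div_le_iff₀ hB00]
  nlinarith

/-- The stages `C` and `D` of a period. -/
theorem run_CD (hM : M.Valid) {ds : ℕ → Shear} {a0 : R3} {k : ℕ}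
    (hds : ∀ j < 13, ds (k + j) = stageS M j) {a' : ℕ} {rest : List ℕ}
    (ha' : a' < nK M) {n : ℕ} (hnlt : n < nD M * nK M * nK M) (eA' : triA' M n = a') {u : ℝ}
    (hu0 : 0 ≤ u) (hu1 : u ≤ 1 / 2)
    (O7 : orbit ds a0 (k + 7) = ![(((a' : ℝ) + num (nB M) rest) / nB M) / nR M,
      1 / ((nR M : ℝ) * (nB M : ℝ) ^ (rest.length + 2)),
      ((triNx M n : ℝ) + u) / (8 * (nB M : ℝ) ^ 2)])
    (ht0 : 0 ≤ num (nB M) rest) (ht1 : num (nB M) rest ≤ 1 / 2) :
    |orbit ds a0 (k + 7) 0| ≤ 1 / 4 ∧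
    |orbit ds a0 (k + 8) 0| ≤ 1 / 4 ∧ |orbit ds a0 (k + 9) 0| ≤ 1 / 4 ∧
      |orbit ds a0 (k + 10) 0| ≤ 1 / 4 ∧ |orbit ds a0 (k + 11) 0| ≤ 1 / 4 ∧
      orbit ds a0 (k + 12) = ![num (nB M) (qNext M n a' rest) / nR M,
        1 / ((nR M : ℝ) * (nB M : ℝ) ^ (qNext M n a' rest).length),
        ((triNx M n : ℝ) + u) / (8 * (nB M : ℝ) ^ 2)] := by
  obtain ⟨hB128, hB00, hRv, hR00, hD, hD0, hKD, hK0⟩ := real_bounds hM
  have hB0 : (nB M : ℝ) ≠ 0 := hB00.ne'
  have hR0 : (nR M : ℝ) ≠ 0 := hR00.ne'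
  have ra' : (a' : ℝ) + 1 ≤ nK M := by exact_mod_cast ha'
  have ra0' : (0 : ℝ) ≤ a' := Nat.cast_nonneg _
  have hKB : (nK M : ℝ) ≤ (nB M : ℝ) / 2 := by linarith
  generalize ht : num (nB M) rest = t at ht0 ht1 O7
  generalize hE : 1 / ((nR M : ℝ) * (nB M : ℝ) ^ (rest.length + 2)) = E at O7
  have hEs : |E| ≤ 1 / 64 := by rw [← hE]; exact eps_small hB128 hRv _
  have hE4 : |E| ≤ 1 / 4 := by linarith
  have hE16 : |E| ≤ 1 / 16 := by linarith
  obtain ⟨hx7s, hx8s⟩ := bound_x7 hB128 hRv ra0' ra' hKB ht0 ht1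
  have hx7s' := small_of_le hB128 hx7s
  refine ⟨by rw [O7]; exact hx7s', ?_⟩
  rcases qmNext_flag (M := M) (triH M n / (nK M * nK M)) (triA M n) (triA' M n) with hG | hG
  · have hG0 : triG M n = 0 := hG
    obtain ⟨c1, c2, c3, O11⟩ := runC0 hM (hds 7 (by norm_num)) (hds 8 (by norm_num))
      (hds 9 (by norm_num)) (hds 10 (by norm_num)) O7 hE4 hx7s' hnlt hu0 hu1 rfl hG0
    have O12 : orbit ds a0 (k + 12) = _ := orbit_step (hds 11 (by norm_num)) O11
      (stage11 hM _ E _ hnlt hu0 hu1 rfl hE4)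
    have eb : (triBeta M n : ℝ) = ((triRule M n).2.2.1 : ℝ) := by
      unfold triBeta
      rw [if_neg (by rw [hG0]; norm_num)]
    have eq' : qNext M n a' rest = a' :: (rest ++ [(triRule M n).2.2.1]) := by
      unfold qNext
      rw [if_neg (by rw [hG0]; norm_num)]
      rfl
    have enum : num (nB M) (qNext M n a' rest)
        = ((a' : ℝ) + (t + (((triRule M n).2.2.1 + 0 : ℝ) / nB M) / (nB M : ℝ) ^ rest.length))
          / nB M := by
      rw [eq', num_cons, num_append hB0, ht]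
      rfl
    have elen : (qNext M n a' rest).length = rest.length + 2 := by
      rw [eq']; simp
    refine ⟨c1, c2, c3, ?_, ?_⟩
    · rw [O11]; exact hx7s'
    · rw [O12, elen, enum, hE, hG0, eb]
      simp only [Nat.cast_zero, zero_mul, zero_div, sub_zero]
      rw [← hE, alg_G0 hB0 hR0]
  · have hG1 : triG M n = 1 := hG
    obtain ⟨c1, c2, c3, O11⟩ := runC hM (hds 7 (by norm_num)) (hds 8 (by norm_num))
      (hds 9 (by norm_num)) (hds 10 (by norm_num)) O7 hE16 hx7s hnlt hu0 hu1 rfl hG1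
    rw [alg_x0 hB0] at O11
    have hE5 : |E / nB M| ≤ 1 / 4 := bound_E5 hB128 hEs
    have O12 : orbit ds a0 (k + 12) = _ := orbit_step (hds 11 (by norm_num)) O11
      (stage11 hM _ _ _ hnlt hu0 hu1 rfl hE5)
    have eb : (triBeta M n : ℝ) = ((triRule M n).2.2.1 : ℝ) * (nB M : ℝ) ^ 2
        + ((triRule M n).2.2.2.1 : ℝ) * nB M + ((triRule M n).2.2.2.2 : ℝ) := by
      unfold triBeta
      rw [if_pos hG1]
      push_cast
      ring
    have eq' : qNext M n a' rest = rest ++ [(triRule M n).2.2.1, (triRule M n).2.2.2.1,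
        (triRule M n).2.2.2.2] := by
      unfold qNext
      rw [if_pos hG1]
    have enum : num (nB M) (qNext M n a' rest)
        = t + (((triRule M n).2.2.1 + ((triRule M n).2.2.2.1 + ((triRule M n).2.2.2.2 + 0 : ℝ)
          / nB M) / nB M) / nB M) / (nB M : ℝ) ^ rest.length := by
      rw [eq', num_append hB0, ht]
      rfl
    have elen : (qNext M n a' rest).length = rest.length + 3 := by
      rw [eq']; simp
    refine ⟨c1, c2, c3, ?_, ?_⟩
    · rw [O11]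
      exact hx8s
    · have e3 : 1 / ((nR M : ℝ) * (nB M : ℝ) ^ (rest.length + 3)) = E / nB M := by
        rw [← hE]
        field_simp
        ring
      rw [O12, elen, enum, e3, hG1, eb, eA']
      simp only [Nat.cast_one, one_mul]
      rw [← hE, alg_G1 hB0 hR0]

/-- One period of thirteen stages. -/
theorem period_run (hM : M.Valid) {ds : ℕ → Shear} {a0 : R3} {k : ℕ}
    (hds : ∀ j < 13, ds (k + j) = stageS M j) {a a' h : ℕ} {rest hs : List ℕ}
    (ha : a < nK M) (ha' : a' < nK M) (hrest : ∀ d ∈ rest, d < nK M) (hh : h < nD M)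
    (hhs : ∀ d ∈ hs, d < nD M) {n : ℕ} (hn : n = triIndex M h a a')
    (hO : orbit ds a0 k = encV M (a :: a' :: rest) (h :: hs)) :
    (∀ j ≤ 12, |orbit ds a0 (k + j) 0| ≤ 1 / 4) ∧
    orbit ds a0 (k + 13) =
      ![num (nB M) (qNext M n a' rest) / nR M + (if (triRule M n).1 = 0 then 3 / 8 else 0),
        1 / ((nR M : ℝ) * (nB M : ℝ) ^ (qNext M n a' rest).length),
        num (nB M) (triH' M n :: h :: hs) / 8] := by
  have hnlt : n < nD M * nK M * nK M := by rw [hn]; exact triIndex_lt hM hh ha ha'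
  have eH : triH M n = h := by rw [hn]; exact triIndex_H hM ha ha'
  have eA' : triA' M n = a' := by rw [hn]; exact triIndex_A' ha'
  obtain ⟨hB128, hB00, hRv, hR00, hD, hD0, hKD, hK0⟩ := real_bounds hM
  have hB0 : (nB M : ℝ) ≠ 0 := hB00.ne'
  obtain ⟨h06, O7⟩ := run_AB hM hds ha ha' hrest hh hhs hn hO
  obtain ⟨ht0, ht1⟩ := num_digits hM (L := rest) (fun d hd => by
    have := hrest d hd
    have := nK_le_nD hM
    omega)
  obtain ⟨hu0, hu1⟩ := num_digits hM hhs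
  obtain ⟨b7, b8, b9, b10, b11, O12⟩ := run_CD hM hds ha' hnlt eA' hu0 hu1 O7 ht0 ht1
  have hrule := triRule_lt hM hnlt
  have dq : ∀ d ∈ qNext M n a' rest, d < nD M := by
    have hKD' := nK_le_nD hM
    intro d hd
    unfold qNext at hd
    split_ifs at hd
    · simp only [List.mem_append, List.mem_cons, List.not_mem_nil, or_false] at hd
      rcases hd with hd | rfl | rfl | rfl
      · have := hrest d hd; omega
      · have := hrule.2.1; omega
      · have := hrule.2.2.1; omega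
      · have := hrule.2.2.2; omega
    · simp only [List.cons_append, List.mem_cons, List.mem_append, List.not_mem_nil, or_false] at hd
      rcases hd with rfl | hd | rfl
      · omega
      · have := hrest d hd; omega
      · have := hrule.2.1; omega
  obtain ⟨hq0, hq1⟩ := num_digits hM dq
  have hE12 : |1 / ((nR M : ℝ) * (nB M : ℝ) ^ (qNext M n a' rest).length)| ≤ 1 / 4 :=
    (eps_small hB128 hRv _).trans (by norm_num)
  have O13 : orbit ds a0 (k + 13) = _ := orbit_step (hds 12 (by norm_num)) O12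
    (stage12 hM _ _ _ hnlt hu0 hu1 rfl hE12)
  constructor
  · intro j hj
    by_cases hj6 : j ≤ 6
    · exact h06 j hj6
    · have hj7 : 7 ≤ j := by omega
      interval_cases j
      · exact b7
      · exact b8
      · exact b9
      · exact b10
      · exact b11
      · rw [O12]; exact num_div_small hB128 hRv hq0 hq1
  · rw [O13]
    have cNx : (triNx M n : ℝ) = (triH' M n : ℝ) * nB M + h := by
      unfold triNx
      rw [eH]
      push_cast
      ring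
    have e4 : ((triNx M n : ℝ) + num (nB M) hs) / (8 * (nB M : ℝ) ^ 2)
        = num (nB M) (triH' M n :: h :: hs) / 8 := by
      rw [cNx, num_cons, num_cons, alg_z2 hB0]
    rw [e4]

end

end Vale.Agent.Lib.P113
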