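import Vale.Agent.Lib.P113.Bump

/-!
The derivatives of the smooth step at a point of `(0, 1)` are polynomials with integer coefficients
in `1 / t`, `1 / (1 - t)` and the value of the step.
-/

namespace Vale.Agent.Lib.P113

open Set Filter Topology
open scoped ContDiff

/-- A monomial `(i, j, k, p, m)` stands for `(p - m) y^i z^j T^k`. -/
abbrev Mono := ℕ × ℕ × ℕ × ℕ × ℕ

/-- The value of a monomial. -/
noncomputable def monoVal (y z T : ℝ) (m : Mono) : ℝ :=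
  ((m.2.2.2.1 : ℝ) - (m.2.2.2.2 : ℝ)) * y ^ m.1 * z ^ m.2.1 * T ^ m.2.2.1

/-- The derivative of a monomial in `t`, where `y' = -y²`, `z' = z²`, `T' = T (1 - T) (y² + z²)`. -/
def monoD (m : Mono) : List Mono :=
  [(m.1 + 1, m.2.1, m.2.2.1, m.1 * m.2.2.2.2, m.1 * m.2.2.2.1),
   (m.1, m.2.1 + 1, m.2.2.1, m.2.1 * m.2.2.2.1, m.2.1 * m.2.2.2.2),
   (m.1 + 2, m.2.1, m.2.2.1, m.2.2.1 * m.2.2.2.1, m.2.2.1 * m.2.2.2.2),
   (m.1, m.2.1 + 2, m.2.2.1, m.2.2.1 * m.2.2.2.1, m.2.2.1 * m.2.2.2.2),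
   (m.1 + 2, m.2.1, m.2.2.1 + 1, m.2.2.1 * m.2.2.2.2, m.2.2.1 * m.2.2.2.1),
   (m.1, m.2.1 + 2, m.2.2.1 + 1, m.2.2.1 * m.2.2.2.2, m.2.2.1 * m.2.2.2.1)]

/-- The derivative of a polynomial, as a list of monomials. -/
def polyD (L : List Mono) : List Mono := L.flatMap monoD

/-- The value of a polynomial. -/
noncomputable def polyVal (y z T : ℝ) (L : List Mono) : ℝ := (L.map (monoVal y z T)).sum

/-- The polynomial of the `n`-th derivative of the step. -/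
def sPoly (n : ℕ) : List Mono := polyD^[n] [(0, 0, 1, 1, 0)]

theorem St_eq_inside {t : ℝ} (h0 : 0 < t) (h1 : t < 1) :
    St t = Real.exp (-t⁻¹) / (Real.exp (-t⁻¹) + Real.exp (-(1 - t)⁻¹)) := by
  have h2 : ¬ t ≤ 0 := not_le.2 h0
  have h3 : ¬ 1 - t ≤ 0 := by linarith
  simp [St, Real.smoothTransition, expNegInvGlue, h2, h3]

/-- The derivative of `1 / s`. -/
theorem hasDeriv_y {t : ℝ} (hne : t ≠ 0) : HasDerivAt (fun s : ℝ => s⁻¹) (-(t⁻¹) ^ 2) t := by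
  refine (hasDerivAt_inv hne).congr_deriv ?_
  rw [inv_pow]

/-- The derivative of `1 / (1 - s)`. -/
theorem hasDeriv_z {t : ℝ} (hne : 1 - t ≠ 0) :
    HasDerivAt (fun s : ℝ => (1 - s)⁻¹) (((1 - t)⁻¹) ^ 2) t := by
  have h3 : HasDerivAt (fun s : ℝ => 1 - s) (-1) t := by
    simpa using (hasDerivAt_id t).const_sub 1
  have h4 : HasDerivAt (fun s : ℝ => (1 - s)⁻¹) (-(-1) / (1 - t) ^ 2) t := h3.inv hne
  refine h4.congr_deriv ?_
  rw [inv_pow]; simp [div_eq_mul_inv]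

/-- The logistic equation of the smooth step. -/
theorem St_hasDeriv {t : ℝ} (h0 : 0 < t) (h1 : t < 1) :
    HasDerivAt St (St t * (1 - St t) * ((t⁻¹) ^ 2 + ((1 - t)⁻¹) ^ 2)) t := by
  have hne : t ≠ 0 := h0.ne'
  have hne1 : 1 - t ≠ 0 := by linarith
  have e1 : HasDerivAt (fun s : ℝ => Real.exp (-s⁻¹)) (Real.exp (-t⁻¹) * (t⁻¹) ^ 2) t := by
    have h2 : HasDerivAt (fun s : ℝ => -s⁻¹) (-(-(t⁻¹) ^ 2)) t := (hasDeriv_y hne).neg
    have h3 := h2.exp
    rwa [neg_neg] at h3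
  have e2 : HasDerivAt (fun s : ℝ => Real.exp (-(1 - s)⁻¹))
      (Real.exp (-(1 - t)⁻¹) * (-((1 - t)⁻¹) ^ 2)) t := by
    have h2 : HasDerivAt (fun s : ℝ => -(1 - s)⁻¹) (-((1 - t)⁻¹) ^ 2) t := (hasDeriv_z hne1).neg
    exact h2.exp
  have hpos : 0 < Real.exp (-t⁻¹) + Real.exp (-(1 - t)⁻¹) := by positivity
  have e3 : HasDerivAt (fun s : ℝ => Real.exp (-s⁻¹) / (Real.exp (-s⁻¹) + Real.exp (-(1 - s)⁻¹)))
      ((Real.exp (-t⁻¹) * (t⁻¹) ^ 2 * (Real.exp (-t⁻¹) + Real.exp (-(1 - t)⁻¹))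
        - Real.exp (-t⁻¹) * (Real.exp (-t⁻¹) * (t⁻¹) ^ 2
          + Real.exp (-(1 - t)⁻¹) * (-((1 - t)⁻¹) ^ 2)))
        / (Real.exp (-t⁻¹) + Real.exp (-(1 - t)⁻¹)) ^ 2) t :=
    e1.div (e1.add e2) hpos.ne'
  have heq : St =ᶠ[𝓝 t] fun s => Real.exp (-s⁻¹) / (Real.exp (-s⁻¹) + Real.exp (-(1 - s)⁻¹)) := by
    filter_upwards [Ioo_mem_nhds h0 h1] with s hs
    exact St_eq_inside hs.1 hs.2
  refine (e3.congr_of_eventuallyEq heq).congr_deriv ?_
  rw [St_eq_inside h0 h1]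
  have hd := hpos.ne'
  set A := Real.exp (-t⁻¹)
  set B := Real.exp (-(1 - t)⁻¹)
  set y := t⁻¹
  set z := (1 - t)⁻¹
  field_simp
  ring

theorem monoVal_hasDeriv {t : ℝ} (h0 : 0 < t) (h1 : t < 1) (m : Mono) :
    HasDerivAt (fun s => monoVal s⁻¹ (1 - s)⁻¹ (St s) m)
      (polyVal t⁻¹ (1 - t)⁻¹ (St t) (monoD m)) t := by
  obtain ⟨i, j, k, p, q⟩ := m
  have hne : t ≠ 0 := h0.ne'
  have hne1 : 1 - t ≠ 0 := by linarith
  have ey := hasDeriv_y hne
  have ez := hasDeriv_z hne1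
  have eT := St_hasDeriv h0 h1
  simp only [monoVal]
  set y := t⁻¹ with hy
  set z := (1 - t)⁻¹ with hz
  set T := St t with hT
  have e : HasDerivAt (fun s : ℝ => ((p : ℝ) - q) * s⁻¹ ^ i * (1 - s)⁻¹ ^ j * St s ^ k)
      ((((p : ℝ) - q) * ((i : ℝ) * y ^ (i - 1) * (-y ^ 2)) * z ^ j
        + ((p : ℝ) - q) * y ^ i * ((j : ℝ) * z ^ (j - 1) * z ^ 2)) * T ^ k
        + ((p : ℝ) - q) * y ^ i * z ^ j * ((k : ℝ) * T ^ (k - 1) * (T * (1 - T) * (y ^ 2 + z ^ 2)))) t :=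
    (((ey.pow i).const_mul ((p : ℝ) - (q : ℝ))).mul (ez.pow j)).mul (eT.pow k)
  refine HasDerivAt.congr_deriv e ?_
  have a1 : (i : ℝ) * y ^ (i - 1) * y ^ 2 = i * y ^ (i + 1) := by
    cases i with
    | zero => simp
    | succ n => simp only [Nat.add_sub_cancel]; ring
  have a2 : (j : ℝ) * z ^ (j - 1) * z ^ 2 = j * z ^ (j + 1) := by
    cases j with
    | zero => simp
    | succ n => simp only [Nat.add_sub_cancel]; ring
  have a3 : (k : ℝ) * T ^ (k - 1) * T = k * T ^ k := by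
    cases k with
    | zero => simp
    | succ n => simp only [Nat.add_sub_cancel]; ring
  simp only [polyVal, monoD, List.map_cons, List.map_nil, List.sum_cons, List.sum_nil, monoVal]
  push_cast
  calc _ = ((p : ℝ) - q) * (-((i : ℝ) * y ^ (i - 1) * y ^ 2)) * z ^ j * T ^ k
        + ((p : ℝ) - q) * y ^ i * ((j : ℝ) * z ^ (j - 1) * z ^ 2) * T ^ k
        + ((p : ℝ) - q) * y ^ i * z ^ j * (((k : ℝ) * T ^ (k - 1) * T) * (1 - T) * (y ^ 2 + z ^ 2)) := by
        ring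
    _ = _ := by
        rw [a1, a2, a3]; ring

theorem polyVal_hasDeriv {t : ℝ} (h0 : 0 < t) (h1 : t < 1) (L : List Mono) :
    HasDerivAt (fun s => polyVal s⁻¹ (1 - s)⁻¹ (St s) L)
      (polyVal t⁻¹ (1 - t)⁻¹ (St t) (polyD L)) t := by
  induction L with
  | nil =>
    simp only [polyVal, polyD, List.map_nil, List.sum_nil, List.flatMap_nil]
    exact hasDerivAt_const _ _
  | cons m L ih =>
    have e := (monoVal_hasDeriv h0 h1 m).add ih
    have e2 : polyVal t⁻¹ (1 - t)⁻¹ (St t) (polyD (m :: L))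
        = polyVal t⁻¹ (1 - t)⁻¹ (St t) (monoD m) + polyVal t⁻¹ (1 - t)⁻¹ (St t) (polyD L) := by
      simp [polyVal, polyD, List.flatMap_cons, List.map_append, List.sum_append]
    rw [e2]
    exact e

/-- The `n`-th derivative of the step at a point of `(0, 1)`. -/
theorem St_jet_inside (n : ℕ) : ∀ {t : ℝ}, 0 < t → t < 1 →
    deriv^[n] St t = polyVal t⁻¹ (1 - t)⁻¹ (St t) (sPoly n) := by
  induction n with
  | zero =>
    intro t _ _
    simp [sPoly, polyVal, monoVal]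
  | succ n ih =>
    intro t h0 h1
    rw [Function.iterate_succ_apply']
    have heq : deriv^[n] St =ᶠ[𝓝 t] fun s => polyVal s⁻¹ (1 - s)⁻¹ (St s) (sPoly n) := by
      filter_upwards [Ioo_mem_nhds h0 h1] with s hs
      exact ih hs.1 hs.2
    rw [heq.deriv_eq, (polyVal_hasDeriv h0 h1 (sPoly n)).deriv, sPoly, sPoly,
      Function.iterate_succ_apply']

theorem St_iter_continuous (n : ℕ) : Continuous (deriv^[n] St) :=
  (smooth_iter_deriv St_smooth n).continuous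

theorem St_jet_left (n : ℕ) {y : ℝ} (hy : y ≤ 0) : deriv^[n] St y = 0 := by
  have h1 : ∀ z ∈ Iio (0 : ℝ), deriv^[n] St z = 0 :=
    iter_deriv_zero_of_open isOpen_Iio (fun z hz => St_zero (le_of_lt hz)) n
  have h2 : Iic (0 : ℝ) ⊆ {z | deriv^[n] St z = 0} := by
    rw [← closure_Iio]
    exact (isClosed_eq (St_iter_continuous n) continuous_const).closure_subset_iff.2 h1
  exact h2 hy

theorem St_jet_right (n : ℕ) {y : ℝ} (hy : 1 ≤ y) : deriv^[n + 1] St y = 0 := by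
  have h0 : ∀ z ∈ Ioi (1 : ℝ), deriv St z = 0 := by
    intro z hz
    have : St =ᶠ[𝓝 z] fun _ => 1 :=
      Filter.eventually_of_mem (Ioi_mem_nhds hz) (fun w hw => St_one (le_of_lt hw))
    rw [this.deriv_eq]; simp
  have h1 : ∀ z ∈ Ioi (1 : ℝ), deriv^[n + 1] St z = 0 := by
    rw [Function.iterate_succ_apply]
    exact iter_deriv_zero_of_open isOpen_Ioi h0 n
  have h2 : Ici (1 : ℝ) ⊆ {z | deriv^[n + 1] St z = 0} := by
    rw [← closure_Ioi]
    exact (isClosed_eq (St_iter_continuous (n + 1)) continuous_const).closure_subset_iff.2 h1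
  exact h2 hy

/-- The `n`-th derivative of the step at any point, in closed form. -/
noncomputable def SjF (n : ℕ) (y : ℝ) : ℝ :=
  if y ≤ 0 then 0
  else if 1 ≤ y then (if n = 0 then 1 else 0)
  else polyVal y⁻¹ (1 - y)⁻¹ (St y) (sPoly n)

theorem St_jet (n : ℕ) (y : ℝ) : deriv^[n] St y = SjF n y := by
  unfold SjF
  split_ifs with h1 h2 h3
  · exact St_jet_left n h1
  · subst h3; exact St_one h2
  · obtain ⟨m, rfl⟩ := Nat.exists_eq_succ_of_ne_zero h3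
    exact St_jet_right m h2
  · exact St_jet_inside n (not_le.1 h1) (not_le.1 h2)

/-- The derivatives of the plateau profile (Leibniz). -/
theorem psi0_jet (m : ℕ) (y : ℝ) :
    deriv^[m] psi0 y = ∑ i ∈ Finset.range (m + 1),
      (m.choose i : ℝ) * (8 ^ i * SjF i (8 * y + 1)) * ((-8) ^ (m - i) * SjF (m - i) (5 - 8 * y)) := by
  have hf : ContDiff ℝ ∞ (fun y : ℝ => St (8 * y + 1)) := St_smooth.comp (by fun_prop)
  have hg : ContDiff ℝ ∞ (fun y : ℝ => St ((-8) * y + 5)) := St_smooth.comp (by fun_prop)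
  have e : psi0 = (fun y : ℝ => St (8 * y + 1)) * (fun y : ℝ => St ((-8) * y + 5)) := by
    funext z
    simp only [psi0, Pi.mul_apply]
    congr 2
    ring
  rw [← iteratedDeriv_eq_iterate, e,
    iteratedDeriv_mul (hf.contDiffAt.of_le (by exact_mod_cast le_top))
      (hg.contDiffAt.of_le (by exact_mod_cast le_top))]
  apply Finset.sum_congr rfl
  intro i _
  rw [iteratedDeriv_eq_iterate, iteratedDeriv_eq_iterate, iter_deriv_affine, iter_deriv_affine]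
  beta_reduce
  rw [St_jet, St_jet]
  have : (-8 : ℝ) * y + 5 = 5 - 8 * y := by ring
  rw [this]

end Vale.Agent.Lib.P113
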