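import Vale.Agent.Lib.P113.Jets

/-!
Shear schedules: the flows used for the halting construction.

Time is cut into unit slots; in slot `n` a single shear `V (s n)` is active, with the time profile
`tau`, which vanishes near the integers and has total mass one on each slot.  A shear along the
axis `i` has the form `amp · p(x_{i+1}) · q(x_{i+2}) · e_i`, the profiles `p, q` being described by
rational data (`ProfCode`), so that `(u · ∇) u = 0` and `div u = 0`, and the force is simply
`f = ∂ₜ u - ν Δ u`.
-/

namespace Vale.Agent.Lib.P113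

open Set

/-- Data of a one dimensional profile: `(kind, l, r, d, c)`.  Kind `0` is the constant `1`; kind `1`
is the window `window l r d`; any other kind is `(y' - c) * window l r d`, where `y'` is the
fractional part of `y`.  -/
abbrev ProfCode := ℕ × RatCode × RatCode × RatCode × RatCode

/-- Data of a shear: `(i, amp, p, q)`, the axis being `i mod 3`. -/
abbrev ShearCode := ℕ × RatCode × ProfCode × ProfCode

/-- The periodic window: `1` on `[l + d, r]`, `0` off `[l, r + d]` (within `[0, 1)`). -/
noncomputable def rawWindow (l r d y : ℝ) : ℝ :=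
  stepB ((y - l) / d) - stepB ((y - r) / d)

/-- The periodic profile of the data `P`. -/
noncomputable def prof (P : ProfCode) (y : ℝ) : ℝ :=
  if P.1 = 0 then 1
  else if P.1 = 1 then rawWindow P.2.1.val P.2.2.1.val P.2.2.2.1.val (Int.fract y)
  else (Int.fract y - P.2.2.2.2.val) *
    rawWindow P.2.1.val P.2.2.1.val P.2.2.2.1.val (Int.fract y)

/-- Validity of profile data: the ramps of the window lie inside `(0, 1)`. -/
def ProfValid (P : ProfCode) : Prop :=
  P.1 = 0 ∨ (0 < P.2.2.2.1.val ∧ 0 < P.2.1.val ∧ P.2.2.1.val + P.2.2.2.1.val < 1 ∧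
    P.2.1.val ≤ P.2.2.1.val)

/-- The next two axes after `i`. -/
def axis (n : ℕ) : Fin 3 := ⟨n % 3, Nat.mod_lt _ (by norm_num)⟩

/-- Validity of shear data. -/
def ShearValid (S : ShearCode) : Prop := ProfValid S.2.2.1 ∧ ProfValid S.2.2.2

/-- The scalar magnitude `amp · p(x_{i+1}) · q(x_{i+2})` of a shear. -/
noncomputable def shearMag (S : ShearCode) (x : R3) : ℝ :=
  S.2.1.val * prof S.2.2.1 (x (axis S.1 + 1)) * prof S.2.2.2 (x (axis S.1 + 2))

/-- The velocity field of a shear. -/
noncomputable def shearField (S : ShearCode) (x : R3) : R3 :=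
  fun j => if j = axis S.1 then shearMag S x else 0

/-- The Laplacian of the magnitude of a shear. -/
noncomputable def shearLap (S : ShearCode) (x : R3) : ℝ :=
  S.2.1.val * (iteratedDeriv 2 (prof S.2.2.1) (x (axis S.1 + 1)) * prof S.2.2.2 (x (axis S.1 + 2)) +
    prof S.2.2.1 (x (axis S.1 + 1)) * iteratedDeriv 2 (prof S.2.2.2) (x (axis S.1 + 2)))

/-- Time profile and its derivatives: `tauJet a t = 3^a · B^{(a)}(3 fract t - 1)`. -/
noncomputable def tauJet (a : ℕ) (t : ℝ) : ℝ :=
  3 ^ a * iteratedDeriv a stepB (3 * Int.fract t - 1)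

/-- The time profile of a slot. -/
noncomputable def tau (t : ℝ) : ℝ := tauJet 1 t

/-- The primitive of the time profile on a slot: goes from `0` to `1` on `[0, 1]`. -/
noncomputable def rho (s : ℝ) : ℝ := stepB (3 * s - 1)

/-- The velocity of a schedule `s`: in slot `n` the shear `s n` is active. -/
noncomputable def vel (s : ℕ → ShearCode) (t : ℝ) (x : R3) : R3 :=
  fun j => tau t * shearField (s ⌊t⌋₊) x j

/-- The force of a schedule `s`: `f = ∂ₜ u - ν Δ u`. -/
noncomputable def force (ν : ℝ) (s : ℕ → ShearCode) (t : ℝ) (x : R3) : R3 :=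
  fun j => if j = axis (s ⌊t⌋₊).1 then
    tauJet 2 t * shearMag (s ⌊t⌋₊) x - ν * (tau t * shearLap (s ⌊t⌋₊) x) else 0

/-- The zero pressure. -/
def zeroP (_ : ℝ) (_ : R3) : ℝ := 0

/-- The position after slot `n` from the point `a`: the shears act one after the other. -/
noncomputable def pos (s : ℕ → ShearCode) (a : R3) : ℕ → R3
  | 0 => a
  | n + 1 => fun j => pos s a n j + shearField (s n) (pos s a n) j

/-- The path from `a` of the schedule, in closed form. -/
noncomputable def path (s : ℕ → ShearCode) (a : R3) (t : ℝ) : R3 :=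
  fun j => pos s a ⌊t⌋₊ j + rho (Int.fract t) * shearField (s ⌊t⌋₊) (pos s a ⌊t⌋₊) j

/-- The schedule from `a` meets `O`: some point of some straight segment of the orbit is in `O`. -/
def Meets (s : ℕ → ShearCode) (a : R3) (O : Set R3) : Prop :=
  ∃ n : ℕ, ∃ θ ∈ Icc (0 : ℝ) 1, (fun j => pos s a n j + θ * shearField (s n) (pos s a n) j) ∈ O

end Vale.Agent.Lib.P113
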