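import Vale.Agent.Lib.P113.Data

/-!
Arithmetic of the tables.
-/

namespace Vale.Agent.Lib.P113

open Machine

section

variable {M : Machine}

theorem nK_ge (hM : M.Valid) : 3 ≤ nK M := by
  have hA : 1 ≤ nA M := hM.1
  have hQ : 1 ≤ nQ M := by
    have : M.start < M.numStates := hM.2.1
    unfold nQ; omega
  unfold nK
  have : 1 * 1 ≤ nQ M * nA M := Nat.mul_le_mul hQ hA
  omega

theorem nS_ge (hM : M.Valid) : 7 ≤ nS M := by
  have hK := nK_ge hM
  have hQ : 1 ≤ nQ M := by
    have : M.start < M.numStates := hM.2.1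
    unfold nQ; omega
  unfold nS
  have : 3 * 2 ≤ nK M * (nQ M + 1) := Nat.mul_le_mul hK (by omega)
  omega

theorem nD_ge (hM : M.Valid) : 63 ≤ nD M := by
  have hK := nK_ge hM
  have hS := nS_ge hM
  unfold nD
  have h1 : 7 * 3 ≤ nS M * nK M := Nat.mul_le_mul hS hK
  have h2 : 7 * 3 * 3 ≤ nS M * nK M * nK M := Nat.mul_le_mul h1 hK
  omega

theorem nK_le_nD (hM : M.Valid) : nK M ≤ nD M := by
  have hK := nK_ge hM
  have hS := nS_ge hM
  unfold nD
  have h1 : 1 * nK M ≤ nS M * nK M := Nat.mul_le_mul (by omega) le_rfl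
  have h2 : nK M * 1 ≤ nS M * nK M * nK M := Nat.mul_le_mul (by omega) (by omega)
  omega

theorem nB_eq : nB M = 2 * nD M + 2 := rfl

theorem nB_ge (hM : M.Valid) : 128 ≤ nB M := by
  have := nD_ge hM
  unfold nB; omega

theorem nK_pos (hM : M.Valid) : 0 < nK M := by
  have := nK_ge hM; omega

theorem triA_lt (hM : M.Valid) (n : ℕ) : triA M n < nK M := Nat.mod_lt _ (nK_pos hM)

theorem triA'_lt (hM : M.Valid) (n : ℕ) : triA' M n < nK M := Nat.mod_lt _ (nK_pos hM)

theorem triH_lt (hM : M.Valid) {n : ℕ} (hn : n < nD M * nK M * nK M) : triH M n < nD M := by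
  unfold triH
  apply Nat.div_lt_of_lt_mul
  calc n < _ := hn
    _ = _ := by ring

theorem tri_recompose (hM : M.Valid) (n : ℕ) :
    n = triH M n * nK M * nK M + triA M n * nK M + triA' M n := by
  have hK := nK_pos hM
  unfold triH triA triA'
  rw [← Nat.div_div_eq_div_mul]
  have h1 := Nat.div_add_mod n (nK M)
  have h2 := Nat.div_add_mod (n / nK M) (nK M)
  calc n = nK M * (n / nK M) + n % nK M := h1.symm
    _ = nK M * (nK M * (n / nK M / nK M) + n / nK M % nK M) + n % nK M := by rw [h2]
    _ = _ := by ring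

theorem tri_ext (hM : M.Valid) {n m : ℕ} (h1 : triH M n = triH M m) (h2 : triA M n = triA M m)
    (h3 : triA' M n = triA' M m) : n = m := by
  rw [tri_recompose hM n, tri_recompose hM m, h1, h2, h3]

/-- The index of a triple of digits. -/
def triIndex (M : Machine) (h a a' : ℕ) : ℕ := h * nK M * nK M + a * nK M + a'

theorem triIndex_lt (hM : M.Valid) {h a a' : ℕ} (hh : h < nD M) (ha : a < nK M) (ha' : a' < nK M) :
    triIndex M h a a' < nD M * nK M * nK M := by
  unfold triIndex
  have hK := nK_pos hM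
  have h1 : (h + 1) * nK M * nK M ≤ nD M * nK M * nK M :=
    Nat.mul_le_mul (Nat.mul_le_mul hh le_rfl) le_rfl
  have h2 : (a + 1) * nK M ≤ nK M * nK M := Nat.mul_le_mul ha le_rfl
  have e : (h + 1) * nK M * nK M = h * nK M * nK M + nK M * nK M := by ring
  have e2 : (a + 1) * nK M = a * nK M + nK M := by ring
  omega

theorem triIndex_A' {h a a' : ℕ} (ha' : a' < nK M) :
    triA' M (triIndex M h a a') = a' := by
  unfold triA' triIndex
  have e : h * nK M * nK M + a * nK M + a' = a' + nK M * (h * nK M + a) := by ring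
  rw [e, Nat.add_mul_mod_self_left, Nat.mod_eq_of_lt ha']

theorem triIndex_div (hM : M.Valid) {h a a' : ℕ} (ha' : a' < nK M) :
    triIndex M h a a' / nK M = h * nK M + a := by
  have hK := nK_pos hM
  unfold triIndex
  have e : h * nK M * nK M + a * nK M + a' = a' + nK M * (h * nK M + a) := by ring
  rw [e, Nat.add_mul_div_left _ _ hK, Nat.div_eq_of_lt ha']
  simp

theorem triIndex_A (hM : M.Valid) {h a a' : ℕ} (ha : a < nK M) (ha' : a' < nK M) :
    triA M (triIndex M h a a') = a := by
  unfold triA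
  rw [triIndex_div hM ha']
  have e : h * nK M + a = a + nK M * h := by ring
  rw [e, Nat.add_mul_mod_self_left, Nat.mod_eq_of_lt ha]

theorem triIndex_H (hM : M.Valid) {h a a' : ℕ} (ha : a < nK M) (ha' : a' < nK M) :
    triH M (triIndex M h a a') = h := by
  have hK := nK_pos hM
  unfold triH
  rw [← Nat.div_div_eq_div_mul, triIndex_div hM ha']
  have e : h * nK M + a = a + nK M * h := by ring
  rw [e, Nat.add_mul_div_left _ _ hK, Nat.div_eq_of_lt ha]
  simp

theorem triRule_lt (hM : M.Valid) {n : ℕ} (hn : n < nD M * nK M * nK M) :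
    (triRule M n).1 < nS M ∧ (triRule M n).2.2.1 < nK M ∧
      (triRule M n).2.2.2.1 < nK M ∧ (triRule M n).2.2.2.2 < nK M := by
  have hK := nK_pos hM
  have h1 := triH_lt hM hn
  have h2 : triH M n / (nK M * nK M) < nS M := by
    apply Nat.div_lt_of_lt_mul
    unfold nD at h1
    calc triH M n < _ := h1
      _ = _ := by ring
  exact qmNext_lt hM h2 (triA_lt hM n) (triA'_lt hM n)

theorem triH'_lt (hM : M.Valid) {n : ℕ} (hn : n < nD M * nK M * nK M) : triH' M n < nD M := by
  have hK := nK_pos hM
  have h1 := (triRule_lt hM hn).1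
  have h2 := triA_lt hM n
  have h3 := triA'_lt hM n
  unfold triH' nD
  have h4 : ((triRule M n).1 + 1) * nK M * nK M ≤ nS M * nK M * nK M :=
    Nat.mul_le_mul (Nat.mul_le_mul h1 le_rfl) le_rfl
  have h5 : (triA M n + 1) * nK M ≤ nK M * nK M := Nat.mul_le_mul h2 le_rfl
  have e : ((triRule M n).1 + 1) * nK M * nK M = (triRule M n).1 * nK M * nK M + nK M * nK M := by
    ring
  have e2 : (triA M n + 1) * nK M = triA M n * nK M + nK M := by ring
  omega

theorem triNx_lt (hM : M.Valid) {n : ℕ} (hn : n < nD M * nK M * nK M) :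
    triNx M n + 1 ≤ nD M * nB M := by
  have h1 := triH'_lt hM hn
  have h2 := triH_lt hM hn
  have hB : nB M = 2 * nD M + 2 := rfl
  unfold triNx
  have h3 : (triH' M n + 1) * nB M ≤ nD M * nB M := Nat.mul_le_mul h1 le_rfl
  have e : (triH' M n + 1) * nB M = triH' M n * nB M + nB M := by ring
  omega

theorem triN0_lt (hM : M.Valid) {n : ℕ} (hn : n < nD M * nK M * nK M) :
    triN0 M n + 1 ≤ nK M * nD M * nB M := by
  have h2 := triH_lt hM hn
  have h3 := triA_lt hM n
  have h4 := triA'_lt hM n
  have hKD := nK_le_nD hM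
  have hB : nB M = 2 * nD M + 2 := rfl
  unfold triN0
  have h5 : (nK M * triH M n + triA M n + 1) * nB M ≤ nK M * nD M * nB M := by
    apply Nat.mul_le_mul _ le_rfl
    have : nK M * (triH M n + 1) ≤ nK M * nD M := Nat.mul_le_mul le_rfl h2
    have e : nK M * (triH M n + 1) = nK M * triH M n + nK M := by ring
    omega
  have e : (nK M * triH M n + triA M n + 1) * nB M
      = (nK M * triH M n + triA M n) * nB M + nB M := by ring
  omega

theorem triNx_inj (hM : M.Valid) {n m : ℕ} (hn : n < nD M * nK M * nK M)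
    (hm : m < nD M * nK M * nK M) (h : triNx M n = triNx M m) : n = m := by
  have hB : nB M = 2 * nD M + 2 := rfl
  have hK := nK_pos hM
  have h2n := triH_lt hM hn
  have h2m := triH_lt hM hm
  have hBpos : 0 < nB M := by omega
  have dec : ∀ r, r < nD M * nK M * nK M →
      triNx M r % nB M = triH M r ∧ triNx M r / nB M = triH' M r := by
    intro r hr
    have hh := triH_lt hM hr
    unfold triNx
    have e : triH' M r * nB M + triH M r = triH M r + nB M * triH' M r := by ring
    rw [e, Nat.add_mul_mod_self_left, Nat.add_mul_div_left _ _ hBpos,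
      Nat.mod_eq_of_lt (by omega), Nat.div_eq_of_lt (by omega)]
    simp
  have dec2 : ∀ r, triH' M r % nK M = triA' M r ∧ triH' M r / nK M % nK M = triA M r := by
    intro r
    have h3 := triA_lt hM r
    have h4 := triA'_lt hM r
    have e : triH' M r = triA' M r + nK M * ((triRule M r).1 * nK M + triA M r) := by
      unfold triH'; ring
    constructor
    · rw [e, Nat.add_mul_mod_self_left, Nat.mod_eq_of_lt h4]
    · rw [e, Nat.add_mul_div_left _ _ hK, Nat.div_eq_of_lt h4, Nat.zero_add]
      have e2 : (triRule M r).1 * nK M + triA M r = triA M r + nK M * (triRule M r).1 := by ring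
      rw [e2, Nat.add_mul_mod_self_left, Nat.mod_eq_of_lt h3]
  have a1 := dec n hn
  have a2 := dec m hm
  rw [h] at a1
  have e1 : triH M n = triH M m := a1.1.symm.trans a2.1
  have e2 : triH' M n = triH' M m := a1.2.symm.trans a2.2
  apply tri_ext hM e1
  · rw [← (dec2 n).2, ← (dec2 m).2, e2]
  · rw [← (dec2 n).1, ← (dec2 m).1, e2]

theorem triN0_inj (hM : M.Valid) {n m : ℕ} (h : triN0 M n = triN0 M m) : n = m := by
  have hB : nB M = 2 * nD M + 2 := rfl
  have hK := nK_pos hM
  have hKD := nK_le_nD hM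
  have hBpos : 0 < nB M := by omega
  have dec : ∀ r, triN0 M r % nB M = triA' M r ∧ triN0 M r / nB M = nK M * triH M r + triA M r := by
    intro r
    have h4 := triA'_lt hM r
    unfold triN0
    have e : (nK M * triH M r + triA M r) * nB M + triA' M r
        = triA' M r + nB M * (nK M * triH M r + triA M r) := by ring
    rw [e, Nat.add_mul_mod_self_left, Nat.add_mul_div_left _ _ hBpos,
      Nat.mod_eq_of_lt (by omega), Nat.div_eq_of_lt (by omega)]
    simp
  have dec2 : ∀ r, (nK M * triH M r + triA M r) % nK M = triA M r ∧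
      (nK M * triH M r + triA M r) / nK M = triH M r := by
    intro r
    have h3 := triA_lt hM r
    have e : nK M * triH M r + triA M r = triA M r + nK M * triH M r := by ring
    rw [e, Nat.add_mul_mod_self_left, Nat.add_mul_div_left _ _ hK, Nat.mod_eq_of_lt h3,
      Nat.div_eq_of_lt h3]
    simp
  have a1 := dec n
  have a2 := dec m
  rw [h] at a1
  have e1 : triA' M n = triA' M m := a1.1.symm.trans a2.1
  have e2 : nK M * triH M n + triA M n = nK M * triH M m + triA M m := a1.2.symm.trans a2.2
  apply tri_ext hM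
  · rw [← (dec2 n).2, ← (dec2 m).2, e2]
  · rw [← (dec2 n).1, ← (dec2 m).1, e2]
  · exact e1

/-- The growth flag takes the values `0` and `1`. -/
theorem qmNext_flag (s a b : ℕ) : (qmNext M s a b).2.1 = 0 ∨ (qmNext M s a b).2.1 = 1 := by
  unfold qmNext
  dsimp only
  split_ifs <;> simp

end

end Vale.Agent.Lib.P113
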